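import Mathlib

/-!
Order statistics defined as a maximum of minima, and the identity behind the leave-one-out test.
-/

noncomputable section

open Finset
open scoped BigOperators

namespace Vale.Agent.P254

variable {ι : Type*}

/-- The minimum of `a` over `A`, and zero for the empty set. -/
def minOn (A : Finset ι) (a : ι → ℝ) : ℝ := if h : A.Nonempty then A.inf' h a else 0

/-- The `k`-th largest of the values of `a` on `s`, and zero when `s` has fewer than `k` elements. -/
def kth (k : ℕ) (s : Finset ι) (a : ι → ℝ) : ℝ :=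
  if h : (s.powersetCard k).Nonempty then (s.powersetCard k).sup' h fun A => minOn A a else 0

lemma kth_eq_of {k : ℕ} (hk : 1 ≤ k) {s : Finset ι} {a : ι → ℝ} {c : ℝ}
    (h1 : ∃ A, A ⊆ s ∧ A.card = k ∧ ∀ i ∈ A, c ≤ a i)
    (h2 : ∀ A, A ⊆ s → A.card = k → ∃ i ∈ A, a i ≤ c) : kth k s a = c := by
  obtain ⟨A, hAs, hAk, hAc⟩ := h1
  have hA : A ∈ s.powersetCard k := mem_powersetCard.2 ⟨hAs, hAk⟩
  have hne : (s.powersetCard k).Nonempty := ⟨A, hA⟩
  have hmin : ∀ B : Finset ι, B.card = k → B.Nonempty := fun B hB => card_pos.1 (by omega)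
  rw [kth, dif_pos hne]
  refine le_antisymm (sup'_le hne _ fun B hB => ?_) ?_
  · obtain ⟨hBs, hBk⟩ := mem_powersetCard.1 hB
    obtain ⟨i, hi, hic⟩ := h2 B hBs hBk
    rw [minOn, dif_pos (hmin B hBk)]
    exact (inf'_le a hi).trans hic
  · refine le_trans ?_ (le_sup' (fun B => minOn B a) hA)
    rw [minOn, dif_pos (hmin A hAk)]
    exact le_inf' _ _ hAc

lemma minOn_nonneg {A : Finset ι} {a : ι → ℝ} (ha : ∀ i, 0 ≤ a i) : 0 ≤ minOn A a := by
  unfold minOn
  split
  · exact le_inf' _ _ fun i _ => ha i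
  · exact le_rfl

lemma kth_nonneg {k : ℕ} {s : Finset ι} {a : ι → ℝ} (ha : ∀ i, 0 ≤ a i) : 0 ≤ kth k s a := by
  unfold kth
  split
  · next h =>
    obtain ⟨A, hA⟩ := h
    exact le_trans (minOn_nonneg (A := A) ha) (le_sup' (fun B => minOn B a) hA)
  · exact le_rfl

lemma kth_le_sum {k : ℕ} {s : Finset ι} {a : ι → ℝ} (ha : ∀ i, 0 ≤ a i) :
    kth k s a ≤ ∑ i ∈ s, a i := by
  unfold kth
  split
  · next h =>
    refine sup'_le h _ fun A hA => ?_
    obtain ⟨hAs, -⟩ := mem_powersetCard.1 hA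
    unfold minOn
    split
    · next hne =>
      obtain ⟨i, hi⟩ := hne
      exact (inf'_le a hi).trans (single_le_sum (fun j _ => ha j) (hAs hi))
    · exact sum_nonneg fun j _ => ha j
  · exact sum_nonneg fun j _ => ha j

lemma kth_congr {k : ℕ} {s : Finset ι} {a b : ι → ℝ} (h : ∀ i ∈ s, a i = b i) :
    kth k s a = kth k s b := by
  unfold kth
  split
  · next hne =>
    refine sup'_congr hne rfl fun A hA => ?_
    obtain ⟨hAs, -⟩ := mem_powersetCard.1 hA
    unfold minOn
    split
    · exact inf'_congr _ rfl fun i hi => h i (hAs hi)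
    · rfl
  · rfl

lemma measurable_kth [Fintype ι] (k : ℕ) (s : Finset ι) :
    Measurable fun a : ι → ℝ => kth k s a := by
  by_cases h : (s.powersetCard k).Nonempty
  · have : (fun a : ι → ℝ => kth k s a)
        = (s.powersetCard k).sup' h fun A => fun a => minOn A a := by
      funext a; rw [kth, dif_pos h, Finset.sup'_apply]
    rw [this]
    refine Finset.measurable_sup' h fun A _ => ?_
    by_cases hA : A.Nonempty
    · have : (fun a : ι → ℝ => minOn A a) = A.inf' hA fun i => fun a => a i := by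
        funext a; rw [minOn, dif_pos hA, Finset.inf'_apply]
      rw [this]
      refine Finset.inf'_induction hA _ (p := fun f : (ι → ℝ) → ℝ => Measurable f)
        (fun f hf g hg => hf.inf hg) fun i _ => measurable_pi_apply i
    · simp only [minOn, dif_neg hA]
      exact measurable_const
  · simp only [kth, dif_neg h]
    exact measurable_const

/-- A decreasing enumeration of a finite family of reals. -/
lemma exists_antitone_perm {N : ℕ} (a : Fin N → ℝ) :
    ∃ σ : Equiv.Perm (Fin N), Antitone (a ∘ σ) := by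
  refine ⟨Fin.revPerm.trans (Tuple.sort a), fun i j hij => ?_⟩
  have h := Tuple.monotone_sort a (Fin.rev_le_rev.2 hij)
  simpa using h

/-- The `m`-th order statistic, read off from a decreasing enumeration. -/
lemma kth_univ {N m : ℕ} {a : Fin N → ℝ} {σ : Equiv.Perm (Fin N)} (hσ : Antitone (a ∘ σ))
    (hm : m < N) : kth (m + 1) univ a = a (σ ⟨m, hm⟩) := by
  refine kth_eq_of (Nat.succ_pos m) ⟨(Iic (⟨m, hm⟩ : Fin N)).map σ.toEmbedding, subset_univ _,
    by simp, ?_⟩ ?_
  · intro i hi
    obtain ⟨l, hl, rfl⟩ := mem_map.1 hi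
    exact hσ (mem_Iic.1 hl)
  · intro A _ hA
    by_contra hc
    push Not at hc
    have hsub : A ⊆ (Iio (⟨m, hm⟩ : Fin N)).map σ.toEmbedding := by
      intro i hi
      refine mem_map.2 ⟨σ.symm i, mem_Iio.2 (not_le.1 fun hle => ?_), by simp⟩
      have := hσ hle
      simp at this
      linarith [hc i hi]
    have := card_le_card hsub
    simp [hA] at this

/-- Leaving out the element of rank `l` from a decreasing enumeration. -/
lemma kth_erase {N k : ℕ} {a : Fin N → ℝ} {σ : Equiv.Perm (Fin N)} (hσ : Antitone (a ∘ σ))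
    (hk : 1 ≤ k) (hkN : k < N) (l : Fin N) :
    kth k (univ.erase (σ l)) a
      = if (l : ℕ) < k then a (σ ⟨k, hkN⟩) else a (σ ⟨k - 1, by omega⟩) := by
  split
  · next hl =>
    refine kth_eq_of hk ⟨((Iic (⟨k, hkN⟩ : Fin N)).erase l).map σ.toEmbedding, ?_, ?_, ?_⟩ ?_
    · intro i hi
      obtain ⟨j, hj, rfl⟩ := mem_map.1 hi
      simpa using (mem_erase.1 hj).1
    · rw [card_map, card_erase_of_mem (mem_Iic.2 (Fin.le_def.2 (by simpa using hl.le))),
        Fin.card_Iic]
      simp
    · intro i hi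
      obtain ⟨j, hj, rfl⟩ := mem_map.1 hi
      exact hσ (mem_Iic.1 (mem_erase.1 hj).2)
    · intro A hA hAk
      by_contra hc
      push Not at hc
      have hsub : A ⊆ ((Iio (⟨k, hkN⟩ : Fin N)).erase l).map σ.toEmbedding := by
        intro i hi
        refine mem_map.2 ⟨σ.symm i, mem_erase.2 ⟨?_, mem_Iio.2 (not_le.1 fun hle => ?_)⟩, by simp⟩
        · intro h
          exact (mem_erase.1 (hA hi)).1 (by rw [← h, σ.apply_symm_apply])
        · have := hσ hle
          simp at this
          linarith [hc i hi]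
      have := card_le_card hsub
      rw [card_map, card_erase_of_mem (mem_Iio.2 (Fin.lt_def.2 (by simpa using hl))),
        Fin.card_Iio] at this
      simp at this
      omega
  · next hl =>
    refine kth_eq_of hk ⟨(Iic (⟨k - 1, by omega⟩ : Fin N)).map σ.toEmbedding, ?_, ?_, ?_⟩ ?_
    · intro i hi
      obtain ⟨j, hj, rfl⟩ := mem_map.1 hi
      have hjl : j ≠ l := fun h => hl (by
        have := Fin.le_def.1 (mem_Iic.1 hj)
        simp at this
        omega)
      simpa using hjl
    · simp; omega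
    · intro i hi
      obtain ⟨j, hj, rfl⟩ := mem_map.1 hi
      exact hσ (mem_Iic.1 hj)
    · intro A _ hAk
      by_contra hc
      push Not at hc
      have hsub : A ⊆ (Iio (⟨k - 1, by omega⟩ : Fin N)).map σ.toEmbedding := by
        intro i hi
        refine mem_map.2 ⟨σ.symm i, mem_Iio.2 (not_le.1 fun hle => ?_), by simp⟩
        have := hσ hle
        simp at this
        linarith [hc i hi]
      have := card_le_card hsub
      simp [hAk] at this
      omega

/-- The sum of the leave-one-out tests equals the top sum plus a multiple of a spacing. -/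
lemma leaveOneOut_sum {N k : ℕ} (hk : 1 ≤ k) (hkN : k < N) (a : Fin N → ℝ) :
    ∑ i, ((k : ℝ) / N * kth k (univ.erase i) a + max (a i - kth k (univ.erase i) a) 0)
      = (∑ m ∈ range k, kth (m + 1) univ a)
        + (k : ℝ) * (1 - (k : ℝ) / N) * (kth k univ a - kth (k + 1) univ a) := by
  obtain ⟨σ, hσ⟩ := exists_antitone_perm a
  set v : ℕ → ℝ := fun m => kth (m + 1) univ a with hv
  have hvv : ∀ l : Fin N, a (σ l) = v l := fun l => (kth_univ hσ l.2).symm
  have hkv : kth k univ a = v (k - 1) := by simp only [hv]; congr 1; omega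
  rw [← Equiv.sum_comp σ]
  have hterm : ∀ l : Fin N, (k : ℝ) / N * kth k (univ.erase (σ l)) a
      + max (a (σ l) - kth k (univ.erase (σ l)) a) 0
      = if (l : ℕ) < k then (k : ℝ) / N * v k + (v l - v k) else (k : ℝ) / N * v (k - 1) := by
    intro l
    rw [kth_erase hσ hk hkN l]
    split
    · next hl =>
      have := hσ (Fin.le_def.2 (show (l : ℕ) ≤ ((⟨k, hkN⟩ : Fin N) : ℕ) from hl.le))
      simp only [Function.comp_apply, hvv] at this ⊢
      rw [max_eq_left (by linarith)]
    · next hl =>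
      have := hσ (Fin.le_def.2 (show ((⟨k - 1, by omega⟩ : Fin N) : ℕ) ≤ (l : ℕ) by
        simp; omega))
      simp only [Function.comp_apply, hvv] at this ⊢
      rw [max_eq_right (by linarith), add_zero]
  rw [sum_congr rfl fun l _ => hterm l,
    Fin.sum_univ_eq_sum_range (fun m => if m < k then (k : ℝ) / N * v k + (v m - v k)
      else (k : ℝ) / N * v (k - 1)) N,
    ← sum_range_add_sum_Ico _ hkN.le]
  rw [sum_congr rfl fun m hm => if_pos (mem_range.1 hm),
    sum_congr (s₂ := Ico k N) rfl fun m hm => if_neg (not_lt.2 (mem_Ico.1 hm).1)]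
  simp only [sum_add_distrib, sum_sub_distrib, sum_const, card_range, Nat.card_Ico, nsmul_eq_mul]
  rw [hkv, Nat.cast_sub hkN.le, show kth (k + 1) univ a = v k from rfl]
  have hN : (N : ℝ) ≠ 0 := by norm_cast; omega
  field_simp
  ring

/-- Majorization against an antitone nonnegative weight. -/
lemma sum_mul_le_of_partial {N : ℕ} {w y z : ℕ → ℝ} (hw : ∀ i j, i ≤ j → j < N → w j ≤ w i)
    (hw0 : ∀ i < N, 0 ≤ w i)
    (h : ∀ k ≤ N, ∑ i ∈ range k, y i ≤ ∑ i ∈ range k, z i) :
    ∑ i ∈ range N, w i * y i ≤ ∑ i ∈ range N, w i * z i := by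
  rcases Nat.eq_zero_or_pos N with rfl | hN
  · simp
  have key : ∀ k, 1 ≤ k → k ≤ N → w (k - 1) * ∑ i ∈ range k, (z i - y i)
      ≤ ∑ i ∈ range k, w i * (z i - y i) := by
    intro k hk
    induction k, hk using Nat.le_induction with
    | base => simp
    | succ k hk ih =>
      intro hkN
      rw [sum_range_succ, sum_range_succ, mul_add]
      have h1 := ih (by omega)
      have h0 : 0 ≤ ∑ i ∈ range k, (z i - y i) := by
        rw [sum_sub_distrib]; linarith [h k (by omega)]
      have := mul_le_mul_of_nonneg_right (hw (k - 1) k (by omega) (by omega)) h0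
      simp only [Nat.add_sub_cancel]
      linarith
  have h0 : 0 ≤ ∑ i ∈ range N, (z i - y i) := by
    rw [sum_sub_distrib]; linarith [h N le_rfl]
  have := key N hN le_rfl
  have h3 := mul_nonneg (hw0 (N - 1) (by omega)) h0
  simp only [mul_sub, sum_sub_distrib] at this h3
  linarith

/-- The discrete maximum principle giving the lower bound for expected top sums. -/
lemma topSum_lower {N : ℕ} {b : ℝ} (Z : ℕ → ℝ) (h0 : Z 0 = 0)
    (hN : Z N = N * b)
    (h : ∀ k, 1 ≤ k → k < N → (2 * (k : ℝ) - (k : ℝ) ^ 2 / N) * b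
      ≤ Z k + (k : ℝ) * (1 - (k : ℝ) / N) * (2 * Z k - Z (k - 1) - Z (k + 1))) :
    ∀ k ≤ N, b * (2 * ((N : ℝ) + 1) * k - (k : ℝ) ^ 2) / (N + 2) ≤ Z k := by
  set D : ℕ → ℝ := fun k => Z k - b * (2 * ((N : ℝ) + 1) * k - (k : ℝ) ^ 2) / (N + 2) with hD
  suffices hmin : ∀ k ≤ N, 0 ≤ D k from fun k hk => sub_nonneg.1 (hmin k hk)
  obtain ⟨m, hm, hmmin⟩ := exists_min_image (range (N + 1)) D ⟨0, by simp⟩
  have hm' : m ≤ N := by simpa [Nat.lt_succ_iff] using hm
  intro k hk
  refine le_trans ?_ (hmmin k (by simp; omega))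
  by_contra hneg
  push Not at hneg
  have hN2 : (0 : ℝ) < N + 2 := by positivity
  rcases Nat.eq_zero_or_pos m with rfl | hmpos
  · simp [hD, h0] at hneg
  rcases eq_or_lt_of_le hm' with rfl | hlt
  · simp only [hD, hN] at hneg
    field_simp at hneg
    nlinarith
  have hmN : (m : ℝ) < N := by exact_mod_cast hlt
  have hNpos : (0 : ℝ) < N := lt_of_le_of_lt m.cast_nonneg hmN
  have hc : 0 ≤ (m : ℝ) * (1 - (m : ℝ) / N) :=
    mul_nonneg m.cast_nonneg (by rw [sub_nonneg, div_le_one hNpos]; exact hmN.le)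
  have h1 := hmmin (m - 1) (by simp; omega)
  have h2 := hmmin (m + 1) (by simp; omega)
  have hh := h m hmpos hlt
  have hsub : ((m - 1 : ℕ) : ℝ) = (m : ℝ) - 1 := by rw [Nat.cast_sub hmpos]; norm_num
  have e1 : Z m = D m + b * (2 * ((N : ℝ) + 1) * m - (m : ℝ) ^ 2) / (N + 2) := by simp [hD]
  have e2 : Z (m - 1) = D (m - 1)
      + b * (2 * ((N : ℝ) + 1) * ((m : ℝ) - 1) - ((m : ℝ) - 1) ^ 2) / (N + 2) := by
    simp only [hD, hsub]; ring
  have e3 : Z (m + 1) = D (m + 1)
      + b * (2 * ((N : ℝ) + 1) * ((m : ℝ) + 1) - ((m : ℝ) + 1) ^ 2) / (N + 2) := by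
    simp [hD]
  rw [e1, e2, e3] at hh
  have e4 : b * (2 * ((N : ℝ) + 1) * m - (m : ℝ) ^ 2) / (N + 2)
      + (m : ℝ) * (1 - (m : ℝ) / N)
        * (2 * (b * (2 * ((N : ℝ) + 1) * m - (m : ℝ) ^ 2) / (N + 2))
          - b * (2 * ((N : ℝ) + 1) * ((m : ℝ) - 1) - ((m : ℝ) - 1) ^ 2) / (N + 2)
          - b * (2 * ((N : ℝ) + 1) * ((m : ℝ) + 1) - ((m : ℝ) + 1) ^ 2) / (N + 2))
      = (2 * (m : ℝ) - (m : ℝ) ^ 2 / N) * b := by
    field_simp
    ring
  nlinarith [mul_le_mul_of_nonneg_left (show 2 * D m - D (m - 1) - D (m + 1) ≤ 0 by linarith) hc]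

end Vale.Agent.P254
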