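import Mathlib
import Vale.Agent.P254.Orders

/-!
Fibres of an unconditional body, lower bounds for the expected top sums inside a block, and the
majorized set contained in a block-symmetric body.
-/

noncomputable section

open MeasureTheory Set Finset
open scoped BigOperators

namespace Vale.Agent.P254

variable {n : ℕ}

lemma integral_Icc_abs_test {T t θ : ℝ} (hT : 0 ≤ T) (ht : 0 ≤ t) (hθ0 : 0 ≤ θ) :
    0 ≤ ∫ u in Set.Icc (-T) T, (θ * t + max (|u| - t) 0 - (2 * θ - θ ^ 2) * |u|) := by
  set f : ℝ → ℝ := fun u => θ * t + max (|u| - t) 0 - (2 * θ - θ ^ 2) * |u| with hf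
  have hfc : Continuous f := by fun_prop
  have hsplit : ∫ u in Set.Icc (-T) T, f u = 2 * ∫ u in (0 : ℝ)..T, f u := by
    rw [integral_Icc_eq_integral_Ioc, ← intervalIntegral.integral_of_le (by linarith),
      ← intervalIntegral.integral_add_adjacent_intervals (hfc.intervalIntegrable (-T) 0)
        (hfc.intervalIntegrable 0 T)]
    have : ∫ u in (-T)..0, f u = ∫ u in (0 : ℝ)..T, f u := by
      have h := intervalIntegral.integral_comp_neg (a := 0) (b := T) f
      rw [neg_zero] at h
      rw [← h]
      refine intervalIntegral.integral_congr fun u _ => ?_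
      simp [hf]
    rw [this]; ring
  rw [hsplit]
  have habs : ∫ u in (0 : ℝ)..T, f u
      = ∫ u in (0 : ℝ)..T, (θ * t + max (u - t) 0 - (2 * θ - θ ^ 2) * u) := by
    refine intervalIntegral.integral_congr fun u hu => ?_
    rw [Set.uIcc_of_le hT] at hu
    simp [hf, abs_of_nonneg hu.1]
  have hpos : ∀ a b : ℝ, IntervalIntegrable (fun u : ℝ => max (u - t) 0) volume a b :=
    fun a b => (by fun_prop : Continuous fun u : ℝ => max (u - t) 0).intervalIntegrable a b
  have hmax : ∫ u in (0 : ℝ)..T, max (u - t) 0 = if t ≤ T then (T - t) ^ 2 / 2 else 0 := by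
    split
    · next h =>
      rw [← intervalIntegral.integral_add_adjacent_intervals (hpos 0 t) (hpos t T)]
      have h1 : ∫ u in (0 : ℝ)..t, max (u - t) 0 = 0 := by
        rw [intervalIntegral.integral_congr (g := fun _ => (0 : ℝ)) fun u hu => ?_]
        · simp
        · rw [Set.uIcc_of_le ht] at hu
          exact max_eq_right (by linarith [hu.2])
      have h2 : ∫ u in t..T, max (u - t) 0 = ∫ u in t..T, (u - t) := by
        refine intervalIntegral.integral_congr fun u hu => ?_
        rw [Set.uIcc_of_le h] at hu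
        exact max_eq_left (by linarith [hu.1])
      rw [h1, h2, intervalIntegral.integral_sub (by simp) (by simp)]
      simp
      ring
    · next h =>
      rw [intervalIntegral.integral_congr (g := fun _ => (0 : ℝ)) fun u hu => ?_]
      · simp
      · rw [Set.uIcc_of_le hT] at hu
        exact max_eq_right (by linarith [hu.2])
  have hval : ∫ u in (0 : ℝ)..T, f u
      = θ * t * T + (if t ≤ T then (T - t) ^ 2 / 2 else 0) - (2 * θ - θ ^ 2) * (T ^ 2 / 2) := by
    rw [habs, intervalIntegral.integral_sub, intervalIntegral.integral_add, hmax,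
      intervalIntegral.integral_const_mul, intervalIntegral.integral_const_mul, integral_id,
      intervalIntegral.integral_const]
    · simp only [smul_eq_mul]
      ring
    · simp
    · exact hpos 0 T
    · exact (by fun_prop : Continuous fun u : ℝ => θ * t + max (u - t) 0).intervalIntegrable 0 T
    · exact (by fun_prop : Continuous fun u : ℝ => (2 * θ - θ ^ 2) * u).intervalIntegrable 0 T
  rw [hval]
  split
  · nlinarith [sq_nonneg (T * (1 - θ) - t)]
  · next h =>
    nlinarith [mul_nonneg (mul_nonneg hθ0 hT) (le_of_lt (sub_pos.2 (not_le.1 h))),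
      mul_nonneg (sq_nonneg θ) (sq_nonneg T)]

/-- Invariance under changing signs of coordinates. -/
lemma neg_update_mem {K : Set (Fin n → ℝ)}
    (hsign : ∀ x ∈ K, ∀ y, (∀ i, y i = x i ∨ y i = -x i) → y ∈ K) {x : Fin n → ℝ} (hx : x ∈ K)
    (i : Fin n) : Function.update x i (-x i) ∈ K := by
  refine hsign x hx _ fun j => ?_
  rcases eq_or_ne j i with rfl | h
  · exact Or.inr (Function.update_self ..)
  · exact Or.inl (Function.update_of_ne h ..)

lemma integrableOn_of_bound {K : Set (Fin n → ℝ)} (hK : IsCompact K) {f : (Fin n → ℝ) → ℝ}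
    (hf : Measurable f) {M : ℝ} (hM : ∀ x ∈ K, |f x| ≤ M) : IntegrableOn f K volume :=
  Measure.integrableOn_of_bounded hK.measure_lt_top.ne hf.aestronglyMeasurable (M := M)
    ((ae_restrict_mem hK.measurableSet).mono fun x hx => by
      rw [Real.norm_eq_abs]; exact hM x hx)

lemma exists_coord_bound {K : Set (Fin n → ℝ)} (hK : IsCompact K) :
    ∃ R, 0 ≤ R ∧ ∀ x ∈ K, ∀ i, |x i| ≤ R := by
  obtain ⟨R, hR⟩ := hK.isBounded.subset_closedBall 0
  refine ⟨max R 0, le_max_right _ _, fun x hx i => ?_⟩
  have := hR hx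
  rw [Metric.mem_closedBall, dist_zero_right] at this
  rw [← Real.norm_eq_abs]
  exact ((norm_le_pi_norm x i).trans this).trans (le_max_left _ _)

/-- The fibre test against any function of the other coordinates. -/
lemma fibre_test {K : Set (Fin n → ℝ)} (hK : IsCompact K) (hconv : Convex ℝ K)
    (hsign : ∀ x ∈ K, ∀ y, (∀ i, y i = x i ∨ y i = -x i) → y ∈ K) (i : Fin n)
    {g : (Fin n → ℝ) → ℝ} (hg : Measurable g) (hg0 : ∀ x, 0 ≤ g x) {M : ℝ}
    (hgM : ∀ x ∈ K, g x ≤ M) (hgi : ∀ x u, g (Function.update x i u) = g x) {θ : ℝ}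
    (hθ0 : 0 ≤ θ) :
    (2 * θ - θ ^ 2) * ∫ x in K, |x i| ≤ ∫ x in K, (θ * g x + max (|x i| - g x) 0) := by
  obtain ⟨R, hR0, hR⟩ := exists_coord_bound hK
  have i1 : IntegrableOn (fun x => θ * g x + max (|x i| - g x) 0) K volume := by
    refine integrableOn_of_bound hK (by fun_prop) (M := θ * M + R) fun x hx => ?_
    rw [abs_of_nonneg (add_nonneg (mul_nonneg hθ0 (hg0 x)) (le_max_right _ _))]
    exact add_le_add (mul_le_mul_of_nonneg_left (hgM x hx) hθ0)
      (max_le (by linarith [hR x hx i, hg0 x]) hR0)
  have i2 : IntegrableOn (fun x => (2 * θ - θ ^ 2) * |x i|) K volume := by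
    refine integrableOn_of_bound hK (by fun_prop) (M := |2 * θ - θ ^ 2| * R) fun x hx => ?_
    rw [abs_mul, abs_abs]
    exact mul_le_mul_of_nonneg_left (hR x hx i) (abs_nonneg _)
  rw [← integral_const_mul, ← sub_nonneg, ← integral_sub i1 i2]
  obtain _ | m := n
  · exact i.elim0
  set e := MeasurableEquiv.piFinSuccAbove (fun _ : Fin (m + 1) => ℝ) i with he
  have hep : MeasurePreserving e volume volume :=
    volume_preserving_piFinSuccAbove (fun _ : Fin (m + 1) => ℝ) i
  set F : (Fin (m + 1) → ℝ) → ℝ :=
    fun x => θ * g x + max (|x i| - g x) 0 - (2 * θ - θ ^ 2) * |x i| with hF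
  have hint : Integrable (K.indicator F) := (integrable_indicator_iff hK.measurableSet).2 (i1.sub i2)
  rw [← integral_indicator hK.measurableSet, ← (hep.symm e).integral_comp' (K.indicator F),
    Measure.volume_eq_prod, integral_prod_symm]
  · refine integral_nonneg fun z => ?_
    have hsymm : ∀ u : ℝ, e.symm (u, z) = i.insertNth u z := fun u => by
      simp [he, Fin.insertNthEquiv]
    simp only [hsymm]
    set S : Set ℝ := {u | i.insertNth u z ∈ K} with hS
    have hSm : IsClosed S :=
      hK.isClosed.preimage (Continuous.finInsertNth i continuous_id continuous_const)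
    have hgz : ∀ u : ℝ, g (i.insertNth u z) = g (i.insertNth 0 z) := fun u => by
      rw [← hgi (i.insertNth 0 z) u, Fin.update_insertNth]
    have hval : (fun u : ℝ => K.indicator F (i.insertNth u z)) = S.indicator fun u =>
        θ * g (i.insertNth 0 z) + max (|u| - g (i.insertNth 0 z)) 0 - (2 * θ - θ ^ 2) * |u| := by
      funext u
      by_cases hu : i.insertNth u z ∈ K
      · rw [Set.indicator_of_mem hu, Set.indicator_of_mem (show u ∈ S from hu)]
        simp [hF, hgz u]
      · rw [Set.indicator_of_notMem hu, Set.indicator_of_notMem (show u ∉ S from hu)]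
    show 0 ≤ ∫ u : ℝ, K.indicator F (i.insertNth u z)
    rw [hval, integral_indicator hSm.measurableSet]
    rcases S.eq_empty_or_nonempty with hne | hne
    · simp [hne]
    have hneg : ∀ u ∈ S, -u ∈ S := by
      intro u hu
      have := neg_update_mem hsign (show i.insertNth u z ∈ K from hu) i
      simpa [hS, Fin.update_insertNth] using this
    have hbd : ∀ u ∈ S, |u| ≤ R := fun u hu => by simpa using hR _ hu i
    have hSc : IsCompact S :=
      (isCompact_Icc (a := -R) (b := R)).of_isClosed_subset hSm fun u hu => abs_le.1 (hbd u hu)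
    set T := sSup S
    have hTmem : T ∈ S := hSc.sSup_mem hne
    have hle : ∀ u ∈ S, u ≤ T := fun u hu => le_csSup hSc.bddAbove hu
    have hSI : S = Set.Icc (-T) T := by
      refine Set.Subset.antisymm (fun u hu => ⟨by linarith [hle _ (hneg u hu)], hle u hu⟩) ?_
      intro u hu
      have hT0 : 0 ≤ T := by linarith [hu.1, hu.2]
      rcases eq_or_lt_of_le hT0 with h | h
      · have : u = T := le_antisymm hu.2 (by linarith [hu.1])
        rw [this]; exact hTmem
      have hc := hconv (show i.insertNth T z ∈ K from hTmem)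
        (show i.insertNth (-T) z ∈ K from hneg T hTmem)
        (a := (1 + u / T) / 2) (b := (1 - u / T) / 2)
        (by
          have : -1 ≤ u / T := by rw [le_div_iff₀ h]; linarith [hu.1]
          linarith)
        (by
          have : u / T ≤ 1 := by rw [div_le_one h]; exact hu.2
          linarith)
        (by ring)
      show i.insertNth u z ∈ K
      convert hc using 1
      funext j
      refine Fin.succAboveCases i ?_ ?_ j
      · simp
        field_simp
        ring
      · intro l
        simp
        ring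
    have hT0 : 0 ≤ T := by linarith [hle _ (hneg T hTmem)]
    rw [hSI]
    exact integral_Icc_abs_test hT0 (hg0 _) hθ0
  · rw [← Measure.volume_eq_prod]
    exact ((hep.symm e).integrable_comp_emb e.symm.measurableEmbedding).2 hint

/-- The order statistics of the absolute values in an enumerated family of coordinates. -/
def ordStat {N : ℕ} (e : Fin N → Fin n) (m : ℕ) (x : Fin n → ℝ) : ℝ :=
  kth (m + 1) Finset.univ fun j => |x (e j)|

lemma measurable_ordStat {N : ℕ} (e : Fin N → Fin n) (m : ℕ) : Measurable (ordStat e m) :=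
  (measurable_kth (m + 1) Finset.univ).comp
    (measurable_pi_lambda _ fun j => (by fun_prop : Measurable fun x : Fin n → ℝ => |x (e j)|))

lemma ordStat_nonneg {N : ℕ} (e : Fin N → Fin n) (m : ℕ) (x : Fin n → ℝ) : 0 ≤ ordStat e m x :=
  kth_nonneg fun _ => abs_nonneg _

lemma integrableOn_ordStat {K : Set (Fin n → ℝ)} (hK : IsCompact K) {N : ℕ} (e : Fin N → Fin n)
    (m : ℕ) : IntegrableOn (ordStat e m) K volume := by
  obtain ⟨R, -, hR⟩ := exists_coord_bound hK
  refine integrableOn_of_bound hK (measurable_ordStat e m) (M := N * R) fun x hx => ?_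
  rw [abs_of_nonneg (ordStat_nonneg e m x)]
  refine (kth_le_sum fun _ => abs_nonneg _).trans ?_
  calc ∑ j : Fin N, |x (e j)| ≤ ∑ _j : Fin N, R := Finset.sum_le_sum fun j _ => hR x hx _
    _ = N * R := by simp

/-- The integral over `K` of the sum of the `k` largest absolute coordinates in a family. -/
def topInt (K : Set (Fin n → ℝ)) {N : ℕ} (e : Fin N → Fin n) (k : ℕ) : ℝ :=
  ∑ m ∈ Finset.range k, ∫ x in K, ordStat e m x

lemma topInt_lower {K : Set (Fin n → ℝ)} (hK : IsCompact K) (hconv : Convex ℝ K)
    (hsign : ∀ x ∈ K, ∀ y, (∀ i, y i = x i ∨ y i = -x i) → y ∈ K) {N : ℕ} {e : Fin N → Fin n}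
    (he : Function.Injective e) {B : ℝ} (hB : ∀ j, ∫ x in K, |x (e j)| = B) {k : ℕ} (hk : k ≤ N) :
    B * (2 * ((N : ℝ) + 1) * k - (k : ℝ) ^ 2) / (N + 2) ≤ topInt K e k := by
  obtain ⟨R, hR0, hR⟩ := exists_coord_bound hK
  refine topSum_lower (topInt K e) (by simp [topInt]) ?_ ?_ k hk
  · have habs : ∀ j, IntegrableOn (fun x : Fin n → ℝ => |x (e j)|) K volume := fun j =>
      integrableOn_of_bound hK (by fun_prop) (M := R) fun x hx => by rw [abs_abs]; exact hR x hx _
    rw [topInt, ← integral_finsetSum _ fun m _ => integrableOn_ordStat hK e m]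
    have : ∀ x : Fin n → ℝ,
        (∑ m ∈ Finset.range N, ordStat e m x) = ∑ j : Fin N, |x (e j)| := by
      intro x
      obtain ⟨σ, hσ⟩ := exists_antitone_perm fun j => |x (e j)|
      rw [← Equiv.sum_comp σ, ← Fin.sum_univ_eq_sum_range (fun m => ordStat e m x) N]
      exact Finset.sum_congr rfl fun l _ => kth_univ hσ l.2
    simp only [this]
    rw [integral_finsetSum _ fun j _ => habs j]
    simp [hB]
  · intro k hk1 hkN
    have hNR : (k : ℝ) < N := by exact_mod_cast hkN
    have hNpos : (0 : ℝ) < N := lt_of_le_of_lt k.cast_nonneg hNR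
    have hθ0 : 0 ≤ (k : ℝ) / N := by positivity
    have hθ1 : (k : ℝ) / N ≤ 1 := (div_le_one hNpos).2 hNR.le
    set g : Fin N → (Fin n → ℝ) → ℝ :=
      fun j x => kth k (Finset.univ.erase j) fun l => |x (e l)| with hg
    have hgm : ∀ j, Measurable (g j) := fun j =>
      (measurable_kth k _).comp
        (measurable_pi_lambda _ fun l => (by fun_prop : Measurable fun x : Fin n → ℝ => |x (e l)|))
    have hgM : ∀ j, ∀ x ∈ K, g j x ≤ N * R := fun j x hx => by
      refine (kth_le_sum fun _ => abs_nonneg _).trans ?_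
      calc ∑ l ∈ Finset.univ.erase j, |x (e l)| ≤ ∑ l : Fin N, |x (e l)| :=
            Finset.sum_le_sum_of_subset_of_nonneg (Finset.subset_univ _) fun l _ _ => abs_nonneg _
        _ ≤ ∑ _l : Fin N, R := Finset.sum_le_sum fun l _ => hR x hx _
        _ = N * R := by simp
    have htest : ∀ j, (2 * ((k : ℝ) / N) - ((k : ℝ) / N) ^ 2) * B
        ≤ ∫ x in K, ((k : ℝ) / N * g j x + max (|x (e j)| - g j x) 0) := by
      intro j
      rw [← hB j]
      refine fibre_test hK hconv hsign (e j) (hgm j) (fun x => kth_nonneg fun _ => abs_nonneg _)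
        (hgM j) (fun x u => kth_congr fun l hl => ?_) hθ0
      rw [Function.update_of_ne fun h => (Finset.mem_erase.1 hl).1 (he h)]
    have hint : ∀ j, IntegrableOn
        (fun x => (k : ℝ) / N * g j x + max (|x (e j)| - g j x) 0) K volume := by
      intro j
      have hg0 : ∀ x, 0 ≤ g j x := fun x => kth_nonneg fun _ => abs_nonneg _
      refine integrableOn_of_bound hK
        (((hgm j).const_mul _).add ((((by fun_prop : Measurable fun x : Fin n → ℝ => |x (e j)|)).sub
          (hgm j)).max measurable_const)) (M := N * R + R) fun x hx => ?_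
      rw [abs_of_nonneg (add_nonneg (mul_nonneg hθ0 (hg0 x)) (le_max_right _ _))]
      exact add_le_add ((mul_le_of_le_one_left (hg0 x) hθ1).trans (hgM j x hx))
        (max_le (by linarith [hR x hx (e j), hg0 x]) hR0)
    have hsum := Finset.sum_le_sum fun j (_ : j ∈ Finset.univ) => htest j
    rw [← integral_finsetSum _ fun j _ => hint j] at hsum
    have hid : ∀ x : Fin n → ℝ,
        (∑ j : Fin N, ((k : ℝ) / N * g j x + max (|x (e j)| - g j x) 0))
          = (∑ m ∈ Finset.range k, ordStat e m x)
            + (k : ℝ) * (1 - (k : ℝ) / N) * (ordStat e (k - 1) x - ordStat e k x) := by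
      intro x
      rw [hg, leaveOneOut_sum hk1 hkN fun l => |x (e l)|]
      simp only [ordStat, show k - 1 + 1 = k by omega]
    simp only [hid] at hsum
    have iv := fun m => integrableOn_ordStat hK e m
    have isum : IntegrableOn (fun x => ∑ m ∈ Finset.range k, ordStat e m x) K volume :=
      integrable_finsetSum _ fun m _ => iv m
    have idiff : IntegrableOn
        (fun x => (k : ℝ) * (1 - (k : ℝ) / N) * (ordStat e (k - 1) x - ordStat e k x)) K volume :=
      ((iv (k - 1)).sub (iv k)).const_mul _
    rw [integral_add isum idiff, integral_const_mul,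
      integral_sub (iv (k - 1)) (iv k), integral_finsetSum _ fun m _ => iv m] at hsum
    have e1 : topInt K e k - topInt K e (k - 1) = ∫ x in K, ordStat e (k - 1) x := by
      obtain ⟨l, rfl⟩ : ∃ l, k = l + 1 := ⟨k - 1, by omega⟩
      simp [topInt, Finset.sum_range_succ]
    have e2 : topInt K e (k + 1) - topInt K e k = ∫ x in K, ordStat e k x := by
      simp [topInt, Finset.sum_range_succ]
    rw [← e1, ← e2] at hsum
    simp only [Finset.sum_const, Finset.card_univ, Fintype.card_fin, nsmul_eq_mul] at hsum
    calc (2 * (k : ℝ) - (k : ℝ) ^ 2 / N) * B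
        = (N : ℝ) * ((2 * ((k : ℝ) / N) - ((k : ℝ) / N) ^ 2) * B) := by field_simp
      _ ≤ _ := hsum
      _ = _ := by simp only [topInt]; ring

/-- Every point whose blockwise partial sums are dominated by the expected top sums lies in the
body. -/
lemma mem_of_dominated {K : Set (Fin n → ℝ)} (hK : IsCompact K) (hconv : Convex ℝ K)
    (hsign : ∀ x ∈ K, ∀ y, (∀ i, y i = x i ∨ y i = -x i) → y ∈ K)
    {r : ℕ} {p : Fin n → Fin r}
    (hperm : ∀ σ : Equiv.Perm (Fin n), (∀ i, p (σ i) = p i) → ∀ x ∈ K, (fun i => x (σ i)) ∈ K)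
    (hV : 0 < (volume K).toReal) {N : Fin r → ℕ} (e : ∀ j, Fin (N j) ≃ {i // p i = j})
    {y : Fin n → ℝ}
    (hy : ∀ j, ∀ A : Finset (Fin (N j)), (volume K).toReal * ∑ l ∈ A, |y (e j l).1|
      ≤ topInt K (fun l => (e j l).1) A.card) : y ∈ K := by
  by_contra hyK
  obtain ⟨f, u, hfK, hfy⟩ := geometric_hahn_banach_closed_point hconv hK.isClosed hyK
  set w : Fin n → ℝ := fun i => f (Pi.single i 1) with hw
  have hfw : ∀ x : Fin n → ℝ, f x = ∑ i, x i * w i := by
    intro x
    conv_lhs => rw [pi_eq_sum_univ' x]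
    simp only [map_sum, map_smul, smul_eq_mul, hw]
  choose σ hσ using fun j => exists_antitone_perm fun l => |w (e j l).1|
  have hblocks : ∀ h : Fin n → ℝ, ∑ i, h i = ∑ j, ∑ l : Fin (N j), h (e j (σ j l)).1 := by
    intro h
    rw [← Fintype.sum_fiberwise p h]
    refine Finset.sum_congr rfl fun j _ => ?_
    exact (Equiv.sum_comp ((σ j).trans (e j)) fun i => h i.1).symm
  set W : ∀ j, ℕ → ℝ := fun j m => if h : m < N j then |w (e j (σ j ⟨m, h⟩)).1| else 0 with hWdef
  have hWl : ∀ j (l : Fin (N j)), W j l = |w (e j (σ j l)).1| := fun j l => by simp [hWdef]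
  set V := (volume K).toReal
  have step1 : V * f y ≤ ∑ j, ∑ m ∈ Finset.range (N j),
      W j m * ∫ x in K, ordStat (fun l => (e j l).1) m x := by
    calc V * f y ≤ V * ∑ i, |w i| * |y i| := by
          refine mul_le_mul_of_nonneg_left ?_ hV.le
          rw [hfw]
          exact Finset.sum_le_sum fun i _ =>
            (le_abs_self _).trans (le_of_eq (by rw [abs_mul, mul_comm]))
      _ = ∑ j, ∑ l : Fin (N j), W j l * (V * |y (e j (σ j l)).1|) := by
          rw [hblocks, Finset.mul_sum]
          refine Finset.sum_congr rfl fun j _ => ?_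
          rw [Finset.mul_sum]
          exact Finset.sum_congr rfl fun l _ => by rw [hWl]; ring
      _ ≤ _ := Finset.sum_le_sum fun j _ => ?_
    set Y : ℕ → ℝ := fun m => if h : m < N j then V * |y (e j (σ j ⟨m, h⟩)).1| else 0 with hY
    have : ∑ l : Fin (N j), W j l * (V * |y (e j (σ j l)).1|)
        = ∑ m ∈ Finset.range (N j), W j m * Y m := by
      rw [← Fin.sum_univ_eq_sum_range (fun m => W j m * Y m) (N j)]
      exact Finset.sum_congr rfl fun l _ => by simp [hY]
    rw [this]
    refine sum_mul_le_of_partial ?_ ?_ ?_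
    · intro a b hab hb
      simp only [hWdef, dif_pos hb, dif_pos (lt_of_le_of_lt hab hb)]
      exact hσ j (show (⟨a, lt_of_le_of_lt hab hb⟩ : Fin (N j)) ≤ ⟨b, hb⟩ from hab)
    · intro a ha
      simp [hWdef, ha]
    · intro k hk
      have hA := hy j ((Finset.univ.filter fun l : Fin (N j) => (l : ℕ) < k).map (σ j).toEmbedding)
      have hcard : ((Finset.univ.filter fun l : Fin (N j) => (l : ℕ) < k).map
          (σ j).toEmbedding).card = k := by
        rw [Finset.card_map, Fin.card_filter_val_lt, min_eq_right hk]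
      rw [hcard, Finset.sum_map, Finset.mul_sum] at hA
      refine le_trans (le_of_eq ?_) hA
      refine Finset.sum_bij' (fun m hm => (⟨m, lt_of_lt_of_le (Finset.mem_range.1 hm) hk⟩ : Fin (N j)))
        (fun l _ => (l : ℕ)) ?_ ?_ ?_ ?_ ?_
      · intro m hm; simpa using hm
      · intro l hl; simpa using hl
      · intro m hm; rfl
      · intro l hl; rfl
      · intro m hm
        simp [hY, lt_of_lt_of_le (Finset.mem_range.1 hm) hk]
  have hpt : ∀ x ∈ K,
      (∑ j, ∑ m ∈ Finset.range (N j), W j m * ordStat (fun l => (e j l).1) m x) ≤ u := by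
    intro x hx
    choose τ hτ using fun j => exists_antitone_perm fun l => |x (e j l).1|
    set q : ∀ j, Equiv.Perm {i // p i = j} :=
      fun j => ((σ j).trans (e j)).symm.trans ((τ j).trans (e j)) with hq
    set π : Equiv.Perm (Fin n) := (Equiv.sigmaFiberEquiv p).symm.trans
      ((Equiv.sigmaCongrRight q).trans (Equiv.sigmaFiberEquiv p)) with hπ
    have hπi : ∀ i, π i = (q (p i) ⟨i, rfl⟩).1 := fun i => rfl
    have hπp : ∀ i, p (π i) = p i := fun i => by rw [hπi]; exact (q (p i) ⟨i, rfl⟩).2
    set x' : Fin n → ℝ := fun i => if 0 ≤ w i then |x (π i)| else -|x (π i)| with hx'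
    have hx'K : x' ∈ K := by
      refine hsign _ (hperm π hπp x hx) _ fun i => ?_
      simp only [hx']
      split <;> rcases abs_choice (x (π i)) with h | h <;> simp [h]
    refine le_trans (le_of_eq ?_) (hfK x' hx'K).le
    rw [hfw, hblocks]
    refine Finset.sum_congr rfl fun j _ => ?_
    rw [← Fin.sum_univ_eq_sum_range (fun m => W j m * ordStat (fun l => (e j l).1) m x) (N j)]
    refine Finset.sum_congr rfl fun l _ => ?_
    have hqe : ∀ i (h : p i = j), π i = (q j ⟨i, h⟩).1 := by
      rintro i rfl; exact hπi i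
    have hπl : π (e j (σ j l)).1 = (e j (τ j l)).1 := by
      rw [hqe _ (e j (σ j l)).2]
      simp [hq]
    have hv : ordStat (fun l => (e j l).1) l x = |x (e j (τ j l)).1| := kth_univ (hτ j) l.2
    rw [hWl, hv]
    simp only [hx', hπl]
    split
    · next h => rw [abs_of_nonneg h]; ring
    · next h => rw [abs_of_neg (not_le.1 h)]; ring
  have hi : ∀ j, ∀ m, IntegrableOn
      (fun x => W j m * ordStat (fun l => (e j l).1) m x) K volume := fun j m =>
    (integrableOn_ordStat hK _ m).const_mul _
  have step2 : (∑ j, ∑ m ∈ Finset.range (N j),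
      W j m * ∫ x in K, ordStat (fun l => (e j l).1) m x) ≤ V * u := by
    calc _ = ∫ x in K, ∑ j, ∑ m ∈ Finset.range (N j),
          W j m * ordStat (fun l => (e j l).1) m x := by
          rw [integral_finsetSum _ fun j _ => integrable_finsetSum _ fun m _ => hi j m]
          refine Finset.sum_congr rfl fun j _ => ?_
          rw [integral_finsetSum _ fun m _ => hi j m]
          exact Finset.sum_congr rfl fun m _ => (integral_const_mul _ _).symm
      _ ≤ ∫ _x in K, u := setIntegral_mono_on
          (integrable_finsetSum _ fun j _ => integrable_finsetSum _ fun m _ => hi j m)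
          (integrableOn_const hK.measure_lt_top.ne) hK.measurableSet hpt
      _ = V * u := by simp [V, Measure.real]
  nlinarith [step1, step2, hfy, hV]

end Vale.Agent.P254
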