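import Mathlib

/-!
The midpoint Prekopa-Leindler inequality for Lebesgue measure on coordinate space (adapted from the
helper file of the same development for problem P074).
-/

noncomputable section

open MeasureTheory Set
open scoped ENNReal

namespace Vale.Agent.P254

/-- The midpoint form of the one-dimensional Brunn-Minkowski inequality, compact sets. -/
theorem volume_add_le_two_mul_of_isCompact {A B C : Set ℝ} (hA : IsCompact A) (hB : IsCompact B)
    (hA0 : A.Nonempty) (hB0 : B.Nonempty) (h : ∀ a ∈ A, ∀ b ∈ B, (a + b) / 2 ∈ C) :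
    volume A + volume B ≤ 2 * volume C := by
  set a := sSup A
  set b := sInf B
  have ha : a ∈ A := hA.sSup_mem hA0
  have hb : b ∈ B := hB.sInf_mem hB0
  let A' : Set ℝ := (fun x => 2 * x + -b) ⁻¹' A
  let B' : Set ℝ := (fun x => 2 * x + -a) ⁻¹' B
  have hvol : ∀ (S : Set ℝ) (c : ℝ), volume ((fun x => 2 * x + c) ⁻¹' S) * 2 = volume S := by
    intro S c
    have e : (fun x => 2 * x + c) ⁻¹' S = (fun x => 2 * x) ⁻¹' ((fun x => x + c) ⁻¹' S) := rfl
    rw [e, Real.volume_preimage_mul_left two_ne_zero, measure_preimage_add_right, mul_comm,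
      ← mul_assoc, show (2 : ℝ≥0∞) = ENNReal.ofReal 2 by norm_num,
      ← ENNReal.ofReal_mul two_pos.le]
    norm_num
  have hsub : A' ∪ B' ⊆ C := by
    rintro x (hx | hx)
    · have := h _ hx b hb
      rwa [show (2 * x + -b + b) / 2 = x by ring] at this
    · have := h a ha _ hx
      rwa [show (a + (2 * x + -a)) / 2 = x by ring] at this
  have hinter : volume (A' ∩ B') = 0 := by
    refine measure_mono_null (fun x hx => ?_) (Real.volume_singleton (a := (a + b) / 2))
    have h1 : 2 * x + -b ≤ a := le_csSup hA.bddAbove hx.1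
    have h2 : b ≤ 2 * x + -a := csInf_le hB.bddBelow hx.2
    exact Set.mem_singleton_iff.2 (by linarith)
  have hmB : MeasurableSet B' := (by fun_prop : Measurable fun x : ℝ => 2 * x + -a) hB.measurableSet
  have e := measure_union_add_inter (μ := (volume : Measure ℝ)) A' hmB
  rw [hinter, add_zero] at e
  calc volume A + volume B = (volume A' + volume B') * 2 := by rw [add_mul, hvol, hvol]
    _ = volume (A' ∪ B') * 2 := by rw [e]
    _ ≤ volume C * 2 := mul_le_mul_left (measure_mono hsub) _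
    _ = 2 * volume C := mul_comm _ _

/-- The midpoint form of the one-dimensional Brunn-Minkowski inequality. -/
theorem volume_add_le_two_mul {A B C : Set ℝ} (hA : MeasurableSet A) (hB : MeasurableSet B)
    (hA0 : A.Nonempty) (hB0 : B.Nonempty) (h : ∀ a ∈ A, ∀ b ∈ B, (a + b) / 2 ∈ C) :
    volume A + volume B ≤ 2 * volume C := by
  obtain ⟨a₀, ha₀⟩ := hA0
  obtain ⟨b₀, hb₀⟩ := hB0
  have key : ∀ S T : Set ℝ, S ⊆ A → T ⊆ B → IsCompact S → IsCompact T →
      volume S + volume T ≤ 2 * volume C := fun S T hS hT hSc hTc =>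
    le_trans (add_le_add (measure_mono (Set.subset_insert a₀ S)) (measure_mono (Set.subset_insert b₀ T)))
      (volume_add_le_two_mul_of_isCompact (hSc.insert a₀) (hTc.insert b₀) (Set.insert_nonempty _ _)
        (Set.insert_nonempty _ _) fun x hx y hy =>
          h x (Set.insert_subset ha₀ hS hx) y (Set.insert_subset hb₀ hT hy))
  rw [hA.measure_eq_iSup_isCompact, hB.measure_eq_iSup_isCompact]
  refine ENNReal.biSup_add_biSup_le' ?_ ?_ fun S hS T hT => ?_
  · exact ⟨∅, Set.empty_subset _⟩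
  · exact ⟨∅, Set.empty_subset _⟩
  · rcases em (IsCompact S) with hSc | hSc <;> rcases em (IsCompact T) with hTc | hTc <;>
      simp only [hSc, hTc, iSup_true, iSup_false, ENNReal.bot_eq_zero, zero_add, add_zero]
    · exact key S T hS hT hSc hTc
    · simpa using key S ∅ hS (Set.empty_subset _) hSc isCompact_empty
    · simpa using key ∅ T (Set.empty_subset _) hT isCompact_empty hTc
    · exact zero_le

/-- The midpoint Prekopa-Leindler inequality on the line, for functions bounded by one. -/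
theorem lintegral_add_le_two_mul {f g h : ℝ → ℝ} (hf : Measurable f) (hg : Measurable g)
    (hh : Measurable h) (hh0 : ∀ x, 0 ≤ h x) (hf0 : ∀ x, 0 ≤ f x) (hg0 : ∀ x, 0 ≤ g x)
    (hf1 : ∀ x, f x ≤ 1) (hg1 : ∀ x, g x ≤ 1) (hfs : ∀ t < 1, ∃ x, t < f x)
    (hgs : ∀ t < 1, ∃ x, t < g x) (hfgh : ∀ x y, f x * g y ≤ h ((x + y) / 2) ^ 2) :
    (∫⁻ x, ENNReal.ofReal (f x)) + ∫⁻ x, ENNReal.ofReal (g x)
      ≤ 2 * ∫⁻ x, ENNReal.ofReal (h x) := by
  have e : ∀ u : ℝ → ℝ, Measurable u → (∀ x, 0 ≤ u x) → (∀ x, u x ≤ 1) →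
      ∫⁻ x, ENNReal.ofReal (u x) = ∫⁻ t in Set.Ioo (0 : ℝ) 1, volume {x | t < u x} := by
    intro u hu hu0 hu1
    rw [lintegral_eq_lintegral_meas_lt volume (Filter.Eventually.of_forall hu0) hu.aemeasurable,
      ← lintegral_indicator measurableSet_Ioi, ← lintegral_indicator measurableSet_Ioo]
    refine lintegral_congr fun t => ?_
    by_cases h0 : 0 < t
    · by_cases h1 : t < 1
      · simp [h0, h1]
      · have : {x | t < u x} = ∅ := Set.eq_empty_iff_forall_notMem.2 fun x hx =>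
          h1 (lt_of_lt_of_le hx (hu1 x))
        simp [h0, h1, this]
    · simp [h0]
  rw [e f hf hf0 hf1, e g hg hg0 hg1,
    lintegral_eq_lintegral_meas_lt volume (Filter.Eventually.of_forall hh0) hh.aemeasurable]
  have hm : Measurable fun t : ℝ => volume {x | t < f x} :=
    (show Antitone fun t : ℝ => volume {x | t < f x} from fun s t hst =>
      measure_mono fun x hx => lt_of_le_of_lt hst hx).measurable
  rw [← lintegral_add_left hm, ← lintegral_const_mul' _ _ (by norm_num : (2 : ℝ≥0∞) ≠ ∞)]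
  refine le_trans (setLIntegral_mono' measurableSet_Ioo fun t ht => ?_)
    (lintegral_mono_set Set.Ioo_subset_Ioi_self)
  refine volume_add_le_two_mul (measurableSet_lt measurable_const hf)
    (measurableSet_lt measurable_const hg) (hfs t ht.2) (hgs t ht.2) fun x hx y hy => ?_
  show t < h ((x + y) / 2)
  nlinarith [hfgh x y, hh0 ((x + y) / 2), show t < f x from hx, show t < g y from hy, ht.1]

theorem ennreal_four_mul_le_sq (a b : ℝ≥0∞) : 4 * (a * b) ≤ (a + b) ^ 2 := by
  rcases eq_or_ne a ∞ with rfl | ha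
  · simp
  rcases eq_or_ne b ∞ with rfl | hb
  · simp
  lift a to NNReal using ha
  lift b to NNReal using hb
  norm_cast
  rw [← NNReal.coe_le_coe]
  push_cast
  nlinarith [sq_nonneg ((a : ℝ) - b)]

/-- The multiplicative midpoint Prekopa-Leindler inequality on the line, bounded functions. -/
theorem lintegral_mul_le_sq {f g h : ℝ → ℝ} (hf : Measurable f) (hg : Measurable g)
    (hh : Measurable h) (hh0 : ∀ x, 0 ≤ h x) (hf0 : ∀ x, 0 ≤ f x) (hg0 : ∀ x, 0 ≤ g x) {M : ℝ}
    (hfM : ∀ x, f x ≤ M) (hgM : ∀ x, g x ≤ M) (hfgh : ∀ x y, f x * g y ≤ h ((x + y) / 2) ^ 2) :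
    (∫⁻ x, ENNReal.ofReal (f x)) * ∫⁻ x, ENNReal.ofReal (g x)
      ≤ (∫⁻ x, ENNReal.ofReal (h x)) ^ 2 := by
  set a := ⨆ x, f x with ha
  set b := ⨆ x, g x with hb
  have hbf : BddAbove (Set.range f) := ⟨M, by rintro _ ⟨x, rfl⟩; exact hfM x⟩
  have hbg : BddAbove (Set.range g) := ⟨M, by rintro _ ⟨x, rfl⟩; exact hgM x⟩
  have hfa : ∀ x, f x ≤ a := le_ciSup hbf
  have hgb : ∀ x, g x ≤ b := le_ciSup hbg
  rcases le_or_gt a 0 with ha0 | ha0
  · have : ∀ x, f x = 0 := fun x => le_antisymm ((hfa x).trans ha0) (hf0 x)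
    simp [this]
  rcases le_or_gt b 0 with hb0 | hb0
  · have : ∀ x, g x = 0 := fun x => le_antisymm ((hgb x).trans hb0) (hg0 x)
    simp [this]
  set c := Real.sqrt (a * b)
  have hc : 0 < c := Real.sqrt_pos.2 (mul_pos ha0 hb0)
  have hc2 : c ^ 2 = a * b := Real.sq_sqrt (mul_pos ha0 hb0).le
  have key := lintegral_add_le_two_mul (f := fun x => a⁻¹ * f x) (g := fun x => b⁻¹ * g x)
    (h := fun x => c⁻¹ * h x) (hf.const_mul _) (hg.const_mul _) (hh.const_mul _)
    (fun x => mul_nonneg (by positivity) (hh0 x)) (fun x => mul_nonneg (by positivity) (hf0 x))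
    (fun x => mul_nonneg (by positivity) (hg0 x))
    (fun x => by rw [inv_mul_le_iff₀ ha0, mul_one]; exact hfa x)
    (fun x => by rw [inv_mul_le_iff₀ hb0, mul_one]; exact hgb x)
    (fun t ht => by
      obtain ⟨x, hx⟩ := exists_lt_of_lt_ciSup (show a * t < ⨆ x, f x by rw [← ha]; nlinarith)
      exact ⟨x, by rw [lt_inv_mul_iff₀ ha0]; exact hx⟩)
    (fun t ht => by
      obtain ⟨x, hx⟩ := exists_lt_of_lt_ciSup (show b * t < ⨆ x, g x by rw [← hb]; nlinarith)
      exact ⟨x, by rw [lt_inv_mul_iff₀ hb0]; exact hx⟩)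
    (fun x y => by
      rw [mul_pow, inv_pow, hc2, show a⁻¹ * f x * (b⁻¹ * g y) = (a * b)⁻¹ * (f x * g y) by
        rw [mul_inv]; ring]
      exact mul_le_mul_of_nonneg_left (hfgh x y) (by positivity))
  have e : ∀ (r : ℝ) (u : ℝ → ℝ), 0 ≤ r → ∫⁻ x, ENNReal.ofReal (r * u x)
      = ENNReal.ofReal r * ∫⁻ x, ENNReal.ofReal (u x) := by
    intro r u hr
    rw [← lintegral_const_mul' _ _ ENNReal.ofReal_ne_top]
    exact lintegral_congr fun x => ENNReal.ofReal_mul hr
  rw [e _ _ (by positivity), e _ _ (by positivity), e _ _ (by positivity)] at key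
  set F := ∫⁻ x, ENNReal.ofReal (f x)
  set G := ∫⁻ x, ENNReal.ofReal (g x)
  set H := ∫⁻ x, ENNReal.ofReal (h x)
  have h4 : 4 * (ENNReal.ofReal a⁻¹ * ENNReal.ofReal b⁻¹ * (F * G))
      ≤ 4 * (ENNReal.ofReal c⁻¹ ^ 2 * H ^ 2) :=
    calc 4 * (ENNReal.ofReal a⁻¹ * ENNReal.ofReal b⁻¹ * (F * G))
        = 4 * ((ENNReal.ofReal a⁻¹ * F) * (ENNReal.ofReal b⁻¹ * G)) := by ring
      _ ≤ (ENNReal.ofReal a⁻¹ * F + ENNReal.ofReal b⁻¹ * G) ^ 2 := ennreal_four_mul_le_sq _ _
      _ ≤ (2 * (ENNReal.ofReal c⁻¹ * H)) ^ 2 := pow_le_pow_left₀ zero_le key 2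
      _ = _ := by ring
  rw [← ENNReal.ofReal_mul (by positivity), ← ENNReal.ofReal_pow (by positivity), inv_pow, hc2,
    ← mul_inv, ENNReal.mul_le_mul_iff_right (by norm_num) (by norm_num)] at h4
  exact (ENNReal.mul_le_mul_iff_right
    (ENNReal.ofReal_pos.2 (inv_pos.2 (mul_pos ha0 hb0))).ne' ENNReal.ofReal_ne_top).1 h4

/-- One variable, for bounded functions with values in the extended nonnegative reals. -/
theorem lintegral_mul_le_sq' {f g h : ℝ → ℝ≥0∞} (hf : Measurable f) (hg : Measurable g)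
    (hh : Measurable h) {M : ℝ≥0∞} (hM : M ≠ ⊤) (hf1 : ∀ x, f x ≤ M) (hg1 : ∀ x, g x ≤ M)
    (hh1 : ∀ x, h x ≤ M) (hfgh : ∀ x y, f x * g y ≤ h ((x + y) / 2) ^ 2) :
    (∫⁻ x, f x) * ∫⁻ x, g x ≤ (∫⁻ x, h x) ^ 2 := by
  have e : ∀ u : ℝ → ℝ≥0∞, (∀ x, u x ≤ M) → ∫⁻ x, u x = ∫⁻ x, ENNReal.ofReal (u x).toReal :=
    fun u hu => lintegral_congr fun x => (ENNReal.ofReal_toReal (ne_top_of_le_ne_top hM (hu x))).symm
  rw [e f hf1, e g hg1, e h hh1]
  refine lintegral_mul_le_sq hf.ennreal_toReal hg.ennreal_toReal hh.ennreal_toReal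
    (fun x => ENNReal.toReal_nonneg) (fun x => ENNReal.toReal_nonneg) (fun x => ENNReal.toReal_nonneg)
    (M := M.toReal) (fun x => ENNReal.toReal_mono hM (hf1 x))
    (fun x => ENNReal.toReal_mono hM (hg1 x)) fun x y => ?_
  rw [← ENNReal.toReal_mul, ← ENNReal.toReal_pow]
  exact ENNReal.toReal_mono (ENNReal.pow_ne_top (ne_top_of_le_ne_top hM (hh1 _))) (hfgh x y)

/-- The midpoint Prekopa-Leindler inequality for functions under a box. -/
theorem pi_mul_le_sq (r : ℝ) : ∀ {n : ℕ} {f g h : (Fin n → ℝ) → ℝ≥0∞} {M : ℝ≥0∞}, M ≠ ⊤ →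
    Measurable f → Measurable g → Measurable h →
    (∀ x, f x ≤ (univ.pi fun _ => Icc (-r) r).indicator (fun _ => M) x) →
    (∀ x, g x ≤ (univ.pi fun _ => Icc (-r) r).indicator (fun _ => M) x) →
    (∀ x, h x ≤ (univ.pi fun _ => Icc (-r) r).indicator (fun _ => M) x) →
    (∀ x y, f x * g y ≤ h (fun i => (x i + y i) / 2) ^ 2) →
    (∫⁻ x, f x) * ∫⁻ x, g x ≤ (∫⁻ x, h x) ^ 2 := by
  intro n
  induction n with
  | zero =>
    intro f g h M hM hf hg hh _ _ _ hfgh
    simp only [volume_pi]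
    rw [lintegral_unique, lintegral_unique, lintegral_unique, Measure.pi_empty_univ, mul_one,
      mul_one, mul_one]
    refine (hfgh _ _).trans (le_of_eq ?_)
    congr 2
    exact Subsingleton.elim _ _
  | succ n ih =>
    intro f g h M hM hf hg hh hfM hgM hhM hfgh
    let e := MeasurableEquiv.piFinSuccAbove (fun _ : Fin (n + 1) => ℝ) 0
    have he : MeasurePreserving e volume volume :=
      volume_preserving_piFinSuccAbove (fun _ : Fin (n + 1) => ℝ) 0
    have hsymm : ∀ (s : ℝ) (z : Fin n → ℝ), e.symm (s, z) = Fin.cons s z := by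
      intro s z
      simp [e, Fin.insertNth_zero, Fin.consEquiv]
    have key : ∀ u : (Fin (n + 1) → ℝ) → ℝ≥0∞, Measurable u → ∫⁻ x, u x
        = ∫⁻ s : ℝ, ∫⁻ z : Fin n → ℝ, u (Fin.cons s z) := by
      intro u hu
      rw [← (he.symm e).lintegral_comp hu, Measure.volume_eq_prod, lintegral_prod _ ?_]
      · simp only [hsymm]
      · exact (hu.comp e.symm.measurable).aemeasurable
    have hcons : ∀ s : ℝ, Measurable fun z : Fin n → ℝ => (Fin.cons s z : Fin (n + 1) → ℝ) :=
      fun s => by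
        have : (fun z : Fin n → ℝ => (Fin.cons s z : Fin (n + 1) → ℝ))
            = fun z => e.symm (s, z) := by funext z; rw [hsymm]
        rw [this]
        exact e.symm.measurable.comp (measurable_const.prodMk measurable_id)
    have hout : ∀ u : (Fin (n + 1) → ℝ) → ℝ≥0∞, Measurable u →
        Measurable fun s : ℝ => ∫⁻ z : Fin n → ℝ, u (Fin.cons s z) := by
      intro u hu
      have := (hu.comp e.symm.measurable).lintegral_prod_right' (ν := (volume : Measure (Fin n → ℝ)))
      simpa only [Function.comp_apply, hsymm] using this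
    have hsec : ∀ u : (Fin (n + 1) → ℝ) → ℝ≥0∞,
        (∀ x, u x ≤ (univ.pi fun _ => Icc (-r) r).indicator (fun _ => M) x) → ∀ s z,
          u (Fin.cons s z) ≤ (univ.pi fun _ : Fin n => Icc (-r) r).indicator (fun _ => M) z := by
      intro u hu s z
      refine (hu _).trans ?_
      by_cases hz : z ∈ univ.pi fun _ : Fin n => Icc (-r) r
      · rw [indicator_of_mem hz]; exact indicator_le_self' (fun _ _ => zero_le) _
      · rw [indicator_of_notMem hz, indicator_of_notMem]
        intro hc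
        exact hz fun i _ => by simpa using hc i.succ (mem_univ _)
    set M' : ℝ≥0∞ := M * volume (univ.pi fun _ : Fin n => Icc (-r) r) with hM'
    have hM'top : M' ≠ ⊤ :=
      ENNReal.mul_ne_top hM (isCompact_univ_pi fun _ => isCompact_Icc).measure_lt_top.ne
    have hle : ∀ u : (Fin (n + 1) → ℝ) → ℝ≥0∞,
        (∀ x, u x ≤ (univ.pi fun _ => Icc (-r) r).indicator (fun _ => M) x) →
        ∀ s : ℝ, ∫⁻ z : Fin n → ℝ, u (Fin.cons s z) ≤ M' := by
      intro u hu1 s
      refine (lintegral_mono fun z => hsec u hu1 s z).trans (le_of_eq ?_)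
      rw [lintegral_indicator_const (MeasurableSet.univ_pi fun _ => measurableSet_Icc)]
    rw [key f hf, key g hg, key h hh]
    refine lintegral_mul_le_sq' (hout f hf) (hout g hg) (hout h hh) hM'top (hle f hfM) (hle g hgM)
      (hle h hhM) fun s t => ?_
    refine ih hM (hf.comp (hcons s)) (hg.comp (hcons t)) (hh.comp (hcons _)) (hsec f hfM s)
      (hsec g hgM t) (hsec h hhM _) fun x y => ?_
    refine (hfgh _ _).trans (le_of_eq ?_)
    congr 2
    funext i
    refine Fin.cases ?_ (fun j => ?_) i <;> simp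

end Vale.Agent.P254
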