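import Mathlib
import Vale.Agent.P254.Body
import Vale.Agent.P254.MidpointPL

/-!
The Brunn-Minkowski inequality with exponent for compact convex sets containing the origin.
-/

noncomputable section

open MeasureTheory Set
open scoped ENNReal Pointwise

namespace Vale.Agent.P254

variable {k : ℕ}

/-- The combination of two sets with weights `1 - τ` and `τ`. -/
def combSet (A B : Set (Fin k → ℝ)) (τ : ℝ) : Set (Fin k → ℝ) :=
  (fun p : (Fin k → ℝ) × (Fin k → ℝ) => (1 - τ) • p.1 + τ • p.2) '' (A ×ˢ B)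

lemma isCompact_combSet {A B : Set (Fin k → ℝ)} (hA : IsCompact A) (hB : IsCompact B) (τ : ℝ) :
    IsCompact (combSet A B τ) := (hA.prod hB).image (by fun_prop)

lemma midpoint_volume {D E F : Set (Fin k → ℝ)} (hD : IsCompact D) (hE : IsCompact E)
    (hF : IsCompact F) (h : ∀ x ∈ D, ∀ y ∈ E, (fun i => (x i + y i) / 2) ∈ F) :
    volume D * volume E ≤ volume F ^ 2 := by
  obtain ⟨R, hR⟩ := ((hD.union hE).union hF).isBounded.subset_closedBall 0
  have hind : ∀ S : Set (Fin k → ℝ), S ⊆ D ∪ E ∪ F → ∀ x, S.indicator (fun _ => (1 : ℝ≥0∞)) x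
      ≤ (univ.pi fun _ => Icc (-R) R).indicator (fun _ => (1 : ℝ≥0∞)) x := fun S hS x => by
    refine indicator_le_indicator_of_subset (fun y hy => ?_) (fun _ => zero_le) x
    have := hR (hS hy)
    rw [Metric.mem_closedBall, dist_zero_right] at this
    exact mem_univ_pi.2 fun i => mem_Icc.2 (abs_le.1 ((norm_le_pi_norm y i).trans this))
  have key := pi_mul_le_sq R ENNReal.one_ne_top (measurable_const.indicator hD.measurableSet)
    (measurable_const.indicator hE.measurableSet) (measurable_const.indicator hF.measurableSet)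
    (hind D (subset_union_of_subset_left subset_union_left _))
    (hind E (subset_union_of_subset_left subset_union_right _)) (hind F subset_union_right)
    fun x y => ?_
  · rwa [lintegral_indicator_const hD.measurableSet, lintegral_indicator_const hE.measurableSet,
      lintegral_indicator_const hF.measurableSet, one_mul, one_mul, one_mul] at key
  by_cases hx : x ∈ D
  · by_cases hy : y ∈ E
    · rw [indicator_of_mem hx, indicator_of_mem hy, indicator_of_mem (h x hx y hy)]
      simp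
    · simp [indicator_of_notMem hy]
  · simp [indicator_of_notMem hx]

lemma one_le_volume_combSet {A B : Set (Fin k → ℝ)} (hA : IsCompact A) (hB : IsCompact B)
    (hAc : Convex ℝ A) (hBc : Convex ℝ B) (hA0 : 0 ∈ A) (hB0 : 0 ∈ B) (hA1 : volume A = 1)
    (hB1 : volume B = 1) {τ : ℝ} (hτ0 : 0 ≤ τ) (hτ1 : τ ≤ 1) : 1 ≤ volume (combSet A B τ) := by
  have hend0 : 1 ≤ volume (combSet A B 0) := by
    rw [← hA1]
    exact measure_mono fun x hx => ⟨(x, 0), ⟨hx, hB0⟩, by simp⟩
  have hend1 : 1 ≤ volume (combSet A B 1) := by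
    rw [← hB1]
    exact measure_mono fun x hx => ⟨(0, x), ⟨hA0, hx⟩, by simp⟩
  have hmid : ∀ σ σ' : ℝ, 0 ≤ σ → σ ≤ 1 → 0 ≤ σ' → σ' ≤ 1 → 1 ≤ volume (combSet A B σ) →
      1 ≤ volume (combSet A B σ') → 1 ≤ volume (combSet A B ((σ + σ') / 2)) := by
    intro σ σ' h0 h1 h0' h1' hv hv'
    rcases eq_or_ne σ σ' with rfl | hne
    · rwa [show (σ + σ) / 2 = σ by ring]
    have hF := midpoint_volume (isCompact_combSet hA hB σ) (isCompact_combSet hA hB σ')
      (isCompact_combSet hA hB ((σ + σ') / 2)) ?_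
    · by_contra hlt
      exact absurd ((one_le_mul hv hv').trans hF)
        (not_le.2 (pow_lt_one₀ zero_le (not_le.1 hlt) two_ne_zero))
    rintro _ ⟨⟨x, y⟩, ⟨hx, hy⟩, rfl⟩ _ ⟨⟨x', y'⟩, ⟨hx', hy'⟩, rfl⟩
    have hs : (σ + σ') ≠ 0 := fun h => hne (by linarith)
    have hs' : (1 - σ) + (1 - σ') ≠ 0 := fun h => hne (by linarith)
    refine ⟨(((1 - σ) / (1 - σ + (1 - σ'))) • x + ((1 - σ') / (1 - σ + (1 - σ'))) • x',
        (σ / (σ + σ')) • y + (σ' / (σ + σ')) • y'),
      ⟨hAc hx hx' (div_nonneg (by linarith) (by linarith)) (div_nonneg (by linarith) (by linarith))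
          (by rw [← add_div, div_self hs']),
        hBc hy hy' (div_nonneg h0 (by linarith)) (div_nonneg h0' (by linarith))
          (by rw [← add_div, div_self hs])⟩, ?_⟩
    funext i
    simp only [Pi.add_apply, Pi.smul_apply, smul_eq_mul]
    field_simp
    ring
  have hdy : ∀ m j : ℕ, j ≤ 2 ^ m → 1 ≤ volume (combSet A B ((j : ℝ) / 2 ^ m)) := by
    intro m
    induction m with
    | zero =>
      intro j hj
      rw [pow_zero] at hj
      rcases Nat.le_one_iff_eq_zero_or_eq_one.1 hj with rfl | rfl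
      · simpa using hend0
      · simpa using hend1
    | succ m ih =>
      intro j hj
      rw [pow_succ] at hj
      have hb : ∀ l : ℕ, l ≤ 2 ^ m → 0 ≤ (l : ℝ) / 2 ^ m ∧ (l : ℝ) / 2 ^ m ≤ 1 := fun l hl =>
        ⟨by positivity, (div_le_one (by positivity)).2 (by exact_mod_cast hl)⟩
      have hl : j / 2 ≤ 2 ^ m := by omega
      have hl' : j - j / 2 ≤ 2 ^ m := by omega
      have h := hmid _ _ (hb _ hl).1 (hb _ hl).2 (hb _ hl').1 (hb _ hl').2 (ih _ hl) (ih _ hl')
      convert h using 3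
      have : ((j / 2 : ℕ) : ℝ) + ((j - j / 2 : ℕ) : ℝ) = j := by
        exact_mod_cast (by omega : j / 2 + (j - j / 2) = j)
      rw [← add_div, this, pow_succ]
      field_simp
  rcases eq_or_lt_of_le hτ1 with rfl | hlt
  · exact hend1
  have hfr : Module.finrank ℝ (Fin k → ℝ) = k := by simp
  set δ : ℕ → ℝ := fun m => (1 / 2 : ℝ) ^ m / (1 - τ) with hδ
  have hδ0 : ∀ m, 0 ≤ δ m := fun m => div_nonneg (by positivity) (by linarith)
  have key : ∀ m : ℕ, 1 ≤ ENNReal.ofReal ((1 + δ m) ^ k) * volume (combSet A B τ) := by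
    intro m
    set j := ⌊τ * 2 ^ m⌋₊ with hj
    set σ : ℝ := (j : ℝ) / 2 ^ m with hσ
    have hσle : σ ≤ τ := by
      rw [hσ, div_le_iff₀ (by positivity)]; exact Nat.floor_le (by positivity)
    have hσge : τ ≤ σ + (1 / 2 : ℝ) ^ m := by
      rw [hσ, one_div, inv_pow, ← one_div, ← add_div, le_div_iff₀ (by positivity)]
      exact (Nat.lt_floor_add_one (τ * 2 ^ m)).le
    have hjle : j ≤ 2 ^ m := by
      have h1 : (j : ℝ) ≤ 2 ^ m := by
        have : σ ≤ 1 := hσle.trans hτ1
        rwa [hσ, div_le_one (by positivity)] at this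
      exact_mod_cast h1
    have hσ0 : 0 ≤ σ := by positivity
    set c := 1 + δ m with hc
    have hc0 : 1 ≤ c := by linarith [hδ0 m]
    have hsub : combSet A B σ ⊆ c • combSet A B τ := by
      rintro _ ⟨⟨x, y⟩, ⟨hx, hy⟩, rfl⟩
      have hcτ : c * (1 - τ) = 1 - τ + (1 / 2 : ℝ) ^ m := by
        rw [hc, hδ]
        field_simp
      have hst : ∀ {S : Set (Fin k → ℝ)}, Convex ℝ S → (0 : Fin k → ℝ) ∈ S →
          ∀ z ∈ S, ∀ θ : ℝ, 0 ≤ θ → θ ≤ 1 → θ • z ∈ S := fun hS h0 z hz θ h1 h2 =>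
        hS.smul_mem_of_zero_mem h0 hz ⟨h1, h2⟩
      refine ⟨(1 - τ) • (((1 - σ) / (c * (1 - τ))) • x) + τ • ((σ / (c * τ)) • y),
        ⟨(((1 - σ) / (c * (1 - τ))) • x, (σ / (c * τ)) • y),
          ⟨hst hAc hA0 x hx _ (div_nonneg (by linarith) (by nlinarith))
              ((div_le_one (by nlinarith)).2 (by linarith)),
            hst hBc hB0 y hy _ (div_nonneg hσ0 (by nlinarith)) ?_⟩, rfl⟩, ?_⟩
      · rcases eq_or_lt_of_le hτ0 with h | h
        · simp [← h]
        · rw [div_le_one (by positivity)]; nlinarith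
      funext i
      simp only [Pi.smul_apply, Pi.add_apply, smul_eq_mul]
      rcases eq_or_lt_of_le hτ0 with h | h
      · have : σ = 0 := le_antisymm (by linarith) hσ0
        rw [← h, this]
        field_simp
      · have h1 : 1 - τ ≠ 0 := by linarith
        field_simp
    refine (hdy m j hjle).trans ((measure_mono hsub).trans ?_)
    rw [Measure.addHaar_smul_of_nonneg volume (by linarith) , hfr]
  have hlim : Filter.Tendsto (fun m => ENNReal.ofReal ((1 + δ m) ^ k) * volume (combSet A B τ))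
      Filter.atTop (nhds (volume (combSet A B τ))) := by
    have h1 : Filter.Tendsto (fun m => ENNReal.ofReal ((1 + δ m) ^ k)) Filter.atTop
        (nhds (ENNReal.ofReal 1)) := by
      refine ENNReal.tendsto_ofReal ?_
      simpa [hδ] using ((((tendsto_pow_atTop_nhds_zero_of_lt_one (r := (1 / 2 : ℝ)) (by norm_num)
        (by norm_num)).div_const (1 - τ)).const_add 1).pow k)
    simpa using ENNReal.Tendsto.mul_const h1 (Or.inl (by simp))
  exact ge_of_tendsto hlim (Filter.Eventually.of_forall key)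

/-- Brunn-Minkowski with exponent for compact convex sets through the origin. -/
lemma brunn_minkowski {A B C : Set (Fin k → ℝ)} (hA : IsCompact A) (hB : IsCompact B)
    (hC : IsCompact C) (hAc : Convex ℝ A) (hBc : Convex ℝ B) (hA0 : 0 ∈ A) (hB0 : 0 ∈ B)
    {a b : ℝ} (ha : 0 < a) (hb : 0 < b) (hAv : (volume A).toReal = a ^ k)
    (hBv : (volume B).toReal = b ^ k) {l μ : ℝ} (hl : 0 ≤ l) (hμ : 0 ≤ μ) (hlμ : l + μ = 1)
    (hsub : ∀ z ∈ A, ∀ w ∈ B, l • z + μ • w ∈ C) : (l * a + μ * b) ^ k ≤ (volume C).toReal := by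
  have hfr : Module.finrank ℝ (Fin k → ℝ) = k := by simp
  have hnorm : ∀ {S : Set (Fin k → ℝ)} {c : ℝ}, IsCompact S → 0 < c →
      (volume S).toReal = c ^ k → volume (c⁻¹ • S) = 1 := by
    intro S c hS hc hv
    rw [Measure.addHaar_smul_of_nonneg volume (inv_nonneg.2 hc.le), hfr,
      ← ENNReal.ofReal_toReal hS.measure_lt_top.ne, hv, ← ENNReal.ofReal_mul (by positivity),
      ← mul_pow, inv_mul_cancel₀ hc.ne', one_pow, ENNReal.ofReal_one]
  set N := l * a + μ * b with hN
  have hN0 : 0 < N := by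
    rcases eq_or_lt_of_le hl with h | h
    · rw [hN, ← h, show μ = 1 by linarith]; linarith
    · exact add_pos_of_pos_of_nonneg (mul_pos h ha) (mul_nonneg hμ hb.le)
  have h := one_le_volume_combSet (τ := μ * b / N) (hA.smul a⁻¹) (hB.smul b⁻¹) (hAc.smul a⁻¹)
    (hBc.smul b⁻¹) ⟨0, hA0, smul_zero _⟩ ⟨0, hB0, smul_zero _⟩ (hnorm hA ha hAv) (hnorm hB hb hBv)
    (by positivity) (by rw [div_le_one hN0]; nlinarith)
  have hsub' : combSet (a⁻¹ • A) (b⁻¹ • B) (μ * b / N) ⊆ N⁻¹ • C := by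
    rintro _ ⟨⟨_, _⟩, ⟨⟨z, hz, rfl⟩, ⟨w, hw, rfl⟩⟩, rfl⟩
    refine ⟨l • z + μ • w, hsub z hz w hw, ?_⟩
    funext i
    simp only [Pi.smul_apply, Pi.add_apply, smul_eq_mul]
    field_simp
    rw [hN]
    ring
  have h2 := h.trans (measure_mono hsub')
  rw [Measure.addHaar_smul_of_nonneg volume (inv_nonneg.2 hN0.le), hfr] at h2
  have h3 := ENNReal.toReal_mono (ENNReal.mul_ne_top ENNReal.ofReal_ne_top hC.measure_lt_top.ne) h2
  rw [ENNReal.toReal_one, ENNReal.toReal_mul, ENNReal.toReal_ofReal (by positivity), inv_pow,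
    inv_mul_eq_div, le_div_iff₀ (pow_pos hN0 k), one_mul] at h3
  exact h3

end Vale.Agent.P254
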