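import Mathlib

/-!
Centroid, covariance matrix and isotropic constant of a set in coordinate space.
-/

noncomputable section

open MeasureTheory
open scoped BigOperators

namespace Vale.Agent.P254

/-- The centroid of `K` with respect to Lebesgue measure. -/
def centroid {n : ℕ} (K : Set (Fin n → ℝ)) (i : Fin n) : ℝ :=
  (volume K).toReal⁻¹ * ∫ x in K, x i

/-- The covariance matrix of the uniform probability measure on `K`. -/
def covMatrix {n : ℕ} (K : Set (Fin n → ℝ)) : Matrix (Fin n) (Fin n) ℝ :=
  Matrix.of fun i j =>
    (volume K).toReal⁻¹ * ∫ x in K, (x i - centroid K i) * (x j - centroid K j)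

/-- The isotropic constant `(det Σ_K / |K|²) ^ (1 / (2 n))`. -/
def isoConst {n : ℕ} (K : Set (Fin n → ℝ)) : ℝ :=
  ((covMatrix K).det / (volume K).toReal ^ 2) ^ ((1 : ℝ) / (2 * n))

/-- The standard simplex, the convex hull of the origin and the coordinate vectors. -/
def stdSimplexBody (n : ℕ) : Set (Fin n → ℝ) :=
  convexHull ℝ (insert 0 (Set.range fun i : Fin n => (Pi.single i 1 : Fin n → ℝ)))

end Vale.Agent.P254
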