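import Mathlib
import Vale.Agent.P254.Defs

/-!
Affine invariance of the isotropic constant.
-/

noncomputable section

open MeasureTheory Set Matrix

namespace Vale.Agent.P254

variable {n : ℕ}

lemma affine_hasFDeriv (A : (Fin n → ℝ) ≃ᵃ[ℝ] (Fin n → ℝ)) (x : Fin n → ℝ) (K : Set (Fin n → ℝ)) :
    HasFDerivWithinAt A (LinearMap.toContinuousLinearMap A.linear.toLinearMap) K x := by
  have h : (A : (Fin n → ℝ) → (Fin n → ℝ))
      = fun y => LinearMap.toContinuousLinearMap A.linear.toLinearMap y + A 0 := by
    funext y
    have := A.map_vadd 0 y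
    simpa using this
  rw [h]
  exact ((ContinuousLinearMap.hasFDerivAt _).add_const _).hasFDerivWithinAt

lemma integral_affine_image (A : (Fin n → ℝ) ≃ᵃ[ℝ] (Fin n → ℝ)) {K : Set (Fin n → ℝ)}
    (hK : MeasurableSet K) (g : (Fin n → ℝ) → ℝ) :
    ∫ x in A '' K, g x = |LinearMap.det A.linear.toLinearMap| * ∫ x in K, g (A x) := by
  rw [integral_image_eq_integral_abs_det_fderiv_smul volume hK
    (fun x _ => affine_hasFDeriv A x K) A.injective.injOn, ← integral_const_mul]
  simp [LinearMap.det_toContinuousLinearMap]

lemma det_linear_ne_zero (A : (Fin n → ℝ) ≃ᵃ[ℝ] (Fin n → ℝ)) :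
    LinearMap.det A.linear.toLinearMap ≠ 0 := (LinearEquiv.isUnit_det' A.linear).ne_zero

lemma volume_affine_image (A : (Fin n → ℝ) ≃ᵃ[ℝ] (Fin n → ℝ)) {K : Set (Fin n → ℝ)}
    (hK : MeasurableSet K) :
    (volume (A '' K)).toReal = |LinearMap.det A.linear.toLinearMap| * (volume K).toReal := by
  have h := integral_affine_image A hK fun _ => (1 : ℝ)
  simpa [setIntegral_const, Measure.real] using h

lemma isoConst_affine (A : (Fin n → ℝ) ≃ᵃ[ℝ] (Fin n → ℝ)) {K : Set (Fin n → ℝ)}
    (hK : IsCompact K) (hV : 0 < (volume K).toReal) : isoConst (A '' K) = isoConst K := by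
  set L := A.linear.toLinearMap with hL
  set M : Matrix (Fin n) (Fin n) ℝ := LinearMap.toMatrix' L with hM
  set V := (volume K).toReal with hVdef
  set d := |LinearMap.det L| with hd
  have hd0 : 0 < d := abs_pos.2 (det_linear_ne_zero A)
  obtain ⟨w, hw⟩ : ∃ w, A 0 = w := ⟨_, rfl⟩
  have hA : ∀ x i, A x i = (∑ k, M i k * x k) + w i := by
    intro x i
    have h1 : A x = L x + w := by
      rw [← hw]
      have := A.map_vadd 0 x
      simpa [hL] using this
    rw [h1, Pi.add_apply, hM, ← Matrix.toLin'_toMatrix' L, Matrix.toLin'_apply]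
    simp [Matrix.mulVec, dotProduct]
  have hint : ∀ f : (Fin n → ℝ) → ℝ, Continuous f → IntegrableOn f K volume := fun f hf =>
    hf.continuousOn.integrableOn_compact hK
  have hvol : (volume (A '' K)).toReal = d * V := volume_affine_image A hK.measurableSet
  have hc : ∀ i, centroid (A '' K) i = (∑ k, M i k * centroid K k) + w i := by
    intro i
    have iS : IntegrableOn (fun x => ∑ k, M i k * x k) K volume := hint _ (by fun_prop)
    have iC : IntegrableOn (fun _ => w i) K volume := hint _ (by fun_prop)
    have hsum : ∫ x in K, ∑ k, M i k * x k = ∑ k, M i k * ∫ x in K, x k := by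
      rw [integral_finsetSum _ fun k _ => hint _ (by fun_prop)]
      simp only [integral_const_mul]
    rw [centroid, hvol, integral_affine_image A hK.measurableSet fun x => x i, ← hd]
    simp only [hA]
    rw [integral_add iS iC, hsum, setIntegral_const, Measure.real, ← hVdef, smul_eq_mul]
    have hk : ∑ k, M i k * centroid K k = V⁻¹ * ∑ k, M i k * ∫ x in K, x k := by
      rw [Finset.mul_sum]
      exact Finset.sum_congr rfl fun k _ => by rw [centroid, ← hVdef]; ring
    rw [hk]
    field_simp
  have hcov : covMatrix (A '' K) = M * covMatrix K * Mᵀ := by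
    ext i j
    simp only [covMatrix, Matrix.of_apply]
    rw [hvol, integral_affine_image A hK.measurableSet fun x =>
      (x i - centroid (A '' K) i) * (x j - centroid (A '' K) j)]
    have e : ∀ x, (A x i - centroid (A '' K) i) * (A x j - centroid (A '' K) j)
        = ∑ k, ∑ l, M i k * M j l * ((x k - centroid K k) * (x l - centroid K l)) := by
      intro x
      rw [hA, hA, hc, hc, add_sub_add_right_eq_sub, add_sub_add_right_eq_sub,
        ← Finset.sum_sub_distrib, ← Finset.sum_sub_distrib, Finset.sum_mul_sum]
      exact Finset.sum_congr rfl fun k _ => Finset.sum_congr rfl fun l _ => by ring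
    simp only [e]
    have hi : ∀ k l, IntegrableOn
        (fun x => M i k * M j l * ((x k - centroid K k) * (x l - centroid K l))) K volume :=
      fun k l => hint _ (by fun_prop)
    rw [integral_finsetSum _ fun k _ => integrable_finsetSum _ fun l _ => hi k l]
    simp only [Matrix.mul_apply, Matrix.transpose_apply, Matrix.of_apply, Finset.sum_mul,
      Finset.mul_sum]
    rw [Finset.sum_comm]
    refine Finset.sum_congr rfl fun k _ => ?_
    rw [integral_finsetSum _ fun l _ => hi k l, Finset.mul_sum, Finset.mul_sum]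
    refine Finset.sum_congr rfl fun l _ => ?_
    rw [integral_const_mul, ← hd, ← hVdef]
    field_simp
  have hdet : (covMatrix (A '' K)).det = d ^ 2 * (covMatrix K).det := by
    rw [hcov, Matrix.det_mul, Matrix.det_mul, Matrix.det_transpose, hd, sq_abs, hM,
      LinearMap.det_toMatrix']
    ring
  rw [isoConst, isoConst, hdet, hvol, mul_pow, mul_div_mul_left _ _ (by positivity)]

end Vale.Agent.P254
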