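import Mathlib
import Vale.Agent.P254.Body

/-!
Downward closure of unconditional convex bodies, their slices, and slicing formulas.
-/

noncomputable section

open MeasureTheory Set
open scoped ENNReal

namespace Vale.Agent.P254

variable {n m : ℕ}

/-- Every point coordinatewise dominated in absolute value by a point of the set is in the set. -/
def IsDownward (K : Set (Fin n → ℝ)) : Prop :=
  ∀ x ∈ K, ∀ y : Fin n → ℝ, (∀ i, |y i| ≤ |x i|) → y ∈ K

lemma isDownward_of_unconditional {K : Set (Fin n → ℝ)} (hconv : Convex ℝ K)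
    (hsign : ∀ x ∈ K, ∀ y, (∀ i, y i = x i ∨ y i = -x i) → y ∈ K) : IsDownward K := by
  intro x hx y hy
  suffices h : ∀ T : Finset (Fin n), (fun i => if i ∈ T then y i else x i) ∈ K by
    simpa using h Finset.univ
  intro T
  induction T using Finset.induction_on with
  | empty => simpa using hx
  | insert a T ha ih =>
    set z : Fin n → ℝ := fun i => if i ∈ T then y i else x i with hz
    have hza : z a = x a := by simp [hz, ha]
    rcases eq_or_ne (x a) 0 with h0 | h0
    · have : y a = 0 := by simpa [h0] using hy a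
      convert ih using 1
      funext i
      by_cases hi : i = a
      · subst hi; simp [this, hza, h0]
      · simp [hi, hz]
    have h1 : |y a / x a| ≤ 1 := by
      rw [abs_div, div_le_one (abs_pos.2 h0)]; exact hy a
    obtain ⟨h2, h3⟩ := abs_le.1 h1
    have hc := hconv ih (neg_update_mem hsign ih a) (a := (1 + y a / x a) / 2)
      (b := (1 - y a / x a) / 2) (by linarith) (by linarith) (by ring)
    convert hc using 1
    funext i
    by_cases hi : i = a
    · subst hi
      simp [hza]
      field_simp
      ring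
    · have : (if i ∈ insert a T then y i else x i) = z i := by simp [hi, hz]
      rw [this]
      simp [hi]
      ring

/-- The slice of `K` at height `u` in the coordinate `i`. -/
def slice (K : Set (Fin (m + 1) → ℝ)) (i : Fin (m + 1)) (u : ℝ) : Set (Fin m → ℝ) :=
  {z | i.insertNth u z ∈ K}

variable {K : Set (Fin (m + 1) → ℝ)} {i : Fin (m + 1)}

lemma isCompact_slice (hK : IsCompact K) (i : Fin (m + 1)) (u : ℝ) : IsCompact (slice K i u) := by
  obtain ⟨R, -, hR⟩ := exists_coord_bound hK
  refine (isCompact_univ_pi fun _ => isCompact_Icc (a := -R) (b := R)).of_isClosed_subset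
    (hK.isClosed.preimage (Continuous.finInsertNth i continuous_const continuous_id)) ?_
  intro z hz j _
  exact mem_Icc.2 (abs_le.1 (by simpa using hR _ hz (i.succAbove j)))

lemma slice_eq_empty {R : ℝ} (hR : ∀ x ∈ K, ∀ j, |x j| ≤ R) {u : ℝ} (hu : R < |u|) :
    slice K i u = ∅ := by
  refine Set.eq_empty_iff_forall_notMem.2 fun z hz => ?_
  have := hR _ hz i
  simp only [Fin.insertNth_apply_same] at this
  linarith

lemma slice_anti (hD : IsDownward K) {u v : ℝ} (h : |u| ≤ |v|) : slice K i v ⊆ slice K i u := by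
  intro z hz
  refine hD _ hz _ fun j => ?_
  refine Fin.succAboveCases i ?_ (fun l => ?_) j
  · simpa using h
  · simp

lemma slice_abs (hD : IsDownward K) (u : ℝ) : slice K i |u| = slice K i u :=
  Subset.antisymm (slice_anti hD (by simp)) (slice_anti hD (by simp))

lemma isDownward_slice (hD : IsDownward K) (u : ℝ) : IsDownward (slice K i u) := by
  intro z hz w hw
  refine hD _ hz _ fun j => ?_
  refine Fin.succAboveCases i ?_ (fun l => ?_) j
  · simp
  · simpa using hw l

lemma zero_mem_slice (hD : IsDownward K) {u : ℝ} (h : (slice K i u).Nonempty) :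
    (0 : Fin m → ℝ) ∈ slice K i u := by
  obtain ⟨z, hz⟩ := h
  exact isDownward_slice hD u z hz 0 fun l => by simp

lemma measurable_insertNth_prod (i : Fin (m + 1)) :
    Measurable fun p : ℝ × (Fin m → ℝ) => (i.insertNth p.1 p.2 : Fin (m + 1) → ℝ) :=
  (Continuous.finInsertNth i continuous_fst continuous_snd).measurable

lemma measurableSet_slice (hK : MeasurableSet K) (i : Fin (m + 1)) (u : ℝ) :
    MeasurableSet (slice K i u) :=
  hK.preimage ((measurable_insertNth_prod i).comp (measurable_const.prodMk measurable_id))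

lemma lintegral_slice (hK : MeasurableSet K) (i : Fin (m + 1))
    {Φ : (Fin (m + 1) → ℝ) → ℝ≥0∞} (hΦ : Measurable Φ) :
    ∫⁻ x in K, Φ x = ∫⁻ u : ℝ, ∫⁻ z in slice K i u, Φ (i.insertNth u z) := by
  set e := MeasurableEquiv.piFinSuccAbove (fun _ : Fin (m + 1) => ℝ) i with he
  have hep : MeasurePreserving e volume volume :=
    volume_preserving_piFinSuccAbove (fun _ : Fin (m + 1) => ℝ) i
  have hsymm : ∀ (u : ℝ) (z : Fin m → ℝ), e.symm (u, z) = i.insertNth u z := fun u z => by
    simp [he, Fin.insertNthEquiv]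
  rw [← lintegral_indicator hK, ← (hep.symm e).lintegral_comp (hΦ.indicator hK),
    Measure.volume_eq_prod, lintegral_prod]
  · refine lintegral_congr fun u => ?_
    rw [← lintegral_indicator (measurableSet_slice hK i u)]
    refine lintegral_congr fun z => ?_
    rw [hsymm]
    rfl
  · exact ((hΦ.indicator hK).comp e.symm.measurable).aemeasurable

lemma measurable_lintegral_slice (hK : MeasurableSet K) (i : Fin (m + 1))
    {Φ : (Fin (m + 1) → ℝ) → ℝ≥0∞} (hΦ : Measurable Φ) :
    Measurable fun u : ℝ => ∫⁻ z in slice K i u, Φ (i.insertNth u z) := by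
  have h := ((hΦ.indicator hK).comp (measurable_insertNth_prod i)).lintegral_prod_right'
    (ν := (volume : Measure (Fin m → ℝ)))
  convert h using 1
  funext u
  rw [← lintegral_indicator (measurableSet_slice hK i u)]
  rfl

lemma lintegral_coord (hK : MeasurableSet K) (i : Fin (m + 1)) {φ : ℝ → ℝ≥0∞} (hφ : Measurable φ) :
    ∫⁻ x in K, φ (x i) = ∫⁻ u : ℝ, φ u * volume (slice K i u) := by
  rw [lintegral_slice hK i (Φ := fun x => φ (x i)) (hφ.comp (measurable_pi_apply i))]
  refine lintegral_congr fun u => ?_
  simp only [Fin.insertNth_apply_same, setLIntegral_const]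

lemma lintegral_even {f : ℝ → ℝ≥0∞} (hf : ∀ u, f (-u) = f u) :
    ∫⁻ u, f u = 2 * ∫⁻ u in Set.Ioi (0 : ℝ), f u := by
  have h1 := (Measure.measurePreserving_neg (volume : Measure ℝ)).setLIntegral_comp_preimage_emb
    (MeasurableEquiv.neg ℝ).measurableEmbedding f (Set.Ioi 0)
  have h2 := lintegral_add_compl (μ := (volume : Measure ℝ)) f (measurableSet_Ioi (a := (0 : ℝ)))
  rw [← h2, compl_Ioi, setLIntegral_congr Iio_ae_eq_Iic.symm, two_mul]
  simp only [hf, neg_preimage, Set.neg_Ioi, neg_zero] at h1
  rw [h1]

lemma lintegral_coord_even (hK : MeasurableSet K) (hD : IsDownward K) (i : Fin (m + 1))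
    {φ : ℝ → ℝ≥0∞} (hφ : Measurable φ) (heven : ∀ u, φ (-u) = φ u) :
    ∫⁻ x in K, φ (x i) = 2 * ∫⁻ u in Set.Ioi (0 : ℝ), φ u * volume (slice K i u) := by
  rw [lintegral_coord hK i hφ, lintegral_even]
  intro u
  rw [heven, ← slice_abs hD (-u), abs_neg, slice_abs hD u]

end Vale.Agent.P254
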