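import Mathlib
import Vale.Agent.P254.Defs
import Vale.Agent.P254.Body

/-!
Moments and isotropic constant of the standard simplex.
-/

noncomputable section

open MeasureTheory Set Matrix
open scoped BigOperators Nat

namespace Vale.Agent.P254

/-- The solid simplex of size `s`. -/
def solidSimplex (n : ℕ) (s : ℝ) : Set (Fin n → ℝ) := {x | (∀ i, 0 ≤ x i) ∧ ∑ i, x i ≤ s}

lemma solidSimplex_closed (n : ℕ) (s : ℝ) : IsClosed (solidSimplex n s) := by
  have : solidSimplex n s = (⋂ i, {x : Fin n → ℝ | 0 ≤ x i}) ∩ {x | ∑ i, x i ≤ s} := by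
    ext x; simp [solidSimplex]
  rw [this]
  exact (isClosed_iInter fun i => isClosed_le continuous_const (continuous_apply i)).inter
    (isClosed_le (by fun_prop) continuous_const)

lemma solidSimplex_compact (n : ℕ) (s : ℝ) : IsCompact (solidSimplex n s) := by
  refine (isCompact_univ_pi fun _ : Fin n => isCompact_Icc (a := (0 : ℝ)) (b := max s 0)).of_isClosed_subset
    (solidSimplex_closed n s) fun x hx i _ => ⟨hx.1 i, ?_⟩
  exact ((Finset.single_le_sum (fun j _ => hx.1 j) (Finset.mem_univ i)).trans hx.2).trans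
    (le_max_left _ _)

lemma beta_integral (a : ℕ) : ∀ (m : ℕ) (s : ℝ),
    ∫ u in (0 : ℝ)..s, u ^ a * (s - u) ^ m
      = (a ! * m ! : ℝ) * s ^ (a + m + 1) / ((a + m + 1) ! : ℕ) := by
  induction a with
  | zero =>
    intro m s
    simp only [pow_zero, one_mul]
    rw [intervalIntegral.integral_comp_sub_left (fun u => u ^ m) s, integral_pow]
    simp only [sub_self, sub_zero, zero_add, Nat.factorial_succ, Nat.factorial_zero]
    push_cast
    have : (m ! : ℝ) ≠ 0 := by positivity
    field_simp
    simp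
  | succ a ih =>
    intro m s
    have hc : ∀ p q : ℕ, IntervalIntegrable (fun u : ℝ => u ^ p * (s - u) ^ q) volume 0 s :=
      fun p q => (by fun_prop : Continuous fun u : ℝ => u ^ p * (s - u) ^ q).intervalIntegrable _ _
    have hderiv : ∀ u ∈ Set.uIcc 0 s, HasDerivAt (fun u : ℝ => u ^ (a + 1) * (s - u) ^ (m + 1))
        (((a : ℝ) + 1) * (u ^ a * (s - u) ^ (m + 1))
          - ((m : ℝ) + 1) * (u ^ (a + 1) * (s - u) ^ m)) u := by
      intro u _
      refine ((hasDerivAt_pow (a + 1) u).mul (((hasDerivAt_id u).const_sub s).pow (m + 1))).congr_deriv ?_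
      simp
      ring
    have h := intervalIntegral.integral_eq_sub_of_hasDerivAt hderiv
      (((hc a (m + 1)).const_mul _).sub ((hc (a + 1) m).const_mul _))
    rw [intervalIntegral.integral_sub ((hc a (m + 1)).const_mul _) ((hc (a + 1) m).const_mul _),
      intervalIntegral.integral_const_mul, intervalIntegral.integral_const_mul, ih] at h
    simp only [sub_self, zero_pow (Nat.succ_ne_zero _), mul_zero, zero_mul, sub_zero] at h
    rw [show a + 1 + m + 1 = a + (m + 1) + 1 by ring]
    have hm : (0 : ℝ) < (m : ℝ) + 1 := by positivity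
    have : ((m : ℝ) + 1) * ∫ u in (0 : ℝ)..s, u ^ (a + 1) * (s - u) ^ m
        = ((m : ℝ) + 1) * (((a + 1) ! * m ! : ℝ) * s ^ (a + (m + 1) + 1)
          / ((a + (m + 1) + 1) ! : ℕ)) := by
      rw [Nat.factorial_succ a]
      rw [Nat.factorial_succ m] at h
      push_cast at h ⊢
      linear_combination -h
    exact mul_left_cancel₀ hm.ne' this

lemma moment_simplex : ∀ (n : ℕ) (a : Fin n → ℕ) (s : ℝ), 0 ≤ s →
    ∫ x in solidSimplex n s, ∏ i, x i ^ a i
      = (∏ i, ((a i) ! : ℝ)) * s ^ (n + ∑ i, a i) / ((n + ∑ i, a i) ! : ℕ) := by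
  intro n
  induction n with
  | zero =>
    intro a s hs
    have : solidSimplex 0 s = Set.univ := by ext x; simp [solidSimplex, hs]
    rw [this, setIntegral_univ]
    simp [volume_pi, Measure.real]
  | succ n ih =>
    intro a s hs
    set e := MeasurableEquiv.piFinSuccAbove (fun _ : Fin (n + 1) => ℝ) 0 with he
    have hep : MeasurePreserving e volume volume :=
      volume_preserving_piFinSuccAbove (fun _ : Fin (n + 1) => ℝ) 0
    set F : (Fin (n + 1) → ℝ) → ℝ := fun x => ∏ i, x i ^ a i with hF
    have hint : Integrable ((solidSimplex (n + 1) s).indicator F) :=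
      (integrable_indicator_iff (solidSimplex_closed _ _).measurableSet).2
        ((by fun_prop : Continuous F).continuousOn.integrableOn_compact (solidSimplex_compact _ _))
    rw [← integral_indicator (solidSimplex_closed _ _).measurableSet,
      ← (hep.symm e).integral_comp' ((solidSimplex (n + 1) s).indicator F),
      Measure.volume_eq_prod, integral_prod]
    · set c : Fin n → ℕ := fun i => a i.succ with hc
      have hinner : ∀ u : ℝ,
          (∫ z : Fin n → ℝ, (solidSimplex (n + 1) s).indicator F (e.symm (u, z)))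
            = (Set.Icc 0 s).indicator (fun u => u ^ a 0 * ((∏ i, ((c i) ! : ℝ))
                * (s - u) ^ (n + ∑ i, c i) / ((n + ∑ i, c i) ! : ℕ))) u := by
        intro u
        have hsy : ∀ z : Fin n → ℝ, e.symm (u, z) = Fin.cons u z := fun z => by
          simp [he, Fin.consEquiv]
        simp only [hsy]
        by_cases hu : u ∈ Set.Icc 0 s
        · rw [Set.indicator_of_mem hu, ← ih c (s - u) (by linarith [hu.2]), ← integral_const_mul,
            ← integral_indicator (solidSimplex_closed _ _).measurableSet]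
          refine integral_congr_ae (Filter.Eventually.of_forall fun z => ?_)
          have hiff : (Fin.cons u z : Fin (n + 1) → ℝ) ∈ solidSimplex (n + 1) s
              ↔ z ∈ solidSimplex n (s - u) := by
            simp only [solidSimplex, Set.mem_ofPred_eq, Fin.forall_fin_succ, Fin.cons_zero,
              Fin.cons_succ, Fin.sum_univ_succ]
            constructor
            · rintro ⟨⟨-, h1⟩, h2⟩; exact ⟨h1, by linarith⟩
            · rintro ⟨h1, h2⟩; exact ⟨⟨hu.1, h1⟩, by linarith⟩
          by_cases hz : z ∈ solidSimplex n (s - u)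
          · simp only [Set.indicator_of_mem hz, Set.indicator_of_mem (hiff.2 hz)]
            simp [hF, Fin.prod_univ_succ, hc]
          · simp only [Set.indicator_of_notMem hz, Set.indicator_of_notMem (mt hiff.1 hz)]
        · rw [Set.indicator_of_notMem hu]
          refine integral_eq_zero_of_ae (Filter.Eventually.of_forall fun z => ?_)
          refine Set.indicator_of_notMem (fun h => hu ⟨?_, ?_⟩) _
          · simpa using h.1 0
          · have h2 := h.2
            rw [Fin.sum_univ_succ] at h2
            simp only [Fin.cons_zero, Fin.cons_succ] at h2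
            have : 0 ≤ ∑ i, z i := Finset.sum_nonneg fun i _ => by simpa using h.1 i.succ
            linarith
      simp only [hinner]
      rw [integral_indicator measurableSet_Icc, integral_Icc_eq_integral_Ioc,
        ← intervalIntegral.integral_of_le hs]
      have : ∀ u : ℝ, u ^ a 0 * ((∏ i, ((c i) ! : ℝ)) * (s - u) ^ (n + ∑ i, c i)
          / ((n + ∑ i, c i) ! : ℕ))
          = ((∏ i, ((c i) ! : ℝ)) / ((n + ∑ i, c i) ! : ℕ))
            * (u ^ a 0 * (s - u) ^ (n + ∑ i, c i)) := fun u => by ring
      simp only [this]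
      rw [intervalIntegral.integral_const_mul, beta_integral, Fin.prod_univ_succ, Fin.sum_univ_succ]
      simp only [hc]
      rw [show n + 1 + (a 0 + ∑ i : Fin n, a i.succ) = a 0 + (n + ∑ i : Fin n, a i.succ) + 1 by ring]
      have : ((n + ∑ i : Fin n, a i.succ) ! : ℝ) ≠ 0 := by positivity
      field_simp
    · rw [← Measure.volume_eq_prod]
      exact ((hep.symm e).integrable_comp_emb e.symm.measurableEmbedding).2 hint

lemma stdSimplexBody_eq (n : ℕ) : stdSimplexBody n = solidSimplex n 1 := by
  refine Set.Subset.antisymm (convexHull_min ?_ ?_) ?_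
  · rintro x (rfl | ⟨i, rfl⟩)
    · simp [solidSimplex]
    · refine ⟨fun j => ?_, ?_⟩
      · by_cases h : j = i <;> simp [h]
      · simp
  · intro x hx y hy a b ha hb hab
    refine ⟨fun i => ?_, ?_⟩
    · simp only [Pi.add_apply, Pi.smul_apply, smul_eq_mul]
      exact add_nonneg (mul_nonneg ha (hx.1 i)) (mul_nonneg hb (hy.1 i))
    · simp only [Pi.add_apply, Pi.smul_apply, smul_eq_mul, Finset.sum_add_distrib,
        ← Finset.mul_sum]
      calc a * ∑ i, x i + b * ∑ i, y i ≤ a * 1 + b * 1 :=
            add_le_add (mul_le_mul_of_nonneg_left hx.2 ha) (mul_le_mul_of_nonneg_left hy.2 hb)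
        _ = 1 := by linarith
  · intro x hx
    set w : Option (Fin n) → ℝ := fun o => o.elim (1 - ∑ i, x i) x with hw
    set v : Option (Fin n) → (Fin n → ℝ) :=
      fun o => o.elim 0 (fun i => Pi.single i 1) with hv
    have h := (convex_convexHull ℝ (insert (0 : Fin n → ℝ)
      (Set.range fun i : Fin n => (Pi.single i 1 : Fin n → ℝ)))).sum_mem (t := Finset.univ)
      (w := w) (z := v) (fun o _ => ?_) ?_ (fun o _ => subset_convexHull ℝ _ ?_)
    · have e : ∑ o, w o • v o = x := by
        simp only [Fintype.sum_option, hw, hv, Option.elim_none, Option.elim_some, smul_zero,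
          zero_add]
        funext j
        simp [Finset.sum_apply, Pi.single_apply]
      rwa [e] at h
    · cases o with
      | none => simp only [hw, Option.elim_none]; linarith [hx.2]
      | some i => simpa [hw] using hx.1 i
    · simp [hw, Fintype.sum_option]
    · cases o with
      | none => simp [hv]
      | some i => exact Or.inr ⟨i, rfl⟩

lemma covMatrix_stdSimplexBody (n : ℕ) :
    covMatrix (stdSimplexBody n) = Matrix.of (fun i j => (if i = j then
      1 / (((n : ℝ) + 1) * ((n : ℝ) + 2)) else 0)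
        - 1 / (((n : ℝ) + 1) ^ 2 * ((n : ℝ) + 2))) ∧
    (volume (stdSimplexBody n)).toReal = 1 / (n ! : ℝ) := by
  rw [stdSimplexBody_eq]
  set S := solidSimplex n 1 with hS
  have hm := fun a => moment_simplex n a 1 zero_le_one
  have hvol : (volume S).toReal = 1 / (n ! : ℝ) := by
    have h := hm fun _ => 0
    simpa [Measure.real] using h
  have h1 : ∀ i, ∫ x in S, x i = 1 / ((n + 1) ! : ℕ) := by
    intro i
    have h := hm (Pi.single i 1)
    simpa [Pi.single_apply, pow_ite, Finset.prod_ite_eq', apply_ite Nat.factorial] using h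
  have h2 : ∀ i j, ∫ x in S, x i * x j = (if i = j then 2 else 1) / ((n + 2) ! : ℕ) := by
    intro i j
    by_cases hij : i = j
    · subst hij
      have h := hm (Pi.single i 2)
      simpa [Pi.single_apply, pow_ite, Finset.prod_ite_eq', apply_ite Nat.factorial, sq] using h
    · have h := hm (fun l => (if l = i then 1 else 0) + if l = j then 1 else 0)
      have hfac : ∀ l, (((if l = i then 1 else 0) + if l = j then 1 else 0 : ℕ) ! : ℝ) = 1 := by
        intro l
        by_cases hl : l = i
        · simp [hl, hij]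
        · by_cases hl' : l = j <;> simp [hl, hl', Ne.symm hij]
      have hprod : ∀ x : Fin n → ℝ,
          ∏ l, x l ^ ((if l = i then 1 else 0) + if l = j then 1 else 0 : ℕ) = x i * x j := by
        intro x
        simp only [pow_add, Finset.prod_mul_distrib]
        simp [pow_ite, Finset.prod_ite_eq']
      simp only [hprod, hfac, Finset.prod_const_one, one_mul, one_pow] at h
      rw [h, if_neg hij]
      congr 3
      simp [Finset.sum_add_distrib]
  refine ⟨?_, hvol⟩
  ext i j
  have hcont : ∀ f : (Fin n → ℝ) → ℝ, Continuous f → IntegrableOn f S volume := fun f hf =>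
    hf.continuousOn.integrableOn_compact (solidSimplex_compact n 1)
  have hc : ∀ l, centroid S l = 1 / ((n : ℝ) + 1) := by
    intro l
    rw [centroid, hvol, h1, Nat.factorial_succ]
    push_cast
    field_simp
  simp only [covMatrix, Matrix.of_apply, hc]
  have hexp : ∫ x in S, (x i - 1 / ((n : ℝ) + 1)) * (x j - 1 / ((n : ℝ) + 1))
      = (∫ x in S, x i * x j) - 1 / ((n : ℝ) + 1) * (∫ x in S, x i)
        - 1 / ((n : ℝ) + 1) * (∫ x in S, x j)
        + (1 / ((n : ℝ) + 1)) ^ 2 * (volume S).toReal := by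
    have e : ∀ x : Fin n → ℝ, (x i - 1 / ((n : ℝ) + 1)) * (x j - 1 / ((n : ℝ) + 1))
        = x i * x j - 1 / ((n : ℝ) + 1) * x i - 1 / ((n : ℝ) + 1) * x j
          + (1 / ((n : ℝ) + 1)) ^ 2 := fun x => by ring
    simp only [e]
    have i0 := hcont (fun x => x i * x j) (by fun_prop)
    have i1 := hcont (fun x => 1 / ((n : ℝ) + 1) * x i) (by fun_prop)
    have i2 := hcont (fun x => 1 / ((n : ℝ) + 1) * x j) (by fun_prop)
    have i3 := hcont (fun _ => (1 / ((n : ℝ) + 1)) ^ 2) (by fun_prop)
    have i01 : IntegrableOn (fun x : Fin n → ℝ => x i * x j - 1 / ((n : ℝ) + 1) * x i) S volume :=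
      i0.sub i1
    have i012 : IntegrableOn (fun x : Fin n → ℝ =>
        x i * x j - 1 / ((n : ℝ) + 1) * x i - 1 / ((n : ℝ) + 1) * x j) S volume := i01.sub i2
    rw [integral_add i012 i3, integral_sub i01 i2, integral_sub i0 i1,
      integral_const_mul, integral_const_mul, setIntegral_const]
    simp [Measure.real, mul_comm]
  rw [hexp, h2, h1, h1, hvol, Nat.factorial_succ (n + 1), Nat.factorial_succ n]
  push_cast
  have : (n ! : ℝ) ≠ 0 := by positivity
  split <;> field_simp <;> ring

lemma isoConst_stdSimplexBody_ge {n : ℕ} (hn : 100000 ≤ n) :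
    (364 / 1000 : ℝ) ≤ isoConst (stdSimplexBody n) := by
  obtain ⟨hcov, hvol⟩ := covMatrix_stdSimplexBody n
  set α : ℝ := 1 / (((n : ℝ) + 1) * ((n : ℝ) + 2)) with hα
  have hnR : (100000 : ℝ) ≤ n := by exact_mod_cast hn
  have hα0 : 0 < α := by positivity
  have hdet : (covMatrix (stdSimplexBody n)).det = α ^ n / ((n : ℝ) + 1) := by
    have : covMatrix (stdSimplexBody n) = α • (1 + Matrix.replicateCol Unit
        (fun _ : Fin n => -(1 / ((n : ℝ) + 1))) * Matrix.replicateRow Unit fun _ : Fin n => (1 : ℝ)) := by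
      rw [hcov]
      ext i j
      simp only [Matrix.of_apply, Matrix.smul_apply, Matrix.add_apply, Matrix.mul_apply,
        Matrix.replicateCol_apply, Matrix.replicateRow_apply, Finset.univ_unique,
        Finset.sum_singleton, smul_eq_mul, Matrix.one_apply]
      rw [hα]
      split <;> field_simp <;> ring
    rw [this, Matrix.det_smul, Matrix.det_one_add_replicateCol_mul_replicateRow]
    simp [dotProduct]
    field_simp
    ring
  have hbase : ((364 / 1000 : ℝ) ^ 2) ^ n
      ≤ (covMatrix (stdSimplexBody n)).det / (volume (stdSimplexBody n)).toReal ^ 2 := by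
    rw [hdet, hvol]
    have hfac : ((n : ℝ) / Real.exp 1) ^ n ≤ (n ! : ℝ) := by
      have h := Real.pow_div_factorial_le_exp (x := (n : ℝ)) n.cast_nonneg n
      rw [div_le_iff₀ (by positivity)] at h
      rw [div_pow, ← Real.exp_nat_mul, mul_one, div_le_iff₀ (Real.exp_pos _)]
      linarith
    have hq : (101 / 100 : ℝ) * (364 / 1000) ^ 2 ≤ α * ((n : ℝ) / Real.exp 1) ^ 2 := by
      have he : Real.exp 1 ^ 2 ≤ (2.7182818286 : ℝ) ^ 2 :=
        pow_le_pow_left₀ (Real.exp_pos 1).le Real.exp_one_lt_d9.le 2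
      rw [hα, show (1 / (((n : ℝ) + 1) * ((n : ℝ) + 2))) * ((n : ℝ) / Real.exp 1) ^ 2
          = (n : ℝ) ^ 2 / (((n : ℝ) + 1) * ((n : ℝ) + 2) * Real.exp 1 ^ 2) by field_simp,
        le_div_iff₀ (by positivity)]
      calc 101 / 100 * (364 / 1000) ^ 2 * (((n : ℝ) + 1) * ((n : ℝ) + 2) * Real.exp 1 ^ 2)
          ≤ 101 / 100 * (364 / 1000) ^ 2 * (((n : ℝ) + 1) * ((n : ℝ) + 2) * 2.7182818286 ^ 2) := by
            gcongr
        _ ≤ _ := by nlinarith
    have hgrow : ((n : ℝ) + 1) ≤ (101 / 100 : ℝ) ^ n := by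
      have h1 := one_add_mul_le_pow (show (-2 : ℝ) ≤ 1 / 100 by norm_num) (n / 2)
      rw [show (1 : ℝ) + 1 / 100 = 101 / 100 by norm_num] at h1
      have h2 : (((n / 2 : ℕ) : ℝ)) ≥ ((n : ℝ) - 1) / 2 := by
        have : n ≤ 2 * (n / 2) + 1 := by omega
        have : (n : ℝ) ≤ 2 * ((n / 2 : ℕ) : ℝ) + 1 := by exact_mod_cast this
        linarith
      calc (n : ℝ) + 1 ≤ (1 + ((n / 2 : ℕ) : ℝ) * (1 / 100)) ^ 2 := by nlinarith
        _ ≤ ((101 / 100 : ℝ) ^ (n / 2)) ^ 2 := pow_le_pow_left₀ (by positivity) h1 2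
        _ = (101 / 100 : ℝ) ^ (n / 2 * 2) := (pow_mul _ _ _).symm
        _ ≤ _ := pow_le_pow_right₀ (by norm_num) (by omega)
    calc ((364 / 1000 : ℝ) ^ 2) ^ n
        = ((101 / 100 : ℝ) * (364 / 1000) ^ 2) ^ n / (101 / 100 : ℝ) ^ n := by
          rw [mul_pow, mul_div_cancel_left₀ _ (by positivity)]
      _ ≤ (α * ((n : ℝ) / Real.exp 1) ^ 2) ^ n / ((n : ℝ) + 1) := by gcongr
      _ = α ^ n * (((n : ℝ) / Real.exp 1) ^ n) ^ 2 / ((n : ℝ) + 1) := by
          rw [mul_pow, ← pow_mul, ← pow_mul, mul_comm 2 n]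
      _ ≤ α ^ n * (n ! : ℝ) ^ 2 / ((n : ℝ) + 1) := by gcongr
      _ = _ := by field_simp
  have hn0 : 2 * n ≠ 0 := by omega
  rw [isoConst]
  calc (364 / 1000 : ℝ) = (((364 / 1000 : ℝ) ^ 2) ^ n) ^ ((1 : ℝ) / (2 * n)) := by
        rw [← pow_mul, one_div, show (2 * (n : ℝ)) = ((2 * n : ℕ) : ℝ) by push_cast; ring,
          Real.pow_rpow_inv_natCast (by norm_num) hn0]
    _ ≤ _ := Real.rpow_le_rpow (by positivity) hbase (by positivity)

end Vale.Agent.P254
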