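import Mathlib

/-!
Volume of the majorized set in one block, by a Chebyshev bound on a finite grid.
-/

noncomputable section

open MeasureTheory ProbabilityTheory
open scoped ENNReal

namespace Vale.Agent.P254

/-- The block threshold above which the probabilistic bound applies. -/
def blockSize : ℕ := 10 ^ 10

/-- The set of block vectors dominated by the profile `b (2 (N + 1) k - k²) / (N + 2)`. -/
def profileSet (N : ℕ) (b : ℝ) : Set (Fin N → ℝ) :=
  {z | ∀ A : Finset (Fin N),
    ∑ l ∈ A, |z l| ≤ b * (2 * ((N : ℝ) + 1) * A.card - (A.card : ℝ) ^ 2) / (N + 2)}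

lemma measurableSet_profileSet (N : ℕ) (b : ℝ) : MeasurableSet (profileSet N b) := by
  have : profileSet N b = ⋂ A : Finset (Fin N), {z | ∑ l ∈ A, |z l|
      ≤ b * (2 * ((N : ℝ) + 1) * A.card - (A.card : ℝ) ^ 2) / (N + 2)} := by
    ext z; simp [profileSet]
  rw [this]
  exact MeasurableSet.iInter fun A => measurableSet_le (by fun_prop) measurable_const

lemma box_subset_profileSet {N : ℕ} {b : ℝ} (hb : 0 ≤ b) :
    (Set.univ.pi fun _ : Fin N => Set.Icc (-b) b) ⊆ profileSet N b := by
  intro z hz A
  have hN : (A.card : ℝ) ≤ N := by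
    exact_mod_cast (Finset.card_le_univ A).trans (le_of_eq (Fintype.card_fin N))
  have h1 : ∑ l ∈ A, |z l| ≤ A.card * b := by
    calc ∑ l ∈ A, |z l| ≤ ∑ _l ∈ A, b :=
          Finset.sum_le_sum fun l _ => abs_le.2 (hz l (Set.mem_univ _))
      _ = A.card * b := by simp
  refine h1.trans ?_
  rw [le_div_iff₀ (by positivity)]
  nlinarith [mul_le_mul_of_nonneg_left hN (mul_nonneg hb (Nat.cast_nonneg A.card))]

lemma volume_box (N : ℕ) {a : ℝ} (ha : 0 ≤ a) :
    (volume (Set.univ.pi fun _ : Fin N => Set.Icc (-a) a)).toReal = (2 * a) ^ N := by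
  rw [volume_pi_pi]
  simp only [Real.volume_Icc, Finset.prod_const, Finset.card_univ, Fintype.card_fin,
    ENNReal.toReal_pow]
  rw [ENNReal.toReal_ofReal (by linarith)]
  ring_nf

/-- The uniform probability measure on the interval of length one centred at zero. -/
def unitMeasure : Measure ℝ := volume.restrict (Set.Icc (-(1 / 2)) (1 / 2))

instance : IsProbabilityMeasure unitMeasure := by
  constructor
  rw [unitMeasure, Measure.restrict_apply_univ, Real.volume_Icc]
  norm_num

/-- The excess of twice the absolute value over `t`. -/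
def excess (t u : ℝ) : ℝ := max (2 * |u| - t) 0

lemma integral_excess {t : ℝ} (ht0 : 0 ≤ t) (ht1 : t ≤ 1) :
    ∫ u, excess t u ∂unitMeasure = (1 - t) ^ 2 / 2 := by
  have hc : Continuous (excess t) := by unfold excess; fun_prop
  rw [unitMeasure, integral_Icc_eq_integral_Ioc,
    ← intervalIntegral.integral_of_le (by norm_num),
    ← intervalIntegral.integral_add_adjacent_intervals (hc.intervalIntegrable (-(1 / 2)) 0)
      (hc.intervalIntegrable 0 (1 / 2))]
  have hneg : ∫ u in (-(1 / 2 : ℝ))..0, excess t u = ∫ u in (0 : ℝ)..(1 / 2), excess t u := by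
    have h := intervalIntegral.integral_comp_neg (a := 0) (b := (1 / 2 : ℝ)) (excess t)
    rw [neg_zero] at h
    rw [← h]
    exact intervalIntegral.integral_congr fun u _ => by simp [excess]
  have hpos : ∫ u in (0 : ℝ)..(1 / 2), excess t u = (1 - t) ^ 2 / 4 := by
    rw [← intervalIntegral.integral_add_adjacent_intervals (hc.intervalIntegrable 0 (t / 2))
      (hc.intervalIntegrable (t / 2) (1 / 2))]
    have h1 : ∫ u in (0 : ℝ)..(t / 2), excess t u = 0 := by
      rw [intervalIntegral.integral_congr (g := fun _ => (0 : ℝ)) fun u hu => ?_]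
      · simp
      · rw [Set.uIcc_of_le (by linarith)] at hu
        simp only [excess, abs_of_nonneg hu.1]
        exact max_eq_right (by linarith [hu.2])
    have h2 : ∫ u in (t / 2)..(1 / 2), excess t u = ∫ u in (t / 2)..(1 / 2), (2 * u - t) := by
      refine intervalIntegral.integral_congr fun u hu => ?_
      rw [Set.uIcc_of_le (by linarith)] at hu
      simp only [excess, abs_of_nonneg (show 0 ≤ u by linarith [hu.1])]
      exact max_eq_left (by linarith [hu.1])
    rw [h1, h2, intervalIntegral.integral_sub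
      ((by fun_prop : Continuous fun u : ℝ => 2 * u).intervalIntegrable _ _) (by simp),
      intervalIntegral.integral_const_mul, integral_id, intervalIntegral.integral_const,
      smul_eq_mul]
    ring
  rw [hneg, hpos]
  ring

lemma ae_abs_le_unit : ∀ᵐ u ∂unitMeasure, |u| ≤ 1 / 2 := by
  unfold unitMeasure
  exact (ae_restrict_mem measurableSet_Icc).mono fun u hu => abs_le.2 hu

/-- With large probability every grid excess is near its mean. -/
lemma grid_prob {N : ℕ} (hN : blockSize ≤ N) :
    (1 / 2 : ℝ) ≤ (Measure.pi fun _ : Fin N => unitMeasure).real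
      {u | ∀ j ∈ Finset.range 101, ∑ i, excess ((j : ℝ) / 100) (u i)
        ≤ N * ((1 - (j : ℝ) / 100) ^ 2 / 2 + 1 / 10000)} := by
  set μ := Measure.pi fun _ : Fin N => unitMeasure with hμ
  set bad : ℕ → Set (Fin N → ℝ) := fun j =>
    {u | (N : ℝ) * ((1 - (j : ℝ) / 100) ^ 2 / 2 + 1 / 10000)
      < ∑ i, excess ((j : ℝ) / 100) (u i)} with hbad
  have hNR : (10 : ℝ) ^ 10 ≤ N := by
    have : ((blockSize : ℕ) : ℝ) ≤ N := by exact_mod_cast hN
    rw [blockSize] at this
    exact_mod_cast this
  have hNpos : (0 : ℝ) < N := lt_of_lt_of_le (by norm_num) hNR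
  have hj : ∀ j ∈ Finset.range 101, μ.real (bad j) ≤ 1 / 400 := by
    intro j hj
    set t : ℝ := (j : ℝ) / 100 with ht
    have ht0 : 0 ≤ t := by positivity
    have ht1 : t ≤ 1 := by
      rw [ht, div_le_one (by norm_num)]
      exact_mod_cast Nat.lt_succ_iff.1 (Finset.mem_range.1 hj)
    set X : Fin N → (Fin N → ℝ) → ℝ := fun i u => excess t (u i) with hX
    have hexm : Measurable (excess t) := by unfold excess; fun_prop
    have hXm : ∀ i, Measurable (X i) := fun i => hexm.comp (measurable_pi_apply i)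
    have hXb : ∀ i, ∀ᵐ u ∂μ, X i u ∈ Set.Icc (0 : ℝ) 1 := by
      intro i
      filter_upwards [(Measure.quasiMeasurePreserving_eval _ i).ae ae_abs_le_unit] with u hu
      refine ⟨le_max_right _ _, max_le ?_ zero_le_one⟩
      linarith
    have hmem : ∀ i, MemLp (X i) 2 μ := fun i =>
      MemLp.of_bound (hXm i).aestronglyMeasurable 1 ((hXb i).mono fun u hu => by
        rw [Real.norm_eq_abs, abs_of_nonneg hu.1]; exact hu.2)
    have hind : iIndepFun X μ := iIndepFun_pi fun _ => hexm.aemeasurable
    have hmean : ∫ u, (∑ i, X i) u ∂μ = N * ((1 - t) ^ 2 / 2) := by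
      simp only [Finset.sum_apply]
      rw [integral_finsetSum _ fun i _ => (hmem i).integrable (by norm_num)]
      have : ∀ i, ∫ u, X i u ∂μ = (1 - t) ^ 2 / 2 := fun i =>
        (integral_comp_eval (μ := fun _ : Fin N => unitMeasure) hexm.aestronglyMeasurable).trans
          (integral_excess ht0 ht1)
      simp [this]
    have hvar : variance (∑ i, X i) μ ≤ N * (1 / 4) := by
      rw [IndepFun.variance_sum (fun i _ => hmem i) fun a _ b _ hab => hind.indepFun hab]
      calc ∑ i, variance (X i) μ ≤ ∑ _i : Fin N, ((1 - 0) / 2 : ℝ) ^ 2 :=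
            Finset.sum_le_sum fun i _ => variance_le_sq_of_bounded (hXb i) (hXm i).aemeasurable
        _ = N * (1 / 4) := by
            rw [Finset.sum_const, Finset.card_univ, Fintype.card_fin, nsmul_eq_mul]; ring
    have hc : (0 : ℝ) < N * (1 / 10000) := by positivity
    have hch := meas_ge_le_variance_div_sq (memLp_finsetSum' _ fun i _ => hmem i) hc
      (X := ∑ i : Fin N, X i) (μ := μ)
    rw [hmean] at hch
    have hsub : bad j ⊆ {u | (N : ℝ) * (1 / 10000)
        ≤ |(∑ i, X i) u - N * ((1 - t) ^ 2 / 2)|} := by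
      intro u hu
      simp only [hbad, Set.mem_ofPred_eq] at hu ⊢
      rw [← ht] at hu
      refine le_trans ?_ (le_abs_self _)
      simp only [Finset.sum_apply, hX]
      linarith
    have h := ENNReal.toReal_mono ENNReal.ofReal_ne_top ((measure_mono hsub).trans hch)
    rw [ENNReal.toReal_ofReal (div_nonneg (variance_nonneg _ _) (sq_nonneg _))] at h
    refine le_trans h ?_
    rw [div_le_iff₀ (by positivity)]
    nlinarith
  set good : Set (Fin N → ℝ) := {u | ∀ j ∈ Finset.range 101, ∑ i, excess ((j : ℝ) / 100) (u i)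
    ≤ N * ((1 - (j : ℝ) / 100) ^ 2 / 2 + 1 / 10000)} with hgood
  have hcompl : goodᶜ = ⋃ j ∈ Finset.range 101, bad j := by
    ext u; simp [hgood, hbad]
  have hm : MeasurableSet good := by
    have : good = ⋂ j ∈ Finset.range 101, {u | ∑ i, excess ((j : ℝ) / 100) (u i)
        ≤ N * ((1 - (j : ℝ) / 100) ^ 2 / 2 + 1 / 10000)} := by ext u; simp [hgood]
    rw [this]
    refine (Finset.range 101).measurableSet_biInter fun j _ => measurableSet_le ?_ measurable_const
    unfold excess
    fun_prop
  have h1 : μ.real goodᶜ ≤ 1 / 2 := by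
    rw [hcompl]
    refine (measureReal_biUnion_finset_le _ _).trans ((Finset.sum_le_sum hj).trans ?_)
    simp
    norm_num
  have h2 := measureReal_compl (μ := μ) hm
  rw [h2, probReal_univ] at h1
  linarith

/-- A large block profile contains a set of volume close to that of a cube of side `4 b`. -/
lemma profileSet_volume_large {N : ℕ} {b : ℝ} (hb : 0 < b) (hN : blockSize ≤ N) :
    (4 * b * (49 / 50)) ^ N / 2 ≤ (volume (profileSet N b)).toReal := by
  set c : ℝ := 2 * b * (49 / 50) with hc
  have hc0 : 0 < c := by positivity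
  have hNR : (10 : ℝ) ^ 10 ≤ N := by
    have : ((blockSize : ℕ) : ℝ) ≤ N := by exact_mod_cast hN
    rw [blockSize] at this
    exact_mod_cast this
  have hNpos : (0 : ℝ) < N := lt_of_lt_of_le (by norm_num) hNR
  set good : Set (Fin N → ℝ) := {u | ∀ j ∈ Finset.range 101, ∑ i, excess ((j : ℝ) / 100) (u i)
    ≤ N * ((1 - (j : ℝ) / 100) ^ 2 / 2 + 1 / 10000)} with hgood
  set box : Set (Fin N → ℝ) := Set.univ.pi fun _ => Set.Icc (-(1 / 2)) (1 / 2) with hbox
  have hsub : ((2 * c)⁻¹ • ·) ⁻¹' (good ∩ box) ⊆ profileSet N b := by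
    intro z hz A
    obtain ⟨hg, hbx⟩ := hz
    set u : Fin N → ℝ := (2 * c)⁻¹ • z with hu
    have hzu : ∀ l, |z l| = c * (2 * |u l|) := by
      intro l
      simp only [hu, Pi.smul_apply, smul_eq_mul, abs_mul, abs_of_pos (inv_pos.2 (by positivity :
        (0 : ℝ) < 2 * c))]
      field_simp
    have hu1 : ∀ l, |u l| ≤ 1 / 2 := fun l => abs_le.2 (hbx l (Set.mem_univ _))
    rw [Finset.sum_congr rfl fun l _ => hzu l, ← Finset.mul_sum]
    set k : ℝ := (A.card : ℝ) with hk
    have hk0 : 0 ≤ k := Nat.cast_nonneg _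
    have hkN : k ≤ N := by
      rw [hk]
      exact_mod_cast (Finset.card_le_univ A).trans (le_of_eq (Fintype.card_fin N))
    rw [le_div_iff₀ (by positivity), hc]
    rcases le_or_gt k (N / 50) with hsmall | hlarge
    · have h1 : ∑ l ∈ A, 2 * |u l| ≤ k := by
        calc ∑ l ∈ A, 2 * |u l| ≤ ∑ _l ∈ A, (1 : ℝ) :=
              Finset.sum_le_sum fun l _ => by linarith [hu1 l]
          _ = k := by simp [hk]
      calc 2 * b * (49 / 50) * (∑ l ∈ A, 2 * |u l|) * ((N : ℝ) + 2)
          ≤ 2 * b * (49 / 50) * k * ((N : ℝ) + 2) := by gcongr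
        _ = b * k * (49 / 25 * ((N : ℝ) + 2)) := by ring
        _ ≤ b * k * (2 * ((N : ℝ) + 1) - k) := by
            refine mul_le_mul_of_nonneg_left ?_ (mul_nonneg hb.le hk0)
            linarith
        _ = _ := by ring
    · set θ : ℝ := k / N with hθ
      have hθ1 : θ ≤ 1 := (div_le_one hNpos).2 hkN
      have hθ0 : 1 / 50 < θ := by rw [hθ, lt_div_iff₀ hNpos]; linarith
      set j : ℕ := ⌊(1 - θ) * 100⌋₊ with hj
      have hj1 : (j : ℝ) ≤ (1 - θ) * 100 :=
        Nat.floor_le (mul_nonneg (sub_nonneg.2 hθ1) (by norm_num))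
      have hj2 : (1 - θ) * 100 < j + 1 := Nat.lt_floor_add_one _
      have hj3 : j ∈ Finset.range 101 := by
        rw [Finset.mem_range]
        have : (j : ℝ) < 101 := by linarith
        exact_mod_cast this
      set t : ℝ := (j : ℝ) / 100 with ht
      set d : ℝ := 1 - θ - t with hd
      have hd0 : 0 ≤ d := by rw [hd, ht]; linarith
      have hd1 : d ≤ 1 / 100 := by rw [hd, ht]; linarith
      have h1 : ∑ l ∈ A, 2 * |u l| ≤ k * t + ∑ i, excess t (u i) := by
        calc ∑ l ∈ A, 2 * |u l| ≤ ∑ l ∈ A, (t + excess t (u l)) :=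
              Finset.sum_le_sum fun l _ => by
                have := le_max_left (2 * |u l| - t) 0
                simp only [excess]; linarith
          _ = k * t + ∑ l ∈ A, excess t (u l) := by simp [Finset.sum_add_distrib, hk]
          _ ≤ _ := add_le_add le_rfl (Finset.sum_le_sum_of_subset_of_nonneg (Finset.subset_univ _)
              fun i _ _ => le_max_right _ _)
      have h2 := hg j hj3
      rw [← ht] at h2
      have hkθ : k = θ * N := by rw [hθ]; field_simp
      have htd : t = 1 - θ - d := by rw [hd]; ring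
      have h3 : ∑ l ∈ A, 2 * |u l| ≤ N * (θ - θ ^ 2 / 2 + 15 / 100000) := by
        calc ∑ l ∈ A, 2 * |u l| ≤ k * t + N * ((1 - t) ^ 2 / 2 + 1 / 10000) := by linarith
          _ = N * (θ - θ ^ 2 / 2 + (d ^ 2 / 2 + 1 / 10000)) := by rw [hkθ, htd]; ring
          _ ≤ _ := by
              refine mul_le_mul_of_nonneg_left ?_ hNpos.le
              nlinarith
      have hkey : 49 / 50 * ((θ - θ ^ 2 / 2 + 15 / 100000) * ((N : ℝ) + 2))
          ≤ ((N : ℝ) + 1) * θ - N * θ ^ 2 / 2 := by
        have hf : θ / 2 ≤ θ - θ ^ 2 / 2 := by nlinarith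
        nlinarith [mul_le_mul_of_nonneg_left (show (1 / 100 : ℝ) ≤ θ - θ ^ 2 / 2 by linarith)
          hNpos.le]
      calc 2 * b * (49 / 50) * (∑ l ∈ A, 2 * |u l|) * ((N : ℝ) + 2)
          ≤ 2 * b * (49 / 50) * (N * (θ - θ ^ 2 / 2 + 15 / 100000)) * ((N : ℝ) + 2) := by gcongr
        _ = 2 * b * N * (49 / 50 * ((θ - θ ^ 2 / 2 + 15 / 100000) * ((N : ℝ) + 2))) := by ring
        _ ≤ 2 * b * N * (((N : ℝ) + 1) * θ - N * θ ^ 2 / 2) := by gcongr
        _ = _ := by rw [hkθ]; ring
  have hpi : (Measure.pi fun _ : Fin N => unitMeasure)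
      = (volume : Measure (Fin N → ℝ)).restrict box := by
    unfold unitMeasure
    rw [hbox, volume_pi, Measure.restrict_pi_pi]
  have hprob := grid_prob hN
  rw [← hgood, hpi, measureReal_def, Measure.restrict_apply'
    (MeasurableSet.univ_pi fun _ => measurableSet_Icc)] at hprob
  have hscale := Measure.addHaar_preimage_smul (volume : Measure (Fin N → ℝ))
    (inv_ne_zero (by positivity : (2 * c : ℝ) ≠ 0)) (good ∩ box)
  have hfin : volume (profileSet N b) ≠ ⊤ := by
    refine ne_top_of_le_ne_top ?_ (measure_mono (show profileSet N b ⊆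
      Set.univ.pi fun _ => Set.Icc (-(2 * b)) (2 * b) from ?_))
    · exact (isCompact_univ_pi fun _ => isCompact_Icc).measure_lt_top.ne
    · intro z hz l _
      have h := hz {l}
      simp only [Finset.sum_singleton, Finset.card_singleton, Nat.cast_one] at h
      refine abs_le.1 (h.trans ?_)
      rw [div_le_iff₀ (by positivity)]
      nlinarith
  have h := ENNReal.toReal_mono hfin (measure_mono hsub)
  rw [hscale, ENNReal.toReal_mul, ENNReal.toReal_ofReal (abs_nonneg _),
    Module.finrank_fin_fun, inv_pow, inv_inv, abs_of_pos (by positivity)] at h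
  refine le_trans ?_ h
  rw [show 4 * b * (49 / 50) = 2 * c by rw [hc]; ring]
  nlinarith [mul_le_mul_of_nonneg_left hprob (pow_nonneg (by positivity : (0 : ℝ) ≤ 2 * c) N)]

lemma profileSet_volume_small {N : ℕ} {b : ℝ} (hb : 0 < b) :
    (2 * b) ^ N ≤ (volume (profileSet N b)).toReal := by
  rw [← volume_box N hb.le]
  refine ENNReal.toReal_mono ?_ (measure_mono (box_subset_profileSet hb.le))
  refine ne_top_of_le_ne_top ?_ (measure_mono (show profileSet N b ⊆
    Set.univ.pi fun _ => Set.Icc (-(2 * b)) (2 * b) from ?_))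
  · exact (isCompact_univ_pi fun _ => isCompact_Icc).measure_lt_top.ne
  · intro z hz l _
    have h := hz {l}
    simp only [Finset.sum_singleton, Finset.card_singleton, Nat.cast_one] at h
    refine abs_le.1 (h.trans ?_)
    rw [div_le_iff₀ (by positivity)]
    nlinarith

end Vale.Agent.P254
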