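import Mathlib
import Vale.Agent.P254.Body
import Vale.Agent.P254.MidpointPL

/-!
Sign symmetry of moments and the moment comparison coming from log-concave tails.
-/

noncomputable section

open MeasureTheory Set
open scoped ENNReal

namespace Vale.Agent.P254

variable {n : ℕ}

/-- Changing the sign of one coordinate. -/
def flip (i : Fin n) (x : Fin n → ℝ) : Fin n → ℝ := fun j => if j = i then -x j else x j

lemma measurePreserving_flip (i : Fin n) : MeasurePreserving (flip i) volume volume := by
  refine volume_preserving_pi (f := fun j (a : ℝ) => if j = i then -a else a) fun j => ?_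
  by_cases h : j = i
  · simp only [h, if_true]
    exact Measure.measurePreserving_neg volume
  · simp only [h, if_false]
    exact MeasurePreserving.id volume

lemma flip_mem_iff {K : Set (Fin n → ℝ)}
    (hsign : ∀ x ∈ K, ∀ y, (∀ i, y i = x i ∨ y i = -x i) → y ∈ K) (i : Fin n) (x : Fin n → ℝ) :
    flip i x ∈ K ↔ x ∈ K := by
  constructor <;> intro h <;> refine hsign _ h _ fun j => ?_ <;>
    by_cases hj : j = i <;> simp [flip, hj]

lemma measurableEmbedding_flip (i : Fin n) : MeasurableEmbedding (flip i : (Fin n → ℝ) → _) := by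
  have hinv : Function.Involutive (flip i : (Fin n → ℝ) → _) := fun x => by
    funext j; by_cases hj : j = i <;> simp [flip, hj]
  exact (MeasurableEquiv.ofInvolutive _ hinv (measurePreserving_flip i).measurable).measurableEmbedding

lemma setIntegral_flip {K : Set (Fin n → ℝ)}
    (hsign : ∀ x ∈ K, ∀ y, (∀ i, y i = x i ∨ y i = -x i) → y ∈ K) (i : Fin n)
    (f : (Fin n → ℝ) → ℝ) : ∫ x in K, f (flip i x) = ∫ x in K, f x := by
  have h := (measurePreserving_flip i).setIntegral_preimage_emb (measurableEmbedding_flip i) f K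
  rwa [show flip i ⁻¹' K = K from Set.ext fun x => flip_mem_iff hsign i x] at h

lemma setIntegral_eq_zero_of_odd {K : Set (Fin n → ℝ)}
    (hsign : ∀ x ∈ K, ∀ y, (∀ i, y i = x i ∨ y i = -x i) → y ∈ K) (i : Fin n)
    {f : (Fin n → ℝ) → ℝ} (hf : ∀ x, f (flip i x) = -f x) : ∫ x in K, f x = 0 := by
  have h := setIntegral_flip hsign i f
  simp only [hf, integral_neg] at h
  linarith

/-- Monotone midpoint log-concave functions are new-better-than-used. -/
lemma nbu_of_midpoint {T : ℝ → ℝ} (h0 : ∀ s, 0 ≤ T s) (hanti : Antitone T)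
    (hmid : ∀ a b, T a * T b ≤ T ((a + b) / 2) ^ 2) {s t : ℝ} (hs : 0 ≤ s) (ht : 0 ≤ t) :
    T (s + t) * T 0 ≤ T s * T t := by
  set b := s + t with hb
  rcases eq_or_lt_of_le (h0 b) with hb0 | hb0
  · rw [← hb0, zero_mul]; exact mul_nonneg (h0 s) (h0 t)
  rcases eq_or_lt_of_le (add_nonneg hs ht) with hst | hst
  · have : s = 0 ∧ t = 0 := ⟨by linarith, by linarith⟩
    simp [hb, this.1, this.2]
  have hpos : ∀ u, u ≤ b → 0 < T u := fun u hu => lt_of_lt_of_le hb0 (hanti hu)
  have hdy : ∀ m : ℕ, ∀ j : ℕ, j ≤ 2 ^ m →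
      T 0 ^ (2 ^ m - j) * T b ^ j ≤ T (b * ((j : ℝ) / 2 ^ m)) ^ (2 ^ m) := by
    intro m
    induction m with
    | zero =>
      intro j hj
      simp only [pow_zero] at hj
      rcases Nat.le_one_iff_eq_zero_or_eq_one.1 hj with rfl | rfl <;> simp
    | succ m ih =>
      intro j hj
      have h2 : 2 ^ (m + 1) = 2 * 2 ^ m := by ring
      obtain ⟨i, rfl | rfl⟩ : ∃ i, j = 2 * i ∨ j = 2 * i + 1 := ⟨j / 2, by omega⟩
      · have := pow_le_pow_left₀ (mul_nonneg (pow_nonneg (h0 0) _) (pow_nonneg (h0 b) _))
          (ih i (by omega)) 2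
        rw [mul_pow, ← pow_mul, ← pow_mul, ← pow_mul, Nat.sub_mul, mul_comm (2 ^ m) 2,
          mul_comm i 2, ← h2] at this
        have earg : ((2 * i : ℕ) : ℝ) / 2 ^ (m + 1) = (i : ℝ) / 2 ^ m := by
          push_cast; rw [pow_succ]; field_simp
        rw [earg]
        exact this
      · have hm := pow_le_pow_left₀ (mul_nonneg (h0 _) (h0 _))
          (hmid (b * ((i : ℝ) / 2 ^ m)) (b * (((i + 1 : ℕ) : ℝ) / 2 ^ m))) (2 ^ m)
        have hp := mul_le_mul (ih i (by omega)) (ih (i + 1) (by omega))
          (mul_nonneg (pow_nonneg (h0 0) _) (pow_nonneg (h0 b) _)) (pow_nonneg (h0 _) _)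
        rw [← mul_pow] at hp
        have := hp.trans hm
        rw [← pow_mul] at this
        refine le_trans (le_of_eq ?_) (le_trans this (le_of_eq ?_))
        · rw [show (2 ^ (m + 1) - (2 * i + 1)) = (2 ^ m - i) + (2 ^ m - (i + 1)) by omega,
            show 2 * i + 1 = i + (i + 1) by ring, pow_add, pow_add]
          ring
        · rw [← h2]
          congr 2
          push_cast
          rw [pow_succ]
          field_simp
          ring
  have hL : ∀ u, 0 ≤ u → u ≤ b →
      Real.log (T 0) + u / b * (Real.log (T b) - Real.log (T 0)) ≤ Real.log (T u) := by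
    intro u hu0 hub
    set d := Real.log (T b) - Real.log (T 0) with hd
    have hd0 : d ≤ 0 := sub_nonpos.2 (Real.log_le_log hb0 (hanti hst.le))
    have key : ∀ m : ℕ, Real.log (T 0) + (u / b + (1 / 2 : ℝ) ^ m) * d ≤ Real.log (T u) := by
      intro m
      set j := ⌈u / b * (2 : ℝ) ^ m⌉₊ with hj
      have hjle : j ≤ 2 ^ m := by
        rw [hj, Nat.ceil_le]; push_cast
        exact mul_le_of_le_one_left (by positivity) ((div_le_one hst).2 hub)
      have hju : u ≤ b * ((j : ℝ) / 2 ^ m) := by
        have := Nat.le_ceil (u / b * (2 : ℝ) ^ m)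
        rw [← hj, div_mul_eq_mul_div, div_le_iff₀ hst] at this
        rw [← mul_div_assoc, le_div_iff₀ (by positivity)]
        linarith
      have hj1 : (j : ℝ) / 2 ^ m ≤ u / b + (1 / 2 : ℝ) ^ m := by
        rw [div_le_iff₀ (by positivity), add_mul, ← mul_pow,
          show (1 / 2 : ℝ) * 2 = 1 by norm_num, one_pow]
        exact (Nat.ceil_lt_add_one (by positivity)).le
      have h := (hdy m j hjle).trans (pow_le_pow_left₀ (h0 _) (hanti hju) _)
      have hl := Real.log_le_log (mul_pos (pow_pos (hpos 0 hst.le) _) (pow_pos hb0 _)) h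
      rw [Real.log_mul (pow_pos (hpos 0 hst.le) _).ne' (pow_pos hb0 _).ne', Real.log_pow,
        Real.log_pow, Real.log_pow, Nat.cast_sub hjle] at hl
      push_cast at hl
      have hjd : ((j : ℝ) / 2 ^ m) * (2 : ℝ) ^ m = j := by field_simp
      have hle : Real.log (T 0) + ((j : ℝ) / 2 ^ m) * d ≤ Real.log (T u) := by
        refine le_of_mul_le_mul_right ?_ (show (0 : ℝ) < 2 ^ m by positivity)
        rw [add_mul, mul_right_comm, hjd, hd]
        linarith
      linarith [mul_le_mul_of_nonpos_right hj1 hd0]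
    have hlim : Filter.Tendsto (fun m : ℕ => Real.log (T 0) + (u / b + (1 / 2 : ℝ) ^ m) * d)
        Filter.atTop (nhds (Real.log (T 0) + u / b * d)) := by
      have h1 := (((tendsto_pow_atTop_nhds_zero_of_lt_one (r := (1 / 2 : ℝ)) (by norm_num)
        (by norm_num)).const_add (u / b)).mul_const d).const_add (Real.log (T 0))
      simpa using h1
    exact le_of_tendsto hlim (Filter.Eventually.of_forall key)
  have h1 := hL s hs (by linarith)
  have h2 := hL t ht (by linarith)
  have h3 : s / b + t / b = 1 := by rw [← add_div, ← hb, div_self hst.ne']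
  refine (Real.log_le_log_iff (mul_pos hb0 (hpos 0 hst.le))
    (mul_pos (hpos s (by linarith)) (hpos t (by linarith)))).1 ?_
  rw [Real.log_mul hb0.ne' (hpos 0 hst.le).ne',
    Real.log_mul (hpos s (by linarith)).ne' (hpos t (by linarith)).ne']
  linear_combination h1 + h2 + (Real.log (T 0) - Real.log (T b)) * h3

lemma lintegral_Ioi_pos_part (u : ℝ) :
    ∫⁻ s in Set.Ioi (0 : ℝ), ENNReal.ofReal (max (u - s) 0)
      = ENNReal.ofReal (max u 0 ^ 2 / 2) := by
  set w := max u 0 with hw
  have hw0 : 0 ≤ w := le_max_right _ _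
  have hsplit : ∫⁻ s in Set.Ioi (0 : ℝ), ENNReal.ofReal (max (u - s) 0)
      = ∫⁻ s in Set.Ioc (0 : ℝ) w, ENNReal.ofReal (w - s) := by
    rw [← lintegral_indicator measurableSet_Ioi, ← lintegral_indicator measurableSet_Ioc]
    refine lintegral_congr fun s => ?_
    by_cases hs : 0 < s
    · by_cases hsw : s ≤ w
      · have hu : s ≤ u := by rcases le_max_iff.1 hsw with h | h <;> linarith
        rw [indicator_of_mem (mem_Ioi.2 hs), indicator_of_mem (mem_Ioc.2 ⟨hs, hsw⟩),
          max_eq_left (by linarith), hw, max_eq_left (by linarith)]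
      · rw [indicator_of_mem (mem_Ioi.2 hs), indicator_of_notMem (fun h => hsw (mem_Ioc.1 h).2),
          max_eq_right (by linarith [le_max_left u 0, not_le.1 hsw]), ENNReal.ofReal_zero]
    · rw [indicator_of_notMem (fun h => hs (mem_Ioi.1 h)),
        indicator_of_notMem (fun h => hs (mem_Ioc.1 h).1)]
  rw [hsplit, ← ofReal_integral_eq_lintegral_ofReal
    (f := fun s : ℝ => w - s) ((by fun_prop : Continuous fun s : ℝ => w - s).integrableOn_Ioc)
    ((ae_restrict_mem measurableSet_Ioc).mono fun s hs => sub_nonneg.2 hs.2),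
    ← intervalIntegral.integral_of_le hw0]
  congr 1
  rw [intervalIntegral.integral_sub (by simp) (by simp), intervalIntegral.integral_const,
    integral_id, smul_eq_mul]
  ring

/-- The tail of the `i`-th coordinate. -/
def tail (K : Set (Fin n → ℝ)) (i : Fin n) (s : ℝ) : ℝ≥0∞ := volume (K ∩ {x | s ≤ x i})

lemma measurableSet_halfspace (i : Fin n) (s : ℝ) :
    MeasurableSet {x : Fin n → ℝ | s ≤ x i} :=
  measurableSet_le measurable_const (measurable_pi_apply i)

lemma tail_midpoint {K : Set (Fin n → ℝ)} (hK : IsCompact K) (hconv : Convex ℝ K) (i : Fin n)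
    (a b : ℝ) : tail K i a * tail K i b ≤ tail K i ((a + b) / 2) ^ 2 := by
  obtain ⟨R, hR0, hR⟩ := exists_coord_bound hK
  have hm : ∀ s, MeasurableSet (K ∩ {x | s ≤ x i}) := fun s =>
    hK.measurableSet.inter (measurableSet_halfspace i s)
  have e : ∀ s, ∫⁻ x, (K ∩ {x | s ≤ x i}).indicator (fun _ => (1 : ℝ≥0∞)) x = tail K i s := by
    intro s; rw [lintegral_indicator_const (hm s), one_mul]; rfl
  rw [← e a, ← e b, ← e ((a + b) / 2)]
  have hle : ∀ s x, (K ∩ {x | s ≤ x i}).indicator (fun _ => (1 : ℝ≥0∞)) x ≤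
      (univ.pi fun _ => Set.Icc (-R) R).indicator (fun _ => (1 : ℝ≥0∞)) x := fun s x =>
    indicator_le_indicator_of_subset
      (fun y (hy : y ∈ K ∩ {z | s ≤ z i}) => mem_univ_pi.2 fun j =>
        mem_Icc.2 (abs_le.1 (hR y hy.1 j)))
      (fun _ => zero_le) x
  refine pi_mul_le_sq R ENNReal.one_ne_top (measurable_const.indicator (hm a))
    (measurable_const.indicator (hm b)) (measurable_const.indicator (hm _)) (hle a) (hle b)
    (hle _) fun x y => ?_
  by_cases hx : x ∈ K ∩ {x | a ≤ x i}
  · by_cases hy : y ∈ K ∩ {x | b ≤ x i}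
    · rw [indicator_of_mem hx, indicator_of_mem hy, indicator_of_mem]
      · simp
      · refine ⟨?_, ?_⟩
        · have h := hconv hx.1 hy.1 (show (0 : ℝ) ≤ 1 / 2 by norm_num)
            (show (0 : ℝ) ≤ 1 / 2 by norm_num) (by norm_num)
          convert h using 1
          funext j; simp; ring
        · show (a + b) / 2 ≤ (x i + y i) / 2
          linarith [show a ≤ x i from hx.2, show b ≤ y i from hy.2]
    · simp [indicator_of_notMem hy]
  · simp [indicator_of_notMem hx]

lemma tail_nbu {K : Set (Fin n → ℝ)} (hK : IsCompact K) (hconv : Convex ℝ K) (i : Fin n)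
    {s t : ℝ} (hs : 0 ≤ s) (ht : 0 ≤ t) :
    tail K i (s + t) * tail K i 0 ≤ tail K i s * tail K i t := by
  have hfin : ∀ u, tail K i u ≠ ⊤ := fun u =>
    ne_top_of_le_ne_top hK.measure_lt_top.ne (measure_mono inter_subset_left)
  have h := nbu_of_midpoint (T := fun u => (tail K i u).toReal) (fun _ => ENNReal.toReal_nonneg)
    (fun a b hab => ENNReal.toReal_mono (hfin _)
      (measure_mono (inter_subset_inter_right _ fun x hx => le_trans hab hx)))
    (fun a b => by
      rw [← ENNReal.toReal_mul, ← ENNReal.toReal_pow]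
      exact ENNReal.toReal_mono (ENNReal.pow_ne_top (hfin _)) (tail_midpoint hK hconv i a b))
    hs ht
  rw [← ENNReal.toReal_mul, ← ENNReal.toReal_mul] at h
  exact (ENNReal.toReal_le_toReal (ENNReal.mul_ne_top (hfin _) (hfin _))
    (ENNReal.mul_ne_top (hfin _) (hfin _))).1 h

lemma pos_part_layer (K : Set (Fin n → ℝ)) (i : Fin n) (s : ℝ) :
    ∫⁻ x in K, ENNReal.ofReal (max (x i - s) 0)
      = ∫⁻ t in Set.Ioi (0 : ℝ), tail K i (s + t) := by
  have hm : Measurable fun x : Fin n → ℝ => max (x i - s) 0 := by fun_prop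
  rw [lintegral_eq_lintegral_meas_le (f := fun x : Fin n → ℝ => max (x i - s) 0) _
    (Filter.Eventually.of_forall fun x => le_max_right _ _)
    hm.aemeasurable]
  refine setLIntegral_congr_fun measurableSet_Ioi fun t ht => ?_
  rw [Measure.restrict_apply (measurableSet_le measurable_const hm), inter_comm, tail]
  congr 1
  ext x
  simp only [mem_inter_iff, mem_ofPred_eq, le_max_iff]
  refine and_congr_right fun _ => ⟨fun h => ?_, fun h => Or.inl (by linarith)⟩
  rcases h with h | h
  · linarith
  · linarith [mem_Ioi.1 ht]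

/-- The moment comparison for a coordinate of an unconditional convex body. -/
lemma sq_moment_le {K : Set (Fin n → ℝ)} (hK : IsCompact K) (hconv : Convex ℝ K)
    (hsign : ∀ x ∈ K, ∀ y, (∀ i, y i = x i ∨ y i = -x i) → y ∈ K) (i : Fin n) :
    (volume K).toReal * ∫ x in K, x i ^ 2 ≤ 2 * (∫ x in K, |x i|) ^ 2 := by
  obtain ⟨R, hR0, hR⟩ := exists_coord_bound hK
  have hmi : Measurable fun x : Fin n → ℝ => x i := measurable_pi_apply i
  set A := ∫⁻ x in K, ENNReal.ofReal (max (x i) 0) with hA
  set B := ∫⁻ x in K, ENNReal.ofReal (max (x i) 0 ^ 2 / 2) with hB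
  have hanti : Antitone fun s => tail K i s := fun a b hab =>
    measure_mono (inter_subset_inter_right _ fun x hx => le_trans hab hx)
  have hA' : A = ∫⁻ s in Set.Ioi (0 : ℝ), tail K i s := by
    simpa [hA] using pos_part_layer K i 0
  have hswap : B = ∫⁻ s in Set.Ioi (0 : ℝ), ∫⁻ t in Set.Ioi (0 : ℝ), tail K i (s + t) := by
    rw [hB, lintegral_congr fun x : Fin n → ℝ => (lintegral_Ioi_pos_part (x i)).symm,
      lintegral_lintegral_swap]
    · exact lintegral_congr fun s => pos_part_layer K i s
    · exact (((hmi.comp measurable_fst).sub measurable_snd).max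
        measurable_const).ennreal_ofReal.aemeasurable
  have hBA : B * tail K i 0 ≤ A * A := by
    have h2 : Antitone fun s => ∫⁻ t in Set.Ioi (0 : ℝ), tail K i (s + t) := fun a b hab =>
      lintegral_mono fun t => hanti (by linarith)
    rw [hswap, hA', ← lintegral_mul_const'' _ h2.measurable.aemeasurable,
      ← lintegral_mul_const'' _ hanti.measurable.aemeasurable]
    refine setLIntegral_mono' measurableSet_Ioi fun s hs => ?_
    rw [← lintegral_const_mul'' _ hanti.measurable.aemeasurable,
      ← lintegral_mul_const'' _ (Antitone.measurable fun a b hab => hanti (by linarith)).aemeasurable]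
    exact setLIntegral_mono' measurableSet_Ioi fun t ht =>
      tail_nbu hK hconv i (le_of_lt hs) (le_of_lt ht)
  have iP : IntegrableOn (fun x : Fin n → ℝ => max (x i) 0) K volume :=
    integrableOn_of_bound hK (hmi.max measurable_const) (M := R) fun x hx => by
      rw [abs_of_nonneg (le_max_right _ _)]
      exact max_le ((le_abs_self _).trans (hR x hx i)) hR0
  have iQ : IntegrableOn (fun x : Fin n → ℝ => max (x i) 0 ^ 2 / 2) K volume :=
    integrableOn_of_bound hK (((hmi.max measurable_const).pow_const 2).div_const 2)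
      (M := R ^ 2) fun x hx => by
      rw [abs_of_nonneg (by positivity)]
      have : max (x i) 0 ≤ R := max_le ((le_abs_self _).trans (hR x hx i)) hR0
      nlinarith [le_max_right (x i) 0]
  have eA : A.toReal = ∫ x in K, max (x i) 0 := by
    rw [integral_eq_lintegral_of_nonneg_ae (f := fun x : Fin n → ℝ => max (x i) 0)
      (Filter.Eventually.of_forall fun x => le_max_right _ _) iP.aestronglyMeasurable, hA]
  have eB : B.toReal = ∫ x in K, max (x i) 0 ^ 2 / 2 := by
    rw [integral_eq_lintegral_of_nonneg_ae (Filter.Eventually.of_forall fun x => by positivity)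
      iQ.aestronglyMeasurable]
  have hAfin : A ≠ ⊤ := iP.lintegral_lt_top.ne
  have hreal := ENNReal.toReal_mono (ENNReal.mul_ne_top hAfin hAfin) hBA
  rw [ENNReal.toReal_mul, ENNReal.toReal_mul, eA, eB] at hreal
  have habs : ∫ x in K, |x i| = 2 * ∫ x in K, max (x i) 0 := by
    have h1 : ∫ x in K, |x i|
        = (∫ x in K, max (x i) 0) + ∫ x in K, max (flip i x i) 0 := by
      rw [← integral_add iP]
      · refine setIntegral_congr_fun hK.measurableSet fun x _ => ?_
        rcases le_total 0 (x i) with h | h <;> simp [flip, h, abs_of_nonneg, abs_of_nonpos]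
      · refine integrableOn_of_bound hK ?_ (M := R) fun x hx => ?_
        · simp [flip]; fun_prop
        · rw [abs_of_nonneg (le_max_right _ _)]
          simp only [flip, if_true]
          exact max_le ((neg_le_abs _).trans (hR x hx i)) hR0
    rw [h1, setIntegral_flip hsign i fun x => max (x i) 0]
    ring
  have hsq : ∫ x in K, x i ^ 2 = 4 * ∫ x in K, max (x i) 0 ^ 2 / 2 := by
    have h1 : ∫ x in K, x i ^ 2
        = 2 * (∫ x in K, max (x i) 0 ^ 2 / 2) + 2 * ∫ x in K, max (flip i x i) 0 ^ 2 / 2 := by
      rw [← integral_const_mul, ← integral_const_mul, ← integral_add]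
      · refine setIntegral_congr_fun hK.measurableSet fun x _ => ?_
        rcases le_total 0 (x i) with h | h <;> simp [flip, h] <;> ring
      · exact iQ.const_mul 2
      · refine integrableOn_of_bound hK ?_ (M := R ^ 2 * 2) fun x hx => ?_
        · simp [flip]; fun_prop
        · rw [abs_of_nonneg (by positivity)]
          simp only [flip, if_true]
          have : max (-x i) 0 ≤ R := max_le ((neg_le_abs _).trans (hR x hx i)) hR0
          nlinarith [le_max_right (-x i) 0]
    rw [h1, setIntegral_flip hsign i fun x => max (x i) 0 ^ 2 / 2]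
    ring
  have hhalf : (volume K).toReal ≤ 2 * (tail K i 0).toReal := by
    have hsub : K ⊆ (K ∩ {x | 0 ≤ x i}) ∪ (flip i ⁻¹' (K ∩ {x | 0 ≤ x i})) := by
      intro x hx
      rcases le_total 0 (x i) with h | h
      · exact Or.inl ⟨hx, h⟩
      · exact Or.inr ⟨(flip_mem_iff hsign i x).2 hx, by simp [flip, h]⟩
    have h := (measure_mono hsub).trans (measure_union_le (μ := volume) _ _)
    rw [(measurePreserving_flip i).measure_preimage
      (hK.measurableSet.inter (measurableSet_halfspace i 0)).nullMeasurableSet, ← two_mul] at h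
    have h' := ENNReal.toReal_mono (ENNReal.mul_ne_top (by simp)
      (ne_top_of_le_ne_top hK.measure_lt_top.ne (measure_mono inter_subset_left))) h
    simpa [tail] using h'
  rw [habs, hsq]
  have hq0 : 0 ≤ ∫ x in K, max (x i) 0 ^ 2 / 2 := integral_nonneg fun x => by positivity
  nlinarith [mul_le_mul_of_nonneg_right hhalf hq0, hreal]

end Vale.Agent.P254
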