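import Mathlib
import Vale.Agent.P254.Defs
import Vale.Agent.P254.Body
import Vale.Agent.P254.Tail
import Vale.Agent.P254.Box

/-!
The isotropic constant of an unconditional body with block permutation symmetry.
-/

noncomputable section

open MeasureTheory Set Matrix
open scoped BigOperators ENNReal

namespace Vale.Agent.P254

variable {n r : ℕ}

lemma covMatrix_unconditional {K : Set (Fin n → ℝ)}
    (hsign : ∀ x ∈ K, ∀ y, (∀ i, y i = x i ∨ y i = -x i) → y ∈ K) :
    covMatrix K = Matrix.diagonal fun i => (volume K).toReal⁻¹ * ∫ x in K, x i ^ 2 := by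
  have hc : ∀ i, centroid K i = 0 := fun i => by
    rw [centroid, setIntegral_eq_zero_of_odd hsign i (f := fun x => x i) (fun x => by simp [flip]),
      mul_zero]
  ext i j
  simp only [covMatrix, Matrix.of_apply, hc, sub_zero]
  by_cases h : i = j
  · subst h
    simp [pow_two]
  · rw [Matrix.diagonal_apply_ne _ h,
      setIntegral_eq_zero_of_odd hsign i (f := fun x => x i * x j)
        (fun x => by simp [flip, Ne.symm h]), mul_zero]

lemma setIntegral_perm {K : Set (Fin n → ℝ)} {p : Fin n → Fin r}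
    (hperm : ∀ σ : Equiv.Perm (Fin n), (∀ i, p (σ i) = p i) → ∀ x ∈ K, (fun i => x (σ i)) ∈ K)
    {i i' : Fin n} (h : p i = p i') : ∫ x in K, |x i| = ∫ x in K, |x i'| := by
  set σ := Equiv.swap i i' with hσ
  have hp : ∀ l, p (σ l) = p l := by
    intro l
    rcases eq_or_ne l i with rfl | h1
    · simp [hσ, h]
    rcases eq_or_ne l i' with rfl | h2
    · simp [hσ, h]
    · rw [hσ, Equiv.swap_apply_of_ne_of_ne h1 h2]
  set T := MeasurableEquiv.piCongrLeft (fun _ : Fin n => ℝ) σ with hT
  have hTa : ∀ x l, T x l = x (σ l) := by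
    intro x l
    have h1 := MeasurableEquiv.piCongrLeft_apply_apply (β := fun _ : Fin n => ℝ) σ x (σ l)
    rwa [hσ, Equiv.swap_apply_self] at h1
  have hpre : T ⁻¹' K = K := by
    ext x
    constructor
    · intro hx
      have := hperm σ hp _ hx
      convert this using 1
      funext l
      rw [hTa, hσ, Equiv.swap_apply_self]
    · intro hx
      have := hperm σ hp x hx
      show T x ∈ K
      convert this using 1
      funext l
      rw [hTa]
  have h2 := (volume_measurePreserving_piCongrLeft (fun _ : Fin n => ℝ) σ).setIntegral_preimage_emb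
    T.measurableEmbedding (fun x : Fin n → ℝ => |x i'|) K
  rw [show (⇑T ⁻¹' K) = K from hpre] at h2
  rw [← h2]
  refine integral_congr_ae (Filter.Eventually.of_forall fun x => ?_)
  show |x i| = |T x i'|
  rw [hTa, hσ, Equiv.swap_apply_right]

lemma integral_abs_pos {K : Set (Fin n → ℝ)} (hK : IsCompact K) (hV : 0 < (volume K).toReal)
    (i : Fin n) : 0 < ∫ x in K, |x i| := by
  obtain ⟨R, -, hR⟩ := exists_coord_bound hK
  have hint : IntegrableOn (fun x : Fin n → ℝ => |x i|) K volume :=
    integrableOn_of_bound hK (by fun_prop) (M := R) fun x hx => by rw [abs_abs]; exact hR x hx i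
  rw [setIntegral_pos_iff_support_of_nonneg_ae (Filter.Eventually.of_forall fun x => abs_nonneg _)
    hint]
  have hnull : volume {x : Fin n → ℝ | x i = 0} = 0 := by
    rw [volume_pi]; exact Measure.pi_hyperplane (fun _ : Fin n => (volume : Measure ℝ)) i 0
  have hsub : K ⊆ (Function.support fun x : Fin n → ℝ => |x i|) ∩ K ∪ {x | x i = 0} := by
    intro x hx
    by_cases h : x i = 0
    · exact Or.inr h
    · exact Or.inl ⟨by simp [h], hx⟩
  have h := (measure_mono hsub).trans (measure_union_le (μ := volume) _ _)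
  rw [hnull, add_zero] at h
  exact lt_of_lt_of_le (ENNReal.toReal_pos_iff.1 hV).1 h

/-- A block dominated by a product of block sets has the product volume. -/
lemma volume_blockwise {N : Fin r → ℕ} {p : Fin n → Fin r}
    (e : ∀ j, Fin (N j) ≃ {i // p i = j}) (S : ∀ j, Set (Fin (N j) → ℝ))
    (hS : ∀ j, MeasurableSet (S j)) :
    volume {y : Fin n → ℝ | ∀ j, (fun l => y (e j l).1) ∈ S j} = ∏ j, volume (S j) := by
  set Φ : ((j : Fin r) → Fin (N j) → ℝ) → (Fin n → ℝ) :=
    fun g i => g (p i) ((e (p i)).symm ⟨i, rfl⟩) with hΦ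
  have hΦe : ∀ g j l, Φ g (e j l).1 = g j l := by
    intro g j l
    have key : ∀ i (h : p i = j), Φ g i = g j ((e j).symm ⟨i, h⟩) := by
      rintro i rfl; rfl
    rw [key _ (e j l).2]
    simp
  have hm : Measurable Φ := measurable_pi_lambda _ fun i =>
    (measurable_pi_apply _).comp (measurable_pi_apply (p i))
  have hmap : Measure.map Φ volume = volume := by
    rw [volume_pi (ι := Fin n)]
    refine (Measure.pi_eq fun s hs => ?_).symm
    rw [Measure.map_apply hm (MeasurableSet.univ_pi hs)]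
    have hpre : Φ ⁻¹' Set.univ.pi s
        = Set.univ.pi fun j => Set.univ.pi fun l : Fin (N j) => s (e j l).1 := by
      ext g
      simp only [Set.mem_preimage, Set.mem_univ_pi]
      constructor
      · intro h j l
        rw [← hΦe g j l]; exact h _
      · intro h i
        have h' := h (p i) ((e (p i)).symm ⟨i, rfl⟩)
        rwa [Equiv.apply_symm_apply] at h'
    rw [hpre, volume_pi_pi]
    simp only [volume_pi_pi]
    rw [← Fintype.prod_fiberwise p fun i => volume (s i)]
    exact Finset.prod_congr rfl fun j _ => Equiv.prod_comp (e j) fun i => volume (s i.1)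
  have hY : MeasurableSet {y : Fin n → ℝ | ∀ j, (fun l => y (e j l).1) ∈ S j} := by
    rw [Set.ofPred_forall]
    exact MeasurableSet.iInter fun j =>
      (measurable_pi_lambda _ fun l => measurable_pi_apply _) (hS j)
  conv_lhs => rw [← hmap]
  rw [Measure.map_apply hm hY, ← volume_pi_pi]
  congr 1
  ext g
  simp [hΦe]

/-- The volume lower bound in terms of the first absolute moments. -/
lemma volume_lower {K : Set (Fin n → ℝ)} (hK : IsCompact K) (hconv : Convex ℝ K)
    (hV : 0 < (volume K).toReal) (hsign : ∀ x ∈ K, ∀ y, (∀ i, y i = x i ∨ y i = -x i) → y ∈ K)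
    {p : Fin n → Fin r}
    (hperm : ∀ σ : Equiv.Perm (Fin n), (∀ i, p (σ i) = p i) → ∀ x ∈ K, (fun i => x (σ i)) ∈ K) :
    (392 / 100 : ℝ) ^ n * (∏ i, ((volume K).toReal⁻¹ * ∫ x in K, |x i|))
      ≤ 2 ^ ((blockSize + 1) * r) * (volume K).toReal := by
  set V := (volume K).toReal with hVdef
  set N : Fin r → ℕ := fun j => Fintype.card {i // p i = j} with hN
  set e : ∀ j, Fin (N j) ≃ {i // p i = j} := fun j => (Fintype.equivFin _).symm with he
  set β : Fin n → ℝ := fun i => V⁻¹ * ∫ x in K, |x i| with hβ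
  have hβ0 : ∀ i, 0 < β i := fun i => mul_pos (inv_pos.2 hV) (integral_abs_pos hK hV i)
  set b : Fin r → ℝ := fun j =>
    if h : 0 < N j then β (e j ⟨0, h⟩).1 else 1 with hb
  have hbp : ∀ j, 0 < b j := fun j => by
    simp only [hb]; split
    · exact hβ0 _
    · exact one_pos
  have hbl : ∀ j (l : Fin (N j)), β (e j l).1 = b j := by
    intro j l
    simp only [hb, dif_pos (Nat.lt_of_le_of_lt (Nat.zero_le _) l.2), hβ]
    congr 1
    exact setIntegral_perm hperm ((e j l).2.trans (e j _).2.symm)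
  set Y : Set (Fin n → ℝ) := {y | ∀ j, (fun l => y (e j l).1) ∈ profileSet (N j) (b j)} with hY
  have hsub : Y ⊆ K := by
    intro y hy
    refine mem_of_dominated hK hconv hsign hperm hV e fun j A => ?_
    have hA := hy j A
    have hcard : A.card ≤ N j := (Finset.card_le_univ A).trans (le_of_eq (Fintype.card_fin _))
    refine le_trans (mul_le_mul_of_nonneg_left hA hV.le) ?_
    have h := topInt_lower hK hconv hsign (e := fun l => (e j l).1)
      (fun a c h => (e j).injective (Subtype.ext h)) (B := V * b j) (fun l => ?_) hcard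
    · refine le_trans (le_of_eq ?_) h
      ring
    · rw [← hbl j l, hβ]
      field_simp
  have hvol := ENNReal.toReal_mono hK.measure_lt_top.ne (measure_mono hsub (μ := volume))
  rw [hY, volume_blockwise e _ fun j => measurableSet_profileSet _ _, ENNReal.toReal_prod] at hvol
  have hfac : ∀ j, ((392 / 100 : ℝ) * b j) ^ N j
      ≤ 2 ^ (blockSize + 1) * (volume (profileSet (N j) (b j))).toReal := by
    intro j
    rcases lt_or_ge (N j) blockSize with hs | hl
    · refine le_trans ?_ (mul_le_mul_of_nonneg_left (profileSet_volume_small (hbp j)) (by positivity))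
      rw [show (392 / 100 : ℝ) * b j = 196 / 100 * (2 * b j) by ring, mul_pow]
      refine mul_le_mul_of_nonneg_right ?_ (pow_nonneg (by linarith [hbp j]) _)
      calc (196 / 100 : ℝ) ^ N j ≤ 2 ^ N j := pow_le_pow_left₀ (by norm_num) (by norm_num) _
        _ ≤ 2 ^ (blockSize + 1) := pow_le_pow_right₀ one_le_two (by omega)
    · have h1 := profileSet_volume_large (hbp j) hl
      rw [show (392 / 100 : ℝ) * b j = 4 * b j * (49 / 50) by ring]
      calc (4 * b j * (49 / 50)) ^ N j = 2 * ((4 * b j * (49 / 50)) ^ N j / 2) := by ring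
        _ ≤ 2 * (volume (profileSet (N j) (b j))).toReal := by linarith
        _ ≤ _ := mul_le_mul_of_nonneg_right (le_self_pow₀ one_le_two (Nat.succ_ne_zero _))
            ENNReal.toReal_nonneg
  have hlhs : (392 / 100 : ℝ) ^ n * ∏ i, β i = ∏ j, ((392 / 100 : ℝ) * b j) ^ N j := by
    have : (392 / 100 : ℝ) ^ n * ∏ i, β i = ∏ i : Fin n, (392 / 100 : ℝ) * β i := by
      conv_rhs => rw [Finset.prod_mul_distrib, Finset.prod_const, Finset.card_univ, Fintype.card_fin]
    rw [this, ← Fintype.prod_fiberwise p fun i => (392 / 100 : ℝ) * β i]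
    refine Finset.prod_congr rfl fun j _ => ?_
    rw [← Equiv.prod_comp (e j) fun i : {i // p i = j} => (392 / 100 : ℝ) * β i.1]
    simp only [hbl, Finset.prod_const, Finset.card_univ, Fintype.card_fin]
  calc (392 / 100 : ℝ) ^ n * ∏ i, β i = ∏ j, ((392 / 100 : ℝ) * b j) ^ N j := hlhs
    _ ≤ ∏ j, 2 ^ (blockSize + 1) * (volume (profileSet (N j) (b j))).toReal :=
        Finset.prod_le_prod (fun j _ => pow_nonneg (mul_nonneg (by norm_num) (hbp j).le) _)
          fun j _ => hfac j
    _ = 2 ^ ((blockSize + 1) * r) * ∏ j, (volume (profileSet (N j) (b j))).toReal := by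
        rw [Finset.prod_mul_distrib, Finset.prod_const, Finset.card_univ, Fintype.card_fin,
          ← pow_mul]
    _ ≤ _ := mul_le_mul_of_nonneg_left hvol (by positivity)

/-- The bound `362/1000` for block-symmetric unconditional bodies. -/
lemma isoConst_le_of_blocks {K : Set (Fin n → ℝ)} (hn : 1 ≤ n) (hK : IsCompact K)
    (hconv : Convex ℝ K) (hV : 0 < (volume K).toReal)
    (hsign : ∀ x ∈ K, ∀ y, (∀ i, y i = x i ∨ y i = -x i) → y ∈ K) {p : Fin n → Fin r}
    (hperm : ∀ σ : Equiv.Perm (Fin n), (∀ i, p (σ i) = p i) → ∀ x ∈ K, (fun i => x (σ i)) ∈ K)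
    (hr : 500 * ((blockSize + 1) * r) ≤ n) : isoConst K ≤ 362 / 1000 := by
  set V := (volume K).toReal with hVdef
  set β : Fin n → ℝ := fun i => V⁻¹ * ∫ x in K, |x i| with hβ
  set E := (blockSize + 1) * r with hE
  have hdet : (covMatrix K).det ≤ 2 ^ n * (∏ i, β i) ^ 2 := by
    rw [covMatrix_unconditional hsign, Matrix.det_diagonal, ← Finset.prod_pow,
      show (2 : ℝ) ^ n = ∏ _i : Fin n, (2 : ℝ) by simp, ← Finset.prod_mul_distrib]
    refine Finset.prod_le_prod (fun i _ => mul_nonneg (inv_nonneg.2 hV.le)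
      (integral_nonneg fun x => sq_nonneg _)) fun i _ => ?_
    have h := sq_moment_le hK hconv hsign i
    simp only [hβ]
    rw [mul_pow, inv_pow, ← hVdef] at *
    field_simp
    linarith
  have hβn : 0 ≤ ∏ i, β i := Finset.prod_nonneg fun i _ =>
    mul_nonneg (inv_nonneg.2 hV.le) (integral_nonneg fun x => abs_nonneg _)
  have hvl := pow_le_pow_left₀ (mul_nonneg (by positivity) hβn)
    (volume_lower hK hconv hV hsign hperm) 2
  rw [mul_pow, mul_pow, ← pow_mul, ← pow_mul, ← hVdef, ← hE] at hvl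
  have hpow : (2 : ℝ) ^ (E * 2) ≤ (10067 / 10000 : ℝ) ^ n := by
    have h500 : (4 : ℝ) ≤ (10067 / 10000 : ℝ) ^ 500 := by
      have h := one_add_mul_le_pow (show (-2 : ℝ) ≤ 67 / 10000 by norm_num) 500
      calc (4 : ℝ) ≤ 1 + (500 : ℕ) * (67 / 10000) := by norm_num
        _ ≤ (1 + 67 / 10000) ^ 500 := h
        _ = _ := by norm_num
    calc (2 : ℝ) ^ (E * 2) = 4 ^ E := by rw [mul_comm, pow_mul]; norm_num
      _ ≤ ((10067 / 10000 : ℝ) ^ 500) ^ E := pow_le_pow_left₀ (by norm_num) h500 _
      _ = (10067 / 10000 : ℝ) ^ (500 * E) := (pow_mul _ _ _).symm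
      _ ≤ _ := pow_le_pow_right₀ (by norm_num) hr
  have hbase : (covMatrix K).det / V ^ 2 ≤ ((362 / 1000 : ℝ) ^ 2) ^ n := by
    rw [div_le_iff₀ (pow_pos hV 2)]
    have h1 : (392 / 100 : ℝ) ^ (n * 2) * (covMatrix K).det
        ≤ 2 ^ n * ((10067 / 10000 : ℝ) ^ n * V ^ 2) := by
      calc (392 / 100 : ℝ) ^ (n * 2) * (covMatrix K).det
          ≤ (392 / 100 : ℝ) ^ (n * 2) * (2 ^ n * (∏ i, β i) ^ 2) :=
            mul_le_mul_of_nonneg_left hdet (by positivity)
        _ = 2 ^ n * ((392 / 100 : ℝ) ^ (n * 2) * (∏ i, β i) ^ 2) := by ring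
        _ ≤ 2 ^ n * ((2 : ℝ) ^ (E * 2) * V ^ 2) := mul_le_mul_of_nonneg_left hvl (by positivity)
        _ ≤ _ := by gcongr
    have h2 : (2 : ℝ) ^ n * (10067 / 10000 : ℝ) ^ n
        ≤ (392 / 100 : ℝ) ^ (n * 2) * ((362 / 1000 : ℝ) ^ 2) ^ n := by
      rw [← mul_pow, mul_comm n 2, pow_mul, ← mul_pow]
      exact pow_le_pow_left₀ (by norm_num) (by norm_num) n
    refine le_of_mul_le_mul_left (h1.trans ?_) (show (0 : ℝ) < (392 / 100) ^ (n * 2) by positivity)
    rw [← mul_assoc, ← mul_assoc]
    exact mul_le_mul_of_nonneg_right h2 (sq_nonneg V)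
  have hdet0 : 0 ≤ (covMatrix K).det / V ^ 2 := by
    refine div_nonneg ?_ (sq_nonneg _)
    rw [covMatrix_unconditional hsign, Matrix.det_diagonal]
    exact Finset.prod_nonneg fun i _ => mul_nonneg (inv_nonneg.2 hV.le)
      (integral_nonneg fun x => sq_nonneg _)
  rw [isoConst]
  refine (Real.rpow_le_rpow hdet0 hbase (by positivity)).trans (le_of_eq ?_)
  rw [← pow_mul, one_div, show (2 * (n : ℝ)) = ((2 * n : ℕ) : ℝ) by push_cast; ring,
    Real.pow_rpow_inv_natCast (by norm_num) (by omega)]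

end Vale.Agent.P254
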