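import Mathlib

/-!
A single-interval crossing argument for negative moments, and Euler's integral for the comparison
density.
-/

noncomputable section

open MeasureTheory Set Finset

namespace Vale.Agent.P254

/-- Euler's integral in the form used for the comparison density. -/
def betaJ (q : ℝ) (k : ℕ) : ℝ := ∫ x in (0 : ℝ)..1, x ^ q * (1 - x ^ 2) ^ k

lemma betaJ_eq : ∀ (k : ℕ) (q : ℝ), -1 < q →
    betaJ q k = 2 ^ k * k.factorial / ∏ j ∈ range (k + 1), (q + 1 + 2 * j) := by
  intro k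
  induction k with
  | zero =>
    intro q hq
    simp [betaJ, integral_rpow (Or.inl hq), Real.zero_rpow (show q + 1 ≠ 0 by linarith)]
  | succ k ih =>
    intro q hq
    have hint : ∀ p : ℝ, -1 < p →
        IntervalIntegrable (fun x : ℝ => x ^ p * (1 - x ^ 2) ^ k) volume 0 1 := fun p hp =>
      (intervalIntegral.intervalIntegrable_rpow' hp).mul_continuousOn (by fun_prop)
    have hrec : betaJ q (k + 1) = betaJ q k - betaJ (q + 2) k := by
      rw [betaJ, betaJ, betaJ,
        ← intervalIntegral.integral_sub (hint q hq) (hint (q + 2) (by linarith))]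
      refine intervalIntegral.integral_congr fun x hx => ?_
      rw [Set.uIcc_of_le zero_le_one] at hx
      rw [Real.rpow_add' hx.1 (by linarith), Real.rpow_two]
      ring
    rw [hrec, ih q hq, ih (q + 2) (by linarith)]
    set P := ∏ j ∈ range (k + 1), (q + 1 + 2 * (j : ℝ)) with hP
    set P2 := ∏ j ∈ range (k + 1), (q + 2 + 1 + 2 * (j : ℝ)) with hP2
    have e1 : ∏ j ∈ range (k + 1 + 1), (q + 1 + 2 * (j : ℝ))
        = P * (q + 1 + 2 * ((k + 1 : ℕ) : ℝ)) := prod_range_succ _ _
    have e2 : ∏ j ∈ range (k + 1 + 1), (q + 1 + 2 * (j : ℝ)) = (q + 1) * P2 := by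
      rw [prod_range_succ', hP2]
      push_cast
      rw [mul_comm]
      congr 1
      · ring
      · exact prod_congr rfl fun j _ => by ring
    have hP0 : 0 < P := prod_pos fun j _ => by linarith [Nat.cast_nonneg (α := ℝ) j]
    have hP20 : 0 < P2 := prod_pos fun j _ => by linarith [Nat.cast_nonneg (α := ℝ) j]
    have hq0 : (0 : ℝ) < q + 1 := by linarith
    rw [e2, Nat.factorial_succ]
    push_cast at e1 ⊢
    rw [e1] at e2
    have hP2' : P2 = P * (q + 1 + 2 * ((k : ℝ) + 1)) / (q + 1) := by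
      rw [e2]; field_simp
    rw [hP2']
    field_simp
    ring

/-- The comparison profile. -/
def profile (k : ℕ) (c R v : ℝ) : ℝ := (c * max (1 - v / R) 0) ^ k

lemma integral_rpow_profile {k : ℕ} (hk : k ≠ 0) {c R M q : ℝ} (hR : 0 < R) (hM : R ≤ M ^ 2)
    (hM0 : 0 ≤ M) (hq : -1 < q) :
    ∫ x in Set.Ioc 0 M, x ^ q * profile k c R (x ^ 2)
      = c ^ k * (Real.sqrt R ^ (q + 1) * betaJ q k) := by
  set r := Real.sqrt R with hr
  have hr0 : 0 < r := Real.sqrt_pos.2 hR
  have hr2 : r ^ 2 = R := Real.sq_sqrt hR.le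
  have hrM : r ≤ M := by rw [hr, Real.sqrt_le_left hM0]; exact hM
  have hI : ∀ a b : ℝ, IntervalIntegrable (fun x => x ^ q * profile k c R (x ^ 2)) volume a b :=
    fun a b => (intervalIntegral.intervalIntegrable_rpow' hq).mul_continuousOn
      (by unfold profile; fun_prop)
  rw [← intervalIntegral.integral_of_le hM0,
    ← intervalIntegral.integral_add_adjacent_intervals (hI 0 r) (hI r M)]
  have h2 : ∫ x in r..M, x ^ q * profile k c R (x ^ 2) = 0 := by
    rw [intervalIntegral.integral_congr (g := fun _ => (0 : ℝ)) fun x hx => ?_]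
    · simp
    · rw [Set.uIcc_of_le hrM] at hx
      have : 1 - x ^ 2 / R ≤ 0 := by
        rw [sub_nonpos, le_div_iff₀ hR, one_mul, ← hr2]
        exact pow_le_pow_left₀ hr0.le hx.1 2
      simp [profile, max_eq_right this, zero_pow hk]
  rw [h2, add_zero]
  have h := intervalIntegral.integral_comp_mul_left (a := 0) (b := 1)
    (fun x => x ^ q * profile k c R (x ^ 2)) hr0.ne'
  rw [mul_zero, mul_one, smul_eq_mul] at h
  have h3 : ∫ x in (0 : ℝ)..1, (r * x) ^ q * profile k c R ((r * x) ^ 2)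
      = c ^ k * (r ^ q * betaJ q k) := by
    rw [betaJ, ← intervalIntegral.integral_const_mul, ← intervalIntegral.integral_const_mul]
    refine intervalIntegral.integral_congr fun x hx => ?_
    rw [Set.uIcc_of_le zero_le_one] at hx
    have e : (r * x) ^ 2 / R = x ^ 2 := by rw [mul_pow, hr2]; field_simp
    simp only [profile]
    rw [e, max_eq_left (by nlinarith [hx.1, hx.2]), mul_pow, Real.mul_rpow hr0.le hx.1]
    ring
  rw [h3] at h
  rw [Real.rpow_add hr0, Real.rpow_one]
  field_simp at h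
  linarith

/-- If a weighted difference has a constant sign and zero integral it vanishes almost everywhere. -/
lemma ae_eq_zero_of_mul_sign {μ : Measure ℝ} {d w : ℝ → ℝ} (hw : ∀ᵐ x ∂μ, w x ≠ 0)
    (hint : Integrable (fun x => w x * d x) μ) (hsign : ∀ᵐ x ∂μ, w x * d x ≤ 0)
    (hzero : ∫ x, w x * d x ∂μ = 0) : d =ᵐ[μ] 0 := by
  have h := (integral_eq_zero_iff_of_nonneg_ae (f := fun x => -(w x * d x))
    (hsign.mono fun x hx => neg_nonneg.2 hx) hint.neg).1 (by rw [integral_neg, hzero, neg_zero])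
  filter_upwards [h, hw] with x hx hwx
  simp only [Pi.zero_apply, neg_eq_zero, mul_eq_zero] at hx ⊢
  exact hx.resolve_left hwx

lemma convexOn_rpow_of_neg_aux {a : ℝ} (ha : a < 0) :
    ConvexOn ℝ (Set.Ioi 0) fun v : ℝ => v ^ a := by
  refine ⟨convex_Ioi 0, fun x hx y hy l m hl hm hlm => ?_⟩
  have hx' : (0 : ℝ) < x := hx
  have hy' : (0 : ℝ) < y := hy
  have hz : (0 : ℝ) < l • x + m • y := (convex_Ioi (0 : ℝ)) hx hy hl hm hlm
  have h1 := strictConcaveOn_log_Ioi.concaveOn.2 hx hy hl hm hlm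
  have h2 := convexOn_exp.2 (Set.mem_univ (Real.log x * a)) (Set.mem_univ (Real.log y * a)) hl hm hlm
  simp only [smul_eq_mul] at h1 h2 hz ⊢
  rw [Real.rpow_def_of_pos hz, Real.rpow_def_of_pos hx', Real.rpow_def_of_pos hy']
  refine (Real.exp_le_exp.2 ?_).trans h2
  nlinarith

/-- A function exceeding another exactly on an interval, with equal mass and second moment, has
the smaller negative moments. -/
lemma crossing {G P : ℝ → ℝ} {M s : ℝ} (hs0 : 0 < s) (hs1 : s < 1)
    (hGm : Measurable G) (hPm : Measurable P) {b : ℝ} (hGb : ∀ v, 0 ≤ v → |G v| ≤ b)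
    (hPb : ∀ v, 0 ≤ v → |P v| ≤ b) (hU : Set.OrdConnected {v | 0 ≤ v ∧ P v < G v})
    (hUb : BddAbove {v | 0 ≤ v ∧ P v < G v})
    (hmass : ∫ x in Set.Ioc 0 M, G (x ^ 2) = ∫ x in Set.Ioc 0 M, P (x ^ 2))
    (hsec : ∫ x in Set.Ioc 0 M, x ^ 2 * G (x ^ 2) = ∫ x in Set.Ioc 0 M, x ^ 2 * P (x ^ 2)) :
    ∫ x in Set.Ioc 0 M, x ^ (-s) * G (x ^ 2) ≤ ∫ x in Set.Ioc 0 M, x ^ (-s) * P (x ^ 2) := by
  set μ := volume.restrict (Set.Ioc 0 M) with hμ
  have hsqm : Measurable fun x : ℝ => x ^ 2 := by fun_prop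
  have bint : ∀ {H : ℝ → ℝ}, Measurable H → (∀ v, 0 ≤ v → |H v| ≤ b) → ∀ {w : ℝ → ℝ},
      Integrable w μ → Integrable (fun x => w x * H (x ^ 2)) μ := fun {H} hHm hHb {w} hw =>
    hw.mul_bdd (c := b) (hHm.comp hsqm).aestronglyMeasurable
      (Filter.Eventually.of_forall fun x => by rw [Real.norm_eq_abs]; exact hHb _ (sq_nonneg x))
  have hone : Integrable (fun _ : ℝ => (1 : ℝ)) μ := integrable_const _
  have hsq : Integrable (fun x : ℝ => x ^ 2) μ :=
    (by fun_prop : Continuous fun x : ℝ => x ^ 2).integrableOn_Ioc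
  have hneg : Integrable (fun x : ℝ => x ^ (-s)) μ :=
    (intervalIntegral.intervalIntegrable_rpow' (a := 0) (b := M) (by linarith)).1
  set d : ℝ → ℝ := fun x => G (x ^ 2) - P (x ^ 2) with hd
  have dint : ∀ {w : ℝ → ℝ}, Integrable w μ → Integrable (fun x => w x * d x) μ := fun {w} hw => by
    refine ((bint hGm hGb hw).sub (bint hPm hPb hw)).congr (Filter.Eventually.of_forall fun x => ?_)
    simp [hd, mul_sub]
  have dI : ∀ {w : ℝ → ℝ}, Integrable w μ → ∫ x, w x * d x ∂μ
      = (∫ x, w x * G (x ^ 2) ∂μ) - ∫ x, w x * P (x ^ 2) ∂μ := fun {w} hw => by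
    rw [← integral_sub (bint hGm hGb hw) (bint hPm hPb hw)]
    simp [hd, mul_sub]
  have h0 : ∫ x, 1 * d x ∂μ = 0 := by rw [dI hone, sub_eq_zero]; simpa using hmass
  have h2 : ∫ x, x ^ 2 * d x ∂μ = 0 := by rw [dI hsq, hsec, sub_self]
  have hpos : ∀ᵐ x ∂μ, 0 < x := (ae_restrict_mem measurableSet_Ioc).mono fun x hx => hx.1
  have fin : d =ᵐ[μ] 0 → ∫ x, x ^ (-s) * G (x ^ 2) ∂μ ≤ ∫ x, x ^ (-s) * P (x ^ 2) ∂μ := by
    intro h
    refine le_of_eq (integral_congr_ae ?_)
    filter_upwards [h] with x hx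
    simp only [hd, Pi.zero_apply, sub_eq_zero] at hx
    rw [hx]
  have hnull : ∀ a : ℝ, ∀ᵐ x ∂μ, x ≠ a := fun a =>
    ae_restrict_of_ae ((Set.finite_singleton a).countable.ae_notMem volume |>.mono fun x hx => hx)
  have hnull2 : ∀ a : ℝ, ∀ᵐ x ∂μ, x ^ 2 ≠ a := fun a => by
    filter_upwards [hnull (Real.sqrt a), hpos] with x hx hx0 h
    exact hx (by rw [← h, Real.sqrt_sq hx0.le])
  set U := {v : ℝ | 0 ≤ v ∧ P v < G v} with hUdef
  have hout : ∀ v, 0 ≤ v → v ∉ U → G v ≤ P v := fun v hv hvU => not_lt.1 fun h => hvU ⟨hv, h⟩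
  by_cases hsub : U.Subsingleton
  · refine fin (ae_eq_zero_of_mul_sign (w := fun _ => 1) (Filter.Eventually.of_forall fun _ => one_ne_zero)
      (dint hone) ?_ h0)
    rcases hsub.eq_empty_or_singleton with hE | ⟨a, ha⟩
    · refine Filter.Eventually.of_forall fun x => ?_
      rw [one_mul, sub_nonpos]
      exact hout _ (sq_nonneg x) (by rw [hE]; exact Set.notMem_empty _)
    · filter_upwards [hnull2 a] with x hx
      rw [one_mul, sub_nonpos]
      exact hout _ (sq_nonneg x) (by rw [ha]; exact hx)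
  obtain ⟨v1, hv1, v2, hv2, hne⟩ := Set.not_subsingleton_iff.1 hsub
  have hUne : U.Nonempty := ⟨v1, hv1⟩
  have hbb : BddBelow U := ⟨0, fun v hv => hv.1⟩
  set p := sInf U with hp
  set q := sSup U with hq
  have hp0 : 0 ≤ p := le_csInf hUne fun v hv => hv.1
  have hpq : p < q := by
    rcases lt_or_gt_of_ne hne with h | h
    · exact lt_of_le_of_lt (csInf_le hbb hv1) (lt_of_lt_of_le h (le_csSup hUb hv2))
    · exact lt_of_le_of_lt (csInf_le hbb hv2) (lt_of_lt_of_le h (le_csSup hUb hv1))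
  have hin : ∀ v, p < v → v < q → P v < G v := by
    intro v h1 h2
    obtain ⟨u, hu, huv⟩ := exists_lt_of_csInf_lt hUne h1
    obtain ⟨w, hw, hvw⟩ := exists_lt_of_lt_csSup hUne h2
    exact (hU.out hu hw ⟨huv.le, hvw.le⟩).2
  have hout' : ∀ v, 0 ≤ v → v < p ∨ q < v → G v ≤ P v := by
    intro v hv h
    refine hout v hv fun hvU => ?_
    rcases h with h | h
    · linarith [csInf_le hbb hvU]
    · linarith [le_csSup hUb hvU]
  rcases eq_or_lt_of_le hp0 with hpz | hppos
  · refine fin (ae_eq_zero_of_mul_sign (w := fun x => x ^ 2 - q) ?_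
      (dint (hsq.sub (integrable_const q))) ?_ ?_)
    · filter_upwards [hnull2 q] with x hx
      exact sub_ne_zero.2 hx
    · filter_upwards [hnull2 q, hpos] with x hx hx0
      rcases lt_or_gt_of_ne hx with h | h
      · exact mul_nonpos_of_nonpos_of_nonneg (by linarith)
          (sub_nonneg.2 (hin _ (by rw [← hpz]; positivity) h).le)
      · exact mul_nonpos_of_nonneg_of_nonpos (by linarith)
          (sub_nonpos.2 (hout' _ (sq_nonneg x) (Or.inr h)))
    · have e : (fun x => (x ^ 2 - q) * d x) = fun x => x ^ 2 * d x - q * (1 * d x) := by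
        funext x; ring
      rw [e, integral_sub (dint hsq) ((dint hone).const_mul q),
        integral_const_mul q fun x => 1 * d x, h0, h2]
      simp
  set φ : ℝ → ℝ := fun v => v ^ (-s / 2) with hφ
  have hconv : ConvexOn ℝ (Set.Ioi 0) φ := convexOn_rpow_of_neg_aux (by linarith)
  set β := (φ q - φ p) / (q - p) with hβ
  set α := φ p - β * p with hα
  have hlin : ∀ v, α + β * v = φ p + β * (v - p) := fun v => by rw [hα]; ring
  have hq0 : 0 < q := hppos.trans hpq
  have key : ∀ v, 0 < v → v ≠ p → v ≠ q → (φ v - (α + β * v)) * (G v - P v) ≤ 0 := by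
    intro v hv hvp hvq
    rw [hlin]
    have hqp' : q - p ≠ 0 := sub_ne_zero.2 hpq.ne'
    rcases lt_or_gt_of_ne hvp with h | h
    · refine mul_nonpos_of_nonneg_of_nonpos ?_ (sub_nonpos.2 (hout' v hv.le (Or.inl h)))
      have hs := hconv.slope_mono_adjacent (Set.mem_Ioi.2 hv) (Set.mem_Ioi.2 hq0) h hpq
      rw [← hβ, div_le_iff₀ (by linarith)] at hs
      linarith
    rcases lt_or_gt_of_ne hvq with h' | h'
    · refine mul_nonpos_of_nonpos_of_nonneg ?_ (sub_nonneg.2 (hin v h h').le)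
      have hs := hconv.secant_mono_aux1 (Set.mem_Ioi.2 hppos) (Set.mem_Ioi.2 hq0) h h'
      have e : (q - p) * (φ v - (φ p + β * (v - p)))
          = (q - p) * φ v - ((q - v) * φ p + (v - p) * φ q) := by
        rw [hβ]
        field_simp
        ring
      have hqp : 0 < q - p := by linarith
      nlinarith [e, hs]
    · refine mul_nonpos_of_nonneg_of_nonpos ?_ (sub_nonpos.2 (hout' v hv.le (Or.inr h')))
      have hs := hconv.slope_mono_adjacent (Set.mem_Ioi.2 hppos) (Set.mem_Ioi.2 hv) hpq h'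
      rw [← hβ, le_div_iff₀ (by linarith)] at hs
      have : β * (q - p) = φ q - φ p := by rw [hβ]; field_simp
      nlinarith
  have hwint : Integrable (fun x : ℝ => α * 1 + β * x ^ 2) μ :=
    (hone.const_mul α).add (hsq.const_mul β)
  have hI : ∫ x, (α * 1 + β * x ^ 2) * d x ∂μ = 0 := by
    have e : (fun x => (α * 1 + β * x ^ 2) * d x)
        = fun x => α * (1 * d x) + β * (x ^ 2 * d x) := by funext x; ring
    rw [e, integral_add ((dint hone).const_mul α) ((dint hsq).const_mul β),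
      integral_const_mul α fun x => 1 * d x, integral_const_mul β fun x => x ^ 2 * d x, h0, h2]
    simp
  have hle : ∫ x, x ^ (-s) * d x ∂μ ≤ ∫ x, (α * 1 + β * x ^ 2) * d x ∂μ := by
    refine integral_mono_ae (dint hneg) (dint hwint) ?_
    filter_upwards [hnull2 p, hnull2 q, hpos] with x hxp hxq hx0
    have h := key (x ^ 2) (by positivity) hxp hxq
    have e : φ (x ^ 2) = x ^ (-s) := by
      simp only [hφ]
      rw [← Real.rpow_natCast, ← Real.rpow_mul hx0.le]
      congr 1
      push_cast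
      ring
    rw [e] at h
    have : d x = G (x ^ 2) - P (x ^ 2) := rfl
    rw [this]
    linarith
  rw [dI hneg, hI] at hle
  linarith

end Vale.Agent.P254
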