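import Mathlib
import Vale.Agent.P254.SquareBasic
import Vale.Agent.P254.SquareBM
import Vale.Agent.P254.SquareCrossing

/-!
Negative moments of one coordinate of an unconditional body whose image under coordinatewise
squaring is convex.
-/

noncomputable section

open MeasureTheory Set Finset
open scoped ENNReal

namespace Vale.Agent.P254

variable {k : ℕ} {K : Set (Fin (k + 1) → ℝ)}

lemma slice_combination (hD : IsDownward K)
    (hsq : Convex ℝ ((fun (x : Fin (k + 1) → ℝ) j => x j ^ 2) '' K)) (i : Fin (k + 1)) {a b : ℝ}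
    (ha : 0 ≤ a) (hb : 0 ≤ b) {l μ : ℝ} (hl : 0 ≤ l) (hμ : 0 ≤ μ) (hlμ : l + μ = 1)
    {z w : Fin k → ℝ} (hz : z ∈ slice K i (Real.sqrt a)) (hw : w ∈ slice K i (Real.sqrt b)) :
    l • z + μ • w ∈ slice K i (Real.sqrt (l * a + μ * b)) := by
  obtain ⟨p, hp, hpe⟩ := hsq ⟨_, hz, rfl⟩ ⟨_, hw, rfl⟩ hl hμ hlμ
  refine hD p hp _ fun j => ?_
  refine Fin.succAboveCases i ?_ (fun t => ?_) j
  · have h := congrFun hpe i
    simp [Real.sq_sqrt ha, Real.sq_sqrt hb] at h
    rw [Fin.insertNth_apply_same, ← h, Real.sqrt_sq_eq_abs, abs_abs]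
  · have h := congrFun hpe (i.succAbove t)
    simp at h
    rw [Fin.insertNth_apply_succAbove, ← sq_le_sq, Pi.add_apply, Pi.smul_apply, Pi.smul_apply,
      smul_eq_mul, smul_eq_mul, h]
    have hμ' : μ = 1 - l := by linarith
    subst hμ'
    nlinarith [mul_nonneg (mul_nonneg hl hμ) (sq_nonneg (z t - w t))]

lemma prod_shift_two (k : ℕ) : ∏ j ∈ range (k + 1), ((2 : ℝ) + 1 + 2 * j)
    = (2 * (k : ℝ) + 3) * ∏ j ∈ range (k + 1), ((0 : ℝ) + 1 + 2 * j) := by
  induction k with
  | zero => norm_num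
  | succ k ih =>
    rw [prod_range_succ, ih, prod_range_succ _ (k + 1)]
    push_cast
    ring

/-- The bound for a negative moment in terms of the second moment. -/
lemma coord_negMoment_le (hk : k ≠ 0) (hK : IsCompact K) (hconv : Convex ℝ K) (hD : IsDownward K)
    (hsq : Convex ℝ ((fun (x : Fin (k + 1) → ℝ) j => x j ^ 2) '' K))
    (hV : 0 < (volume K).toReal) (i : Fin (k + 1)) {s : ℝ} (hs0 : 0 < s) (hs1 : s < 1) :
    0 < (volume K).toReal⁻¹ * ∫ x in K, x i ^ 2 ∧
    ∫⁻ x in K, ENNReal.ofReal |x i| ^ (-s) ≤ ENNReal.ofReal ((volume K).toReal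
      * ((2 * (k : ℝ) + 3) * ((volume K).toReal⁻¹ * ∫ x in K, x i ^ 2)) ^ (-s / 2)
      * ∏ j ∈ range (k + 1), (2 * (j : ℝ) + 1) / (2 * (j : ℝ) + 1 - s)) := by
  obtain ⟨R0, hR00, hR0⟩ := exists_coord_bound hK
  set V := (volume K).toReal with hVdef
  have hX : 0 < ∫ x in K, x i ^ 2 := by
    have hint : IntegrableOn (fun x : Fin (k + 1) → ℝ => x i ^ 2) K volume :=
      (by fun_prop : Continuous fun x : Fin (k + 1) → ℝ => x i ^ 2).continuousOn.integrableOn_compact hK
    rw [setIntegral_pos_iff_support_of_nonneg_ae (Filter.Eventually.of_forall fun x => sq_nonneg _)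
      hint]
    have hnull : volume {x : Fin (k + 1) → ℝ | x i = 0} = 0 := by
      rw [volume_pi]; exact Measure.pi_hyperplane (fun _ : Fin (k + 1) => (volume : Measure ℝ)) i 0
    have hsub : K ⊆ (Function.support fun x : Fin (k + 1) → ℝ => x i ^ 2) ∩ K ∪ {x | x i = 0} := by
      intro x hx
      by_cases h : x i = 0
      · exact Or.inr h
      · exact Or.inl ⟨by simp [h], hx⟩
    have h := (measure_mono hsub).trans (measure_union_le (μ := volume) _ _)
    rw [hnull, add_zero] at h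
    exact lt_of_lt_of_le (ENNReal.toReal_pos_iff.1 hV).1 h
  have hm : 0 < V⁻¹ * ∫ x in K, x i ^ 2 := mul_pos (inv_pos.2 hV) hX
  refine ⟨hm, ?_⟩
  set R : ℝ := (2 * (k : ℝ) + 3) * (V⁻¹ * ∫ x in K, x i ^ 2) with hR
  have hR' : 0 < R := mul_pos (by positivity) hm
  set M := max R0 (Real.sqrt R) with hMdef
  have hM0 : 0 ≤ M := hR00.trans (le_max_left _ _)
  have hMR : R ≤ M ^ 2 := (Real.sqrt_le_left hM0).1 (le_max_right _ _)
  have hMb : ∀ x ∈ K, ∀ j, |x j| ≤ M := fun x hx j => (hR0 x hx j).trans (le_max_left _ _)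
  set G : ℝ → ℝ := fun v => (volume (slice K i (Real.sqrt v))).toReal with hG
  have hfin : ∀ u, volume (slice K i u) ≠ ⊤ := fun u => (isCompact_slice hK i u).measure_lt_top.ne
  have hGanti : Antitone G := fun a b hab => ENNReal.toReal_mono (hfin _) (measure_mono
    (slice_anti hD (by
      rw [abs_of_nonneg (Real.sqrt_nonneg _), abs_of_nonneg (Real.sqrt_nonneg _)]
      exact Real.sqrt_le_sqrt hab)))
  have hG0 : ∀ v, 0 ≤ G v := fun v => ENNReal.toReal_nonneg
  have hGu : ∀ u : ℝ, 0 < u → ENNReal.ofReal (G (u ^ 2)) = volume (slice K i u) := fun u hu => by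
    simp only [hG, Real.sqrt_sq hu.le, ENNReal.ofReal_toReal (hfin u)]
  have hGzero : ∀ v, M ^ 2 < v → G v = 0 := fun v hv => by
    have : M < |Real.sqrt v| := by
      rw [abs_of_nonneg (Real.sqrt_nonneg _)]
      exact (Real.lt_sqrt hM0).2 hv
    simp [hG, slice_eq_empty (i := i) hMb this]
  have hgen : ∀ (φ : ℝ → ℝ≥0∞) (w : ℝ → ℝ), Measurable φ → (∀ u, φ (-u) = φ u) →
      (∀ u, 0 < u → φ u = ENNReal.ofReal (w u) ∧ 0 ≤ w u) → IntegrableOn w (Set.Ioc 0 M) volume →
      ∫⁻ x in K, φ (x i) = ENNReal.ofReal (2 * ∫ u in Set.Ioc 0 M, w u * G (u ^ 2)) := by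
    intro φ w hφ heven hw hwi
    rw [lintegral_coord_even hK.measurableSet hD i hφ heven, ENNReal.ofReal_mul two_pos.le,
      ENNReal.ofReal_ofNat]
    congr 1
    have hint : Integrable (fun u => w u * G (u ^ 2)) (volume.restrict (Set.Ioc 0 M)) :=
      hwi.mul_bdd (c := G 0) (hGanti.measurable.comp (by fun_prop)).aestronglyMeasurable
        (Filter.Eventually.of_forall fun u => by
          rw [Real.norm_eq_abs, abs_of_nonneg (hG0 _)]; exact hGanti (sq_nonneg u))
    rw [ofReal_integral_eq_lintegral_ofReal hint ((ae_restrict_mem measurableSet_Ioc).mono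
      fun u hu => mul_nonneg (hw u hu.1).2 (hG0 _)), ← lintegral_indicator measurableSet_Ioi,
      ← lintegral_indicator measurableSet_Ioc]
    refine lintegral_congr fun u => ?_
    by_cases hu : 0 < u
    · by_cases huM : u ≤ M
      · simp [hu, huM, ENNReal.ofReal_mul (hw u hu).2, hGu u hu, (hw u hu).1]
      · simp [hu, huM, slice_eq_empty (i := i) hMb (show M < |u| by
          rw [abs_of_pos hu]; exact not_le.1 huM)]
    · simp [hu]
  have hneg : IntegrableOn (fun u : ℝ => u ^ (-s)) (Set.Ioc 0 M) volume :=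
    (intervalIntegral.intervalIntegrable_rpow' (a := 0) (b := M) (by linarith)).1
  have hsqi : IntegrableOn (fun u : ℝ => u ^ 2) (Set.Ioc 0 M) volume :=
    (by fun_prop : Continuous fun u : ℝ => u ^ 2).integrableOn_Ioc
  have hmassG : ∫ u in Set.Ioc 0 M, G (u ^ 2) = V / 2 := by
    have h := hgen (fun _ => 1) (fun _ => 1) measurable_const (fun _ => rfl)
      (fun u _ => ⟨by simp, zero_le_one⟩) (integrable_const _)
    simp only [setLIntegral_const, one_mul] at h
    have h' := congrArg ENNReal.toReal h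
    rw [ENNReal.toReal_ofReal (mul_nonneg two_pos.le (setIntegral_nonneg measurableSet_Ioc
      fun u _ => hG0 _)), ← hVdef] at h'
    linarith
  have hsecG : ∫ u in Set.Ioc 0 M, u ^ 2 * G (u ^ 2) = (∫ x in K, x i ^ 2) / 2 := by
    have h := hgen (fun u => ENNReal.ofReal (u ^ 2)) (fun u => u ^ 2) (by fun_prop)
      (fun u => by rw [neg_sq]) (fun u _ => ⟨rfl, sq_nonneg u⟩) hsqi
    rw [← ofReal_integral_eq_lintegral_ofReal (f := fun x : Fin (k + 1) → ℝ => x i ^ 2)
      ((by fun_prop : Continuous fun x : Fin (k + 1) → ℝ => x i ^ 2).continuousOn.integrableOn_compact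
        hK) (Filter.Eventually.of_forall fun x => sq_nonneg _),
      ENNReal.ofReal_eq_ofReal_iff hX.le (mul_nonneg two_pos.le (setIntegral_nonneg measurableSet_Ioc
        fun u _ => mul_nonneg (sq_nonneg u) (hG0 _)))] at h
    linarith
  have hnegG := hgen (fun u => ENNReal.ofReal |u| ^ (-s)) (fun u => u ^ (-s))
    ((ENNReal.measurable_ofReal.comp measurable_norm).pow_const _) (fun u => by rw [abs_neg])
    (fun u hu => ⟨by rw [abs_of_pos hu, ENNReal.ofReal_rpow_of_pos hu],
      Real.rpow_nonneg hu.le _⟩) hneg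
  rw [hnegG]
  set Pi0 := ∏ j ∈ range (k + 1), ((0 : ℝ) + 1 + 2 * j) with hPi0
  have hPi0' : 0 < Pi0 := prod_pos fun j _ => by positivity
  set Pis := ∏ j ∈ range (k + 1), (-s + 1 + 2 * (j : ℝ)) with hPis
  have hPis' : 0 < Pis := prod_pos fun j _ => by linarith [Nat.cast_nonneg (α := ℝ) j]
  set J0 := betaJ 0 k with hJ0
  have hJ0' : 0 < J0 := by
    rw [hJ0, betaJ_eq k 0 (by norm_num)]; exact div_pos (by positivity) hPi0'
  set sr := Real.sqrt R with hsr
  have hsr0 : 0 < sr := Real.sqrt_pos.2 hR'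
  set c := (V / (2 * sr * J0)) ^ ((k : ℝ)⁻¹) with hc
  have hck : c ^ k = V / (2 * sr * J0) := Real.rpow_inv_natCast_pow (by positivity) hk
  have hc0 : 0 ≤ c := by positivity
  set P : ℝ → ℝ := profile k c R with hP
  have hP0 : ∀ v, 0 ≤ P v := fun v => pow_nonneg (mul_nonneg hc0 (le_max_right _ _)) k
  have hmassP : ∫ u in Set.Ioc 0 M, P (u ^ 2) = V / 2 := by
    have h := integral_rpow_profile hk (c := c) (q := 0) hR' hMR hM0 (by norm_num)
    simp only [Real.rpow_zero, one_mul, zero_add, Real.rpow_one] at h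
    rw [hP, h, hck, ← hsr, ← hJ0]
    field_simp
  have hsecP : ∫ u in Set.Ioc 0 M, u ^ 2 * P (u ^ 2) = (∫ x in K, x i ^ 2) / 2 := by
    have h := integral_rpow_profile hk (c := c) (q := 2) hR' hMR hM0 (by norm_num)
    simp only [Real.rpow_two] at h
    rw [hP, h, hck, ← hsr, Real.rpow_add hsr0, Real.rpow_one, Real.rpow_two, hsr,
      Real.sq_sqrt hR'.le, hJ0, betaJ_eq k 0 (by norm_num), betaJ_eq k 2 (by norm_num),
      prod_shift_two, ← hPi0, hR]
    have : (2 * (k : ℝ) + 3) ≠ 0 := by positivity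
    have : (k.factorial : ℝ) ≠ 0 := by positivity
    field_simp
  have hU : Set.OrdConnected {v | 0 ≤ v ∧ P v < G v} := by
    rw [Set.ordConnected_iff]
    intro a ha b hb _ v hv
    have hv0 : 0 ≤ v := ha.1.trans hv.1
    refine ⟨hv0, ?_⟩
    have hga : 0 < G a := (hP0 a).trans_lt ha.2
    have hgb : 0 < G b := (hP0 b).trans_lt hb.2
    rcases eq_or_lt_of_le hv.1 with h | h1
    · rw [← h]; exact ha.2
    rcases eq_or_lt_of_le hv.2 with h | h2
    · rw [h]; exact hb.2
    set l := (b - v) / (b - a) with hl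
    set μ := (v - a) / (b - a) with hμ
    have hl0 : 0 < l := div_pos (by linarith) (by linarith)
    have hμ0 : 0 < μ := div_pos (by linarith) (by linarith)
    have hba : b - a ≠ 0 := by linarith
    have hlμ : l + μ = 1 := by rw [hl, hμ]; field_simp; ring
    have hlv : l * a + μ * b = v := by rw [hl, hμ]; field_simp; ring
    have hne : ∀ u, 0 < G u → (slice K i (Real.sqrt u)).Nonempty := fun u hu =>
      Set.nonempty_iff_ne_empty.2 fun h => by simp [hG, h] at hu
    have hsl : ∀ u : ℝ, Convex ℝ (slice K i u) := fun u z hz w hw p q hp hq hpq => by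
      have := hconv hz hw hp hq hpq
      show i.insertNth u (p • z + q • w) ∈ K
      convert this using 1
      funext j
      refine Fin.succAboveCases i ?_ (fun t => ?_) j
      · simp [← add_mul, hpq]
      · simp
    have hbm := brunn_minkowski (isCompact_slice hK i (Real.sqrt a))
      (isCompact_slice hK i (Real.sqrt b)) (isCompact_slice hK i (Real.sqrt v)) (hsl _) (hsl _)
      (zero_mem_slice hD (hne a hga)) (zero_mem_slice hD (hne b hgb))
      (a := G a ^ ((k : ℝ)⁻¹)) (b := G b ^ ((k : ℝ)⁻¹)) (Real.rpow_pos_of_pos hga _)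
      (Real.rpow_pos_of_pos hgb _) (Real.rpow_inv_natCast_pow hga.le hk).symm
      (Real.rpow_inv_natCast_pow hgb.le hk).symm hl0.le hμ0.le hlμ (fun z hz w hw => by
        have := slice_combination hD hsq i ha.1 hb.1 hl0.le hμ0.le hlμ hz hw
        rwa [hlv] at this)
    refine lt_of_lt_of_le ?_ hbm
    have hroot : ∀ u, 0 < G u → P u < G u →
        c * max (1 - u / R) 0 < G u ^ ((k : ℝ)⁻¹) := fun u hu hPu => by
      refine lt_of_pow_lt_pow_left₀ k (Real.rpow_nonneg hu.le _) ?_
      rw [Real.rpow_inv_natCast_pow hu.le hk]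
      exact hPu
    simp only [hP, profile]
    refine pow_lt_pow_left₀ ?_ (mul_nonneg hc0 (le_max_right _ _)) hk
    have hmax : max (1 - v / R) 0 ≤ l * max (1 - a / R) 0 + μ * max (1 - b / R) 0 := by
      refine max_le ?_ (add_nonneg (mul_nonneg hl0.le (le_max_right _ _))
        (mul_nonneg hμ0.le (le_max_right _ _)))
      have : 1 - v / R = l * (1 - a / R) + μ * (1 - b / R) := by
        rw [← hlv]; linear_combination -hlμ
      rw [this]
      exact add_le_add (mul_le_mul_of_nonneg_left (le_max_left _ _) hl0.le)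
        (mul_le_mul_of_nonneg_left (le_max_left _ _) hμ0.le)
    calc c * max (1 - v / R) 0 ≤ c * (l * max (1 - a / R) 0 + μ * max (1 - b / R) 0) :=
          mul_le_mul_of_nonneg_left hmax hc0
      _ = l * (c * max (1 - a / R) 0) + μ * (c * max (1 - b / R) 0) := by ring
      _ < _ := add_lt_add (mul_lt_mul_of_pos_left (hroot a hga ha.2) hl0)
          (mul_lt_mul_of_pos_left (hroot b hgb hb.2) hμ0)
  have hUb : BddAbove {v | 0 ≤ v ∧ P v < G v} := ⟨M ^ 2, fun v hv => le_of_not_gt fun h => by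
    linarith [hGzero v h, hP0 v, hv.2]⟩
  have hPb : ∀ v, 0 ≤ v → |P v| ≤ max (G 0) (c ^ k) := fun v hv => by
    rw [abs_of_nonneg (hP0 v)]
    refine (pow_le_pow_left₀ (mul_nonneg hc0 (le_max_right _ _)) ?_ k).trans (le_max_right _ _)
    exact mul_le_of_le_one_right hc0 (max_le (by linarith [div_nonneg hv hR'.le]) zero_le_one)
  have hGb : ∀ v, 0 ≤ v → |G v| ≤ max (G 0) (c ^ k) := fun v hv => by
    rw [abs_of_nonneg (hG0 v)]; exact (hGanti hv).trans (le_max_left _ _)
  have hcr := crossing (M := M) hs0 hs1 hGanti.measurable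
    (by simp only [hP]; unfold profile; fun_prop : Measurable P) hGb hPb hU hUb
    (hmassG.trans hmassP.symm) (hsecG.trans hsecP.symm)
  refine ENNReal.ofReal_le_ofReal ((mul_le_mul_of_nonneg_left hcr two_pos.le).trans (le_of_eq ?_))
  rw [hP, integral_rpow_profile hk hR' hMR hM0 (by linarith), hck, ← hsr, Real.rpow_add hsr0,
    Real.rpow_one, hJ0, betaJ_eq k 0 (by norm_num), betaJ_eq k (-s) (by linarith), ← hPi0, ← hPis,
    Finset.prod_div_distrib]
  have e0 : ∏ j ∈ range (k + 1), (2 * (j : ℝ) + 1) = Pi0 :=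
    prod_congr rfl fun j _ => by ring
  have es : ∏ j ∈ range (k + 1), (2 * (j : ℝ) + 1 - s) = Pis :=
    prod_congr rfl fun j _ => by ring
  have er : sr ^ (-s) = R ^ (-s / 2) := by
    rw [hsr, Real.sqrt_eq_rpow, ← Real.rpow_mul hR'.le]
    ring_nf
  rw [e0, es, er]
  have : (k.factorial : ℝ) ≠ 0 := by positivity
  field_simp

end Vale.Agent.P254
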