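import Mathlib

/-!
The numerical comparison with the simplex, valid in every dimension at least three.
-/

noncomputable section

open Finset Real

namespace Vale.Agent.P254

/-- Sum of the reciprocals of the first `n` odd numbers. -/
def oddHarm (n : ℕ) : ℝ := ∑ j ∈ range n, 1 / (2 * (j : ℝ) + 1)

/-- Logarithm of the ratio between the simplex value and the bound, to the power `2n`. -/
def gap (n : ℕ) : ℝ :=
  2 * n * (1 - oddHarm n + log (2 * (n : ℝ) + 1) / 2 + log 2) + 2 * log n.factorial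
    - ((n : ℝ) + 1) * log ((n : ℝ) + 1) - n * log ((n : ℝ) + 2)

lemma log_one_add_le_pade {t : ℝ} (ht : 0 ≤ t) : log (1 + t) ≤ t * (6 + t) / (6 + 4 * t) := by
  set h : ℝ → ℝ := fun t => t * (6 + t) / (6 + 4 * t) - log (1 + t) with hh
  have hd : ∀ x : ℝ, 0 ≤ x → HasDerivAt h (4 * x ^ 3 / ((6 + 4 * x) ^ 2 * (1 + x))) x := by
    intro x hx
    have h1 := ((hasDerivAt_id x).mul ((hasDerivAt_id x).const_add 6)).div
      (((hasDerivAt_id x).const_mul 4).const_add 6) (show (6 : ℝ) + 4 * x ≠ 0 by positivity)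
    have h2 := ((hasDerivAt_id x).const_add 1).log (show (1 : ℝ) + x ≠ 0 by positivity)
    refine (h1.sub h2).congr_deriv ?_
    simp only [id_eq, Pi.mul_apply]
    field_simp
    ring
  have hmono : MonotoneOn h (Set.Ici 0) := by
    refine monotoneOn_of_hasDerivWithinAt_nonneg (convex_Ici 0)
      (fun x hx => (hd x hx).continuousAt.continuousWithinAt)
      (f' := fun x => 4 * x ^ 3 / ((6 + 4 * x) ^ 2 * (1 + x)))
      (fun x hx => (hd x (interior_subset hx)).hasDerivWithinAt) fun x hx => ?_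
    have : (0 : ℝ) ≤ x := interior_subset hx
    positivity
  have := hmono Set.self_mem_Ici (Set.mem_Ici.2 ht) ht
  simp [hh] at this
  linarith

lemma exp_sixteen_fifths : rexp (16 / 5) < 24.696 := by
  have h3 : rexp 3 ≤ (2.7182818286 : ℝ) ^ 3 := by
    rw [show (3 : ℝ) = ((3 : ℕ) : ℝ) * 1 by norm_num, Real.exp_nat_mul]
    exact pow_le_pow_left₀ (Real.exp_pos 1).le Real.exp_one_lt_d9.le 3
  have h5 : rexp (1 / 5) ≤ 1.2218 := by
    have h := Real.exp_bound' (x := (1 / 5 : ℝ)) (by norm_num) (by norm_num) (n := 3) (by norm_num)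
    refine h.trans ?_
    norm_num [Finset.sum_range_succ, Nat.factorial]
  calc rexp (16 / 5) = rexp 3 * rexp (1 / 5) := by rw [← Real.exp_add]; norm_num
    _ ≤ (2.7182818286 : ℝ) ^ 3 * 1.2218 := mul_le_mul h3 h5 (Real.exp_pos _).le (by norm_num)
    _ < _ := by norm_num

lemma gap_three : 0 < gap 3 := by
  have h := Real.log_lt_log (Real.exp_pos _) exp_sixteen_fifths
  rw [Real.log_exp, show (24.696 : ℝ) = (7 ^ 3 * 2 ^ 6 * 6 ^ 2) / (4 ^ 4 * 5 ^ 3) by norm_num,
    Real.log_div (by norm_num) (by norm_num), Real.log_mul (by norm_num) (by norm_num),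
    Real.log_mul (by norm_num) (by norm_num), Real.log_mul (by norm_num) (by norm_num),
    Real.log_pow, Real.log_pow, Real.log_pow, Real.log_pow, Real.log_pow] at h
  norm_num [gap, oddHarm, Finset.sum_range_succ, Nat.factorial] at h ⊢
  linarith

lemma log_six_lower : (1.786 : ℝ) ≤ log 6 := by
  have h : log 6 = 2 * log 2 + log (1 + 1 / 2) := by
    rw [show (1 : ℝ) + 1 / 2 = 3 / 2 by norm_num, Real.log_div (by norm_num) (by norm_num),
      show (6 : ℝ) = 2 * 3 by norm_num, Real.log_mul (by norm_num) (by norm_num)]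
    ring
  have h2 := Real.le_log_one_add_of_nonneg (show (0 : ℝ) ≤ 1 / 2 by norm_num)
  norm_num at h2 h ⊢
  linarith [Real.log_two_gt_d9]

lemma oddHarm_le {n : ℕ} (hn : 3 ≤ n) : oddHarm n ≤ 0.640334 + log (2 * (n : ℝ)) / 2 := by
  induction n, hn using Nat.le_induction with
  | base =>
    norm_num [oddHarm, Finset.sum_range_succ]
    linarith [log_six_lower]
  | succ n hn ih =>
    have hn0 : (0 : ℝ) < n := by exact_mod_cast (by omega : 0 < n)
    have h := Real.le_log_one_add_of_nonneg (show (0 : ℝ) ≤ 1 / n by positivity)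
    have e : 2 * (1 / (n : ℝ)) / (1 / n + 2) = 2 * (1 / (2 * (n : ℝ) + 1)) := by
      field_simp; ring
    have el : log (2 * ((n : ℝ) + 1)) = log (2 * (n : ℝ)) + log (1 + 1 / n) := by
      rw [← Real.log_mul (by positivity) (by positivity)]
      congr 1
      field_simp
    rw [oddHarm, Finset.sum_range_succ, ← oddHarm]
    push_cast
    rw [e] at h
    rw [el]
    linarith

lemma gap_step {n : ℕ} (hn : 3 ≤ n) : gap n ≤ gap (n + 1) := by
  have hnR : (3 : ℝ) ≤ n := by exact_mod_cast hn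
  have hsucc : oddHarm (n + 1) = oddHarm n + 1 / (2 * (n : ℝ) + 1) := by
    rw [oddHarm, Finset.sum_range_succ, ← oddHarm]
  have hH : oddHarm (n + 1) ≤ 0.640334 + log (2 * (n : ℝ) + 2) / 2 := by
    have := oddHarm_le (n := n + 1) (by omega)
    rwa [show 2 * ((n + 1 : ℕ) : ℝ) = 2 * (n : ℝ) + 2 by push_cast; ring] at this
  set C := 1 - oddHarm (n + 1) + log (2 * (n : ℝ) + 3) / 2 with hC
  have hC1 : 0.359666 + 1 / (4 * (n : ℝ) + 5) ≤ C := by
    have h := Real.le_log_one_add_of_nonneg (show (0 : ℝ) ≤ 1 / (2 * (n : ℝ) + 2) by positivity)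
    have e : 2 * (1 / (2 * (n : ℝ) + 2)) / (1 / (2 * (n : ℝ) + 2) + 2)
        = 2 * (1 / (4 * (n : ℝ) + 5)) := by field_simp; ring
    have el : log (2 * (n : ℝ) + 3)
        = log (2 * (n : ℝ) + 2) + log (1 + 1 / (2 * (n : ℝ) + 2)) := by
      rw [← Real.log_mul (by positivity) (by positivity)]
      congr 1
      field_simp
      ring
    rw [e] at h
    rw [hC, el]
    linarith
  set T := log ((n : ℝ) + 2) - log ((n : ℝ) + 1) with hT
  set W := log ((n : ℝ) + 3) - log ((n : ℝ) + 1) with hW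
  set D := (log (2 * (n : ℝ) + 3) - log (2 * (n : ℝ) + 1)) / 2 - 1 / (2 * (n : ℝ) + 1) with hD
  have hT1 : T ≤ (6 * (n : ℝ) + 7) / (((n : ℝ) + 1) * (6 * n + 10)) := by
    have e : T = log (1 + 1 / ((n : ℝ) + 1)) := by
      rw [hT, ← Real.log_div (by positivity) (by positivity)]
      congr 1
      field_simp
      ring
    rw [e]
    refine (log_one_add_le_pade (by positivity)).trans (le_of_eq ?_)
    field_simp
    ring
  have hW1 : ((n : ℝ) + 1) * W ≤ 2 - 12 / (6 * (n : ℝ) + 14) := by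
    have e : W = log (1 + 2 / ((n : ℝ) + 1)) := by
      rw [hW, ← Real.log_div (by positivity) (by positivity)]
      congr 1
      field_simp
      ring
    rw [e]
    refine (mul_le_mul_of_nonneg_left (log_one_add_le_pade (by positivity)) (by positivity)).trans
      (le_of_eq ?_)
    field_simp
    ring
  have hD1 : -(1 / ((2 * (n : ℝ) + 1) * (2 * n + 2))) ≤ D := by
    have h := Real.le_log_one_add_of_nonneg (show (0 : ℝ) ≤ 2 / (2 * (n : ℝ) + 1) by positivity)
    have el : log (2 * (n : ℝ) + 3) - log (2 * (n : ℝ) + 1)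
        = log (1 + 2 / (2 * (n : ℝ) + 1)) := by
      rw [← Real.log_div (by positivity) (by positivity)]
      congr 1
      field_simp
      ring
    have e : 2 * (2 / (2 * (n : ℝ) + 1)) / (2 / (2 * (n : ℝ) + 1) + 2)
        = 2 * (1 / (2 * (n : ℝ) + 2)) := by field_simp; ring
    have e2 : -(1 / ((2 * (n : ℝ) + 1) * (2 * n + 2)))
        = 1 / (2 * (n : ℝ) + 2) - 1 / (2 * (n : ℝ) + 1) := by field_simp; ring
    rw [e] at h
    rw [hD, el, e2]
    linarith
  have hdiff : gap (n + 1) - gap n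
      = 2 * C + 2 * n * D + 2 * log 2 - 2 * T - ((n : ℝ) + 1) * W := by
    have hf : log ((n + 1).factorial : ℝ) = log ((n : ℝ) + 1) + log (n.factorial : ℝ) := by
      rw [Nat.factorial_succ]; push_cast
      rw [Real.log_mul (by positivity) (by positivity)]
    simp only [gap, hC, hT, hW, hD, hf, hsucc]
    push_cast
    rw [show 2 * ((n : ℝ) + 1) + 1 = 2 * n + 3 by ring, show ((n : ℝ) + 1) + 1 = n + 2 by ring,
      show ((n : ℝ) + 1) + 2 = n + 3 by ring]
    ring
  have hnD : -((n : ℝ) / ((2 * n + 1) * (n + 1))) ≤ 2 * n * D := by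
    refine le_trans (le_of_eq ?_) (mul_le_mul_of_nonneg_left hD1 (by positivity))
    field_simp
  have hrat : 0 ≤ 0.1056 + 2 / (4 * (n : ℝ) + 5) + 12 / (6 * n + 14)
      - 2 * ((6 * n + 7) / ((n + 1) * (6 * n + 10))) - n / ((2 * n + 1) * (n + 1)) := by
    obtain ⟨t, ht, hnt⟩ : ∃ t : ℝ, 0 ≤ t ∧ (n : ℝ) = 3 + t := ⟨n - 3, by linarith, by ring⟩
    rw [hnt]
    field_simp
    ring_nf
    positivity
  have := hdiff
  have he : 2 * C ≥ 0.719332 + 2 / (4 * (n : ℝ) + 5) := by
    rw [show (2 : ℝ) / (4 * n + 5) = 2 * (1 / (4 * (n : ℝ) + 5)) by ring]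
    linarith
  linarith [Real.log_two_gt_d9, hT1, hW1, hnD, hrat]

lemma gap_pos {n : ℕ} (hn : 3 ≤ n) : 0 < gap n := by
  induction n, hn using Nat.le_induction with
  | base => exact gap_three
  | succ n hn ih => linarith [gap_step hn]

end Vale.Agent.P254
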