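import Mathlib
import Vale.Agent.P254.SquareBasic

/-!
A lower bound for the product of the negative absolute moments of the coordinates of a body which
is downward closed.
-/

noncomputable section

open MeasureTheory Set Finset
open scoped ENNReal

namespace Vale.Agent.P254

/-- The absolute value to the power `-s`, with values in the extended nonnegative reals. -/
def negPow (s u : ℝ) : ℝ≥0∞ := ENNReal.ofReal |u| ^ (-s)

lemma measurable_negPow (s : ℝ) : Measurable (negPow s) :=
  (ENNReal.measurable_ofReal.comp measurable_norm).pow_const _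

lemma negPow_neg (s u : ℝ) : negPow s (-u) = negPow s u := by simp [negPow]

lemma negPow_of_pos (s : ℝ) {u : ℝ} (hu : 0 < u) : negPow s u = ENNReal.ofReal (u ^ (-s)) := by
  rw [negPow, abs_of_pos hu, ENNReal.ofReal_rpow_of_pos hu]

/-- The integral of a negative power of the distribution function against the density. -/
lemma lintegral_density_primitive {g : ℝ → ℝ} {R : ℝ} (hR : 0 ≤ R) (hg0 : ∀ u, 0 ≤ g u)
    (hgm : Measurable g) (hg : IntervalIntegrable g volume 0 R) {r : ℝ} (hr1 : r < 1) :
    ∫⁻ u in Set.Ioc 0 R, ENNReal.ofReal (g u) * ENNReal.ofReal ((∫ t in 0..u, g t) ^ (-r))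
      = ENNReal.ofReal ((∫ t in 0..R, g t) ^ (1 - r) / (1 - r)) := by
  set F : ℝ → ℝ := fun u => ∫ t in 0..u, g t with hF
  set Z := F R with hZ
  have hsub : ∀ u ∈ Set.Icc 0 R, IntervalIntegrable g volume 0 u := fun u hu =>
    hg.mono_set (by rw [Set.uIcc_of_le hu.1, Set.uIcc_of_le hR]; exact Set.Icc_subset_Icc_right hu.2)
  have hFc : ContinuousOn F (Set.Icc 0 R) :=
    intervalIntegral.continuousOn_primitive_interval' hg (by simp [hR]) |>.mono
      (by rw [Set.uIcc_of_le hR])
  have hmono : ∀ u ∈ Set.Icc 0 R, ∀ v ∈ Set.Icc 0 R, u ≤ v → F u ≤ F v := by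
    intro u hu v hv huv
    exact intervalIntegral.integral_mono_interval le_rfl hu.1 huv
      (Filter.Eventually.of_forall hg0) (hsub v hv)
  have hFm : AEMeasurable F (volume.restrict (Set.Ioc 0 R)) :=
    (hFc.mono Set.Ioc_subset_Icc_self).aemeasurable measurableSet_Ioc
  set w : ℝ → ℝ≥0∞ := fun u => ENNReal.ofReal (g u) with hw
  set ν := (volume.restrict (Set.Ioc 0 R)).withDensity w with hν
  have hFν : AEMeasurable F ν := hFm.mono' (withDensity_absolutelyContinuous _ _)
  have hmass : ∀ a ∈ Set.Icc 0 R, ν (Set.Ioc 0 a) = ENNReal.ofReal (F a) := by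
    intro a ha
    rw [hν, withDensity_apply _ measurableSet_Ioc, Measure.restrict_restrict measurableSet_Ioc,
      Set.inter_eq_left.2 (Set.Ioc_subset_Ioc_right ha.2)]
    have := (hsub a ha).1
    rw [hF]
    simp only [intervalIntegral.integral_of_le ha.1]
    rw [ofReal_integral_eq_lintegral_ofReal this (Filter.Eventually.of_forall hg0)]
  have hνuniv : ν Set.univ = ENNReal.ofReal Z := by
    rw [← hmass R ⟨hR, le_rfl⟩, hν, withDensity_apply _ MeasurableSet.univ,
      withDensity_apply _ measurableSet_Ioc, Measure.restrict_univ,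
      Measure.restrict_restrict measurableSet_Ioc, Set.inter_self]
  have : IsFiniteMeasure ν := ⟨by rw [hνuniv]; exact ENNReal.ofReal_lt_top⟩
  have : IsFiniteMeasure (ν.map F) := Measure.isFiniteMeasure_map ν F
  have hmap : ν.map F = volume.restrict (Set.Ioc 0 Z) := by
    refine Measure.ext_of_Iic _ _ fun t => ?_
    rw [Measure.map_apply_of_aemeasurable hFν measurableSet_Iic,
      Measure.restrict_apply measurableSet_Iic]
    have hae : ∀ᵐ u ∂ν, u ∈ Set.Ioc 0 R :=
      (withDensity_absolutelyContinuous _ _).ae_le (ae_restrict_mem measurableSet_Ioc)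
    have hF0 : F 0 = 0 := by simp [hF]
    rcases lt_or_ge t 0 with ht | ht
    · have h2 : volume (Set.Iic t ∩ Set.Ioc 0 Z) = 0 := by
        have : Set.Iic t ∩ Set.Ioc 0 Z = ∅ := Set.eq_empty_iff_forall_notMem.2 fun x hx => by
          linarith [Set.mem_Iic.1 hx.1, hx.2.1]
        simp [this]
      rw [h2]
      refine measure_mono_null ?_ (ae_iff.1 hae)
      intro u hu hmem
      have : F u ≤ t := hu
      linarith [hmono 0 ⟨le_rfl, hR⟩ u ⟨hmem.1.le, hmem.2⟩ hmem.1.le]
    rcases le_or_gt Z t with hZt | hZt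
    · have h1 : ν (F ⁻¹' Set.Iic t) = ν Set.univ := by
        refine measure_congr (Filter.eventuallyEq_set.2 (hae.mono fun u hu => ?_))
        simp only [Set.mem_univ, iff_true, Set.mem_preimage, Set.mem_Iic]
        exact (hmono u ⟨hu.1.le, hu.2⟩ R ⟨hR, le_rfl⟩ hu.2).trans hZt
      rw [h1, hνuniv, Set.inter_eq_right.2 (fun x hx => Set.mem_Iic.2 (hx.2.trans hZt)),
        Real.volume_Ioc, sub_zero]
    set S := Set.Icc 0 R ∩ F ⁻¹' Set.Iic t with hS
    have hSc : IsClosed S := hFc.preimage_isClosed_of_isClosed isClosed_Icc isClosed_Iic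
    have hSne : S.Nonempty := ⟨0, ⟨le_rfl, hR⟩, by simpa [hF0] using ht⟩
    have hSb : BddAbove S := ⟨R, fun u hu => hu.1.2⟩
    set a := sSup S with hadef
    have ha : a ∈ S := hSc.csSup_mem hSne hSb
    have hFa : F a = t := by
      refine le_antisymm ha.2 (not_lt.1 fun hlt => ?_)
      obtain ⟨c, hc, hFc'⟩ := intermediate_value_Ioo ha.1.2
        (hFc.mono (Set.Icc_subset_Icc_left ha.1.1)) (show t ∈ Set.Ioo (F a) (F R) from ⟨hlt, hZt⟩)
      have : c ≤ a := le_csSup hSb ⟨⟨ha.1.1.trans hc.1.le, hc.2.le⟩, hFc'.le⟩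
      linarith [hc.1]
    have h1 : ν (F ⁻¹' Set.Iic t) = ν (Set.Ioc 0 a) := by
      refine measure_congr (Filter.eventuallyEq_set.2 (hae.mono fun u hu => ?_))
      simp only [Set.mem_preimage, Set.mem_Iic]
      constructor
      · exact fun h => ⟨hu.1, le_csSup hSb ⟨⟨hu.1.le, hu.2⟩, h⟩⟩
      · exact fun h => (hmono u ⟨hu.1.le, hu.2⟩ a ha.1 h.2).trans ha.2
    have h2 : Set.Iic t ∩ Set.Ioc 0 Z = Set.Ioc 0 t := by
      ext x
      exact ⟨fun h => ⟨h.2.1, h.1⟩, fun h => ⟨h.2, h.1, h.2.trans hZt.le⟩⟩
    rw [h1, hmass a ha.1, hFa, h2, Real.volume_Ioc, sub_zero]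
  have hZ0 : 0 ≤ Z := intervalIntegral.integral_nonneg hR fun u _ => hg0 u
  have hpm : Measurable fun x : ℝ => ENNReal.ofReal (x ^ (-r)) :=
    (measurable_id.pow_const (-r)).ennreal_ofReal
  calc ∫⁻ u in Set.Ioc 0 R, ENNReal.ofReal (g u) * ENNReal.ofReal (F u ^ (-r))
      = ∫⁻ u, ENNReal.ofReal (F u ^ (-r)) ∂ν :=
        (lintegral_withDensity_eq_lintegral_mul₀ hgm.ennreal_ofReal.aemeasurable
          (hpm.comp_aemeasurable hFm)).symm
    _ = ∫⁻ x, ENNReal.ofReal (x ^ (-r)) ∂(ν.map F) :=
        (lintegral_map' hpm.aemeasurable hFν).symm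
    _ = ∫⁻ x in Set.Ioc 0 Z, ENNReal.ofReal (x ^ (-r)) := by rw [hmap]
    _ = ENNReal.ofReal (∫ x in Set.Ioc 0 Z, x ^ (-r)) :=
        (ofReal_integral_eq_lintegral_ofReal
          (intervalIntegral.intervalIntegrable_rpow' (a := 0) (b := Z) (by linarith)).1
          ((ae_restrict_mem measurableSet_Ioc).mono fun x hx => Real.rpow_nonneg hx.1.le _)).symm
    _ = _ := by
        rw [← intervalIntegral.integral_of_le hZ0, integral_rpow (Or.inl (by linarith)),
          Real.zero_rpow (by linarith), sub_zero, neg_add_eq_sub]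

/-- The inductive product inequality for negative absolute moments. -/
lemma prod_negMoment_lower {s : ℝ} (hs0 : 0 < s) (hs1 : s < 1) :
    ∀ {n : ℕ} {K : Set (Fin n → ℝ)}, IsCompact K → IsDownward K → 0 < (volume K).toReal →
      ENNReal.ofReal ((2 * Real.exp 1) ^ ((n : ℝ) * s) * (volume K).toReal ^ ((n : ℝ) - s))
        ≤ ∏ i, ∫⁻ x in K, negPow s (x i) := by
  intro n
  induction n with
  | zero =>
    intro K hK _ hV
    have hu : K = Set.univ := by
      refine Set.eq_univ_of_forall fun x => ?_
      obtain ⟨y, hy⟩ : K.Nonempty := nonempty_of_measure_ne_zero (μ := volume) fun h => by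
        simp [h] at hV
      rwa [Subsingleton.elim x y]
    subst hu
    simp [volume_pi, Measure.pi_empty_univ]
  | succ m ih =>
    intro K hK hD hV
    obtain ⟨R, hR0, hR⟩ := exists_coord_bound hK
    set G : ℝ → ℝ≥0∞ := fun u => volume (slice K 0 u) with hG
    set A : Fin m → ℝ → ℝ≥0∞ := fun j u => ∫⁻ z in slice K 0 u, negPow s (z j) with hA
    set f : Fin (m + 1) → ℝ → ℝ≥0∞ := Fin.cons (fun u => negPow s u * G u) A with hf
    have hKm := hK.measurableSet
    have hGeven : ∀ u, G (-u) = G u := fun u => by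
      simp only [hG]; rw [← slice_abs hD (-u), abs_neg, slice_abs hD u]
    have hAeven : ∀ j u, A j (-u) = A j u := fun j u => by
      simp only [hA]; rw [← slice_abs hD (-u), abs_neg, slice_abs hD u]
    have hGm : Measurable G := by
      convert measurable_lintegral_slice hKm 0 (Φ := fun _ => 1) measurable_const using 1
      funext u
      simp [hG]
    have hAm : ∀ j, Measurable (A j) := fun j => by
      convert measurable_lintegral_slice hKm 0 (Φ := fun x => negPow s (x j.succ))
        ((measurable_negPow s).comp (measurable_pi_apply _)) using 1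
      funext u
      simp [hA]
    have hfm : ∀ i, Measurable (f i) := fun i => by
      refine Fin.cases ?_ (fun j => ?_) i
      · exact (measurable_negPow s).mul hGm
      · exact hAm j
    have hM : ∀ i, 2 * ∫⁻ u in Set.Ioc 0 R, f i u ≤ ∫⁻ x in K, negPow s (x i) := by
      intro i
      have hle : ∀ h : ℝ → ℝ≥0∞, 2 * ∫⁻ u in Set.Ioc 0 R, h u ≤ 2 * ∫⁻ u in Set.Ioi 0, h u :=
        fun h => mul_le_mul' le_rfl (lintegral_mono_set Set.Ioc_subset_Ioi_self)
      refine Fin.cases ?_ (fun j => ?_) i
      · rw [lintegral_coord_even hKm hD 0 (measurable_negPow s) (negPow_neg s)]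
        exact hle _
      · rw [lintegral_slice hKm 0 (Φ := fun x => negPow s (x j.succ))
          ((measurable_negPow s).comp (measurable_pi_apply _))]
        have e : (fun u : ℝ => ∫⁻ z in slice K 0 u,
            negPow s ((Fin.insertNth 0 u z : Fin (m + 1) → ℝ) j.succ)) = A j := by
          funext u; simp [hA]
        rw [e, lintegral_even (hAeven j)]
        exact hle _
    have hGfin : ∀ u, G u ≠ ⊤ := fun u => (isCompact_slice hK 0 u).measure_lt_top.ne
    set g : ℝ → ℝ := fun u => (G u).toReal with hg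
    have hg0 : ∀ u, 0 ≤ g u := fun u => ENNReal.toReal_nonneg
    have hganti : AntitoneOn g (Set.Ici 0) := fun u hu v hv huv => by
      refine ENNReal.toReal_mono (hGfin u) (measure_mono (slice_anti hD ?_))
      rwa [abs_of_nonneg (Set.mem_Ici.1 hu), abs_of_nonneg (Set.mem_Ici.1 hv)]
    have hgint : ∀ u, 0 ≤ u → IntervalIntegrable g volume 0 u := fun u hu =>
      (hganti.mono (by rw [Set.uIcc_of_le hu]; exact Set.Icc_subset_Ici_self)).intervalIntegrable
    set F : ℝ → ℝ := fun u => ∫ t in 0..u, g t with hF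
    have hFg : ∀ u, 0 ≤ u → u * g u ≤ F u := fun u hu => by
      have h := intervalIntegral.integral_mono_on (μ := volume) hu intervalIntegrable_const
        (hgint u hu) (fun t ht => hganti ht.1 hu ht.2)
      simpa [hF] using h
    set Z := F R with hZ
    have hV2 : (volume K).toReal = 2 * Z := by
      have h1 : volume K = 2 * ∫⁻ u in Set.Ioi 0, G u := by
        have := lintegral_coord_even hKm hD 0 (φ := fun _ => 1) measurable_const fun _ => rfl
        simpa [hG] using this
      have h2 : ∫⁻ u in Set.Ioi 0, G u = ∫⁻ u in Set.Ioc 0 R, G u := by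
        rw [← lintegral_indicator measurableSet_Ioi, ← lintegral_indicator measurableSet_Ioc]
        refine lintegral_congr fun u => ?_
        by_cases hu : 0 < u
        · by_cases huR : u ≤ R
          · simp [hu, huR]
          · simp [hu, huR, hG, slice_eq_empty (i := 0) hR (show R < |u| by
              rw [abs_of_pos hu]; exact not_le.1 huR)]
        · simp [hu]
      have h3 : Z = (∫⁻ u in Set.Ioc 0 R, G u).toReal := by
        rw [hZ, hF]
        simp only [intervalIntegral.integral_of_le hR0, hg]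
        exact integral_toReal hGm.aemeasurable
          (Filter.Eventually.of_forall fun u => (hGfin u).lt_top)
      rw [h1, h2, h3, ENNReal.toReal_mul, ENNReal.toReal_ofNat]
    have hZ0 : 0 < Z := by linarith
    set p : ℝ := 1 / ((m : ℝ) + 1) with hp
    have hp0 : 0 < p := by positivity
    have hpm : ((m : ℝ) + 1) * p = 1 := by rw [hp]; field_simp
    set r : ℝ := s * p with hr
    have hr0 : 0 < r := mul_pos hs0 hp0
    have hr1 : r < 1 := by
      have : p ≤ 1 := by rw [hp, div_le_one (by positivity)]; linarith [Nat.cast_nonneg (α := ℝ) m]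
      nlinarith
    set c : ℝ := (2 * Real.exp 1) ^ ((m : ℝ) * s) with hc
    have hc0 : 0 < c := by positivity
    have hpt : ∀ u ∈ Set.Ioc 0 R, ENNReal.ofReal (c ^ p)
        * (ENNReal.ofReal (g u) * ENNReal.ofReal (F u ^ (-r))) ≤ ∏ i, f i u ^ p := by
      intro u hu
      rcases eq_or_lt_of_le (hg0 u) with h | h
      · simp [← h]
      rw [ENNReal.prod_rpow_of_nonneg hp0.le, Fin.prod_univ_succ]
      have hfu : f 0 u = ENNReal.ofReal (u ^ (-s) * g u) := by
        simp only [hf, Fin.cons_zero, negPow_of_pos s hu.1, hg]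
        rw [ENNReal.ofReal_mul (Real.rpow_nonneg hu.1.le _), ENNReal.ofReal_toReal (hGfin u)]
      have hprod : ENNReal.ofReal (c * g u ^ ((m : ℝ) - s)) ≤ ∏ j : Fin m, f j.succ u :=
        ih (isCompact_slice hK 0 u) (isDownward_slice hD u) h
      have hpos : 0 ≤ u ^ (-s) * g u := mul_nonneg (Real.rpow_nonneg hu.1.le _) h.le
      refine le_trans ?_ (ENNReal.rpow_le_rpow (mul_le_mul' hfu.ge hprod) hp0.le)
      rw [← ENNReal.ofReal_mul hpos, ENNReal.ofReal_rpow_of_nonneg (by positivity) hp0.le,
        ← ENNReal.ofReal_mul (hg0 u), ← ENNReal.ofReal_mul (by positivity)]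
      refine ENNReal.ofReal_le_ofReal ?_
      have hug : 0 < u * g u := mul_pos hu.1 h
      have hdec : F u ^ (-r) ≤ (u * g u) ^ (-r) :=
        Real.rpow_le_rpow_of_nonpos hug (hFg u hu.1.le) (by linarith)
      refine (mul_le_mul_of_nonneg_left (mul_le_mul_of_nonneg_left hdec h.le)
        (Real.rpow_nonneg hc0.le p)).trans (le_of_eq ?_)
      rw [Real.mul_rpow hpos (by positivity), Real.mul_rpow (Real.rpow_nonneg hu.1.le _) h.le,
        Real.mul_rpow hc0.le (Real.rpow_nonneg h.le _), ← Real.rpow_mul hu.1.le,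
        ← Real.rpow_mul h.le, Real.mul_rpow hu.1.le h.le, show -s * p = -r by rw [hr]; ring]
      have e : g u * g u ^ (-r) = g u ^ p * g u ^ (((m : ℝ) - s) * p) := by
        rw [← Real.rpow_add h, show p + ((m : ℝ) - s) * p = 1 + -r by
          rw [hr]; linear_combination hpm, Real.rpow_add h, Real.rpow_one]
      linear_combination c ^ p * u ^ (-r) * e
    have hhol := ENNReal.lintegral_prod_norm_pow_le (μ := volume.restrict (Set.Ioc 0 R))
      Finset.univ (f := f) (fun i _ => (hfm i).aemeasurable) (p := fun _ => p)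
      (by simp only [Finset.sum_const, Finset.card_univ, Fintype.card_fin, nsmul_eq_mul]
          push_cast; exact hpm)
      (fun _ _ => hp0.le)
    have hlow : ENNReal.ofReal (c ^ p) * ENNReal.ofReal (Z ^ (1 - r) / (1 - r))
        ≤ (∏ i, ∫⁻ u in Set.Ioc 0 R, f i u) ^ p := by
      rw [← ENNReal.prod_rpow_of_nonneg hp0.le]
      refine le_trans ?_ hhol
      rw [← lintegral_density_primitive hR0 hg0 hGm.ennreal_toReal (hgint R hR0) hr1,
        ← lintegral_const_mul' _ _ ENNReal.ofReal_ne_top]
      exact setLIntegral_mono' measurableSet_Ioc hpt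
    have hbase : 0 ≤ c ^ p * (Z ^ (1 - r) / (1 - r)) :=
      mul_nonneg (by positivity) (div_nonneg (by positivity) (by linarith))
    rw [← ENNReal.ofReal_mul (by positivity)] at hlow
    have hlow' := pow_le_pow_left₀ zero_le hlow (m + 1)
    rw [← ENNReal.ofReal_pow hbase,
      ← ENNReal.rpow_natCast ((∏ i, ∫⁻ u in Set.Ioc 0 R, f i u) ^ p), ← ENNReal.rpow_mul,
      show p * ((m + 1 : ℕ) : ℝ) = 1 by push_cast; linarith, ENNReal.rpow_one] at hlow'
    calc ENNReal.ofReal ((2 * Real.exp 1) ^ (((m + 1 : ℕ) : ℝ) * s)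
          * (volume K).toReal ^ (((m + 1 : ℕ) : ℝ) - s))
        ≤ ENNReal.ofReal ((2 * (c ^ p * (Z ^ (1 - r) / (1 - r)))) ^ (m + 1)) := by
          refine ENNReal.ofReal_le_ofReal ?_
          have hkey : (2 * Real.exp 1) ^ r * (2 * Z) ^ (1 - r) ≤ 2 * (Z ^ (1 - r) / (1 - r)) := by
            have he : Real.exp r ≤ 1 / (1 - r) := by
              rw [le_div_iff₀ (by linarith)]
              have h1 := Real.add_one_le_exp (-r)
              have h2 := mul_le_mul_of_nonneg_left h1 (Real.exp_pos r).le
              rw [← Real.exp_add, add_neg_cancel, Real.exp_zero] at h2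
              linarith
            rw [Real.mul_rpow two_pos.le (Real.exp_pos 1).le, Real.exp_one_rpow,
              Real.mul_rpow two_pos.le hZ0.le]
            calc 2 ^ r * Real.exp r * (2 ^ (1 - r) * Z ^ (1 - r))
                = 2 * Z ^ (1 - r) * Real.exp r := by
                  have : (2 : ℝ) ^ r * 2 ^ (1 - r) = 2 := by
                    rw [← Real.rpow_add two_pos, add_sub_cancel, Real.rpow_one]
                  linear_combination (Real.exp r * Z ^ (1 - r)) * this
              _ ≤ 2 * Z ^ (1 - r) * (1 / (1 - r)) :=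
                  mul_le_mul_of_nonneg_left he (by positivity)
              _ = _ := by ring
          refine le_trans (le_of_eq ?_) (pow_le_pow_left₀ (by positivity)
            (mul_le_mul_of_nonneg_left hkey (Real.rpow_nonneg hc0.le p) |>.trans_eq
              (by ring : c ^ p * (2 * (Z ^ (1 - r) / (1 - r)))
                = 2 * (c ^ p * (Z ^ (1 - r) / (1 - r))))) (m + 1))
          have hB : 0 < 2 * Real.exp 1 := by positivity
          rw [← hV2, hc]
          generalize 2 * Real.exp 1 = B at hB ⊢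
          rw [← Real.rpow_mul hB.le, ← mul_assoc, ← Real.rpow_add hB, ← Real.rpow_natCast,
            Real.mul_rpow (by positivity) (by positivity), ← Real.rpow_mul hB.le,
            ← Real.rpow_mul hV.le]
          congr 2 <;> rw [hr] <;> push_cast
          · linear_combination (-((m : ℝ) + 1) * s) * hpm
          · linear_combination s * hpm
      _ = 2 ^ (m + 1) * ENNReal.ofReal ((c ^ p * (Z ^ (1 - r) / (1 - r))) ^ (m + 1)) := by
          rw [mul_pow, ENNReal.ofReal_mul (by positivity), ENNReal.ofReal_pow two_pos.le,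
            ENNReal.ofReal_ofNat]
      _ ≤ 2 ^ (m + 1) * ∏ i, ∫⁻ u in Set.Ioc 0 R, f i u := mul_le_mul' le_rfl hlow'
      _ = ∏ i, 2 * ∫⁻ u in Set.Ioc 0 R, f i u := by
          rw [Finset.prod_mul_distrib, Finset.prod_const, Finset.card_univ, Fintype.card_fin]
      _ ≤ _ := Finset.prod_le_prod' fun i _ => hM i

end Vale.Agent.P254
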