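import Mathlib
import Vale.Agent.P254.Defs
import Vale.Agent.P254.Tail
import Vale.Agent.P254.Simplex
import Vale.Agent.P254.Main
import Vale.Agent.P254.SquareProduct
import Vale.Agent.P254.SquareMoment
import Vale.Agent.P254.SquareNumeric

/-!
The isotropic constant of unconditional bodies with convex image under coordinatewise squaring is
below that of the simplex.
-/

noncomputable section

open MeasureTheory Set Finset Matrix
open scoped BigOperators ENNReal Nat Topology

namespace Vale.Agent.P254

lemma simplex_base (n : ℕ) :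
    (covMatrix (stdSimplexBody n)).det / (volume (stdSimplexBody n)).toReal ^ 2
      = (1 / (((n : ℝ) + 1) * ((n : ℝ) + 2))) ^ n / ((n : ℝ) + 1) * (n ! : ℝ) ^ 2 := by
  obtain ⟨hcov, hvol⟩ := covMatrix_stdSimplexBody n
  set α : ℝ := 1 / (((n : ℝ) + 1) * ((n : ℝ) + 2)) with hα
  have h : covMatrix (stdSimplexBody n) = α • (1 + Matrix.replicateCol Unit
      (fun _ : Fin n => -(1 / ((n : ℝ) + 1))) * Matrix.replicateRow Unit fun _ : Fin n => (1 : ℝ)) := by
    rw [hcov]
    ext i j
    simp only [Matrix.of_apply, Matrix.smul_apply, Matrix.add_apply, Matrix.mul_apply,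
      Matrix.replicateCol_apply, Matrix.replicateRow_apply, Finset.univ_unique,
      Finset.sum_singleton, smul_eq_mul, Matrix.one_apply]
    rw [hα]
    split <;> field_simp <;> ring
  rw [hvol, h, Matrix.det_smul, Matrix.det_one_add_replicateCol_mul_replicateRow]
  simp [dotProduct]
  field_simp
  simp

lemma isoConst_square_convex_lt {n : ℕ} (hn : 3 ≤ n) {K : Set (Fin n → ℝ)} (hK : IsCompact K)
    (hconv : Convex ℝ K) (hV : 0 < (volume K).toReal)
    (hsign : ∀ x ∈ K, ∀ y, (∀ i, y i = x i ∨ y i = -x i) → y ∈ K)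
    (hsq : Convex ℝ ((fun (x : Fin n → ℝ) j => x j ^ 2) '' K)) :
    isoConst K < isoConst (stdSimplexBody n) := by
  obtain ⟨k, rfl⟩ : ∃ k, n = k + 1 := ⟨n - 1, by omega⟩
  have hk : k ≠ 0 := by omega
  have hD := isDownward_of_unconditional hconv hsign
  set V := (volume K).toReal with hVdef
  set m : Fin (k + 1) → ℝ := fun i => V⁻¹ * ∫ x in K, x i ^ 2 with hm
  have hmpos : ∀ i, 0 < m i := fun i =>
    (coord_negMoment_le hk hK hconv hD hsq hV i (s := 1 / 2) (by norm_num) (by norm_num)).1
  set Hs : ℝ → ℝ := fun s => ∑ j ∈ range (k + 1), 1 / (2 * (j : ℝ) + 1 - s) with hHs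
  set L := ∑ i, Real.log (m i) with hL
  have key : ∀ s : ℝ, 0 < s → s < 1 → L - 2 * Real.log V
      ≤ 2 * ((k : ℝ) + 1) * (Hs s - 1 - Real.log 2)
        - ((k : ℝ) + 1) * Real.log (2 * (k : ℝ) + 3) := by
    intro s hs0 hs1
    set Q := ∏ j ∈ range (k + 1), (2 * (j : ℝ) + 1) / (2 * (j : ℝ) + 1 - s) with hQ
    have hden : ∀ j : ℕ, 0 < 2 * (j : ℝ) + 1 - s := fun j => by
      linarith [Nat.cast_nonneg (α := ℝ) j]
    have hQ0 : 0 < Q := prod_pos fun j _ => div_pos (by positivity) (hden j)
    have hlogQ : Real.log Q ≤ s * Hs s := by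
      rw [hQ, Real.log_prod fun j _ => (div_pos (by positivity) (hden j)).ne', hHs, Finset.mul_sum]
      refine sum_le_sum fun j _ => ?_
      refine (Real.log_le_sub_one_of_pos (div_pos (by positivity) (hden j))).trans (le_of_eq ?_)
      have := (hden j).ne'
      field_simp
      ring
    have hb : ∀ i, ∫⁻ x in K, negPow s (x i)
        ≤ ENNReal.ofReal (V * ((2 * (k : ℝ) + 3) * m i) ^ (-s / 2) * Q) := fun i =>
      (coord_negMoment_le hk hK hconv hD hsq hV i hs0 hs1).2
    have hterm : ∀ i, 0 < V * ((2 * (k : ℝ) + 3) * m i) ^ (-s / 2) * Q := fun i =>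
      mul_pos (mul_pos hV (Real.rpow_pos_of_pos (mul_pos (by positivity) (hmpos i)) _)) hQ0
    have h := (prod_negMoment_lower hs0 hs1 hK hD hV).trans
      (Finset.prod_le_prod' fun i _ => hb i)
    rw [← ENNReal.ofReal_prod_of_nonneg fun i _ => (hterm i).le,
      ENNReal.ofReal_le_ofReal_iff (prod_nonneg fun i _ => (hterm i).le), ← hVdef] at h
    have hlog := Real.log_le_log (mul_pos (Real.rpow_pos_of_pos (by positivity) _)
      (Real.rpow_pos_of_pos hV _)) h
    have e : ∀ i, Real.log (V * ((2 * (k : ℝ) + 3) * m i) ^ (-s / 2) * Q)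
        = Real.log V + -s / 2 * (Real.log (2 * (k : ℝ) + 3) + Real.log (m i)) + Real.log Q := by
      intro i
      have hp : 0 < (2 * (k : ℝ) + 3) * m i := mul_pos (by positivity) (hmpos i)
      rw [Real.log_mul (mul_pos hV (Real.rpow_pos_of_pos hp _)).ne' hQ0.ne',
        Real.log_mul hV.ne' (Real.rpow_pos_of_pos hp _).ne', Real.log_rpow hp,
        Real.log_mul (by positivity) (hmpos i).ne']
    rw [Real.log_mul (Real.rpow_pos_of_pos (by positivity) _).ne'
        (Real.rpow_pos_of_pos hV _).ne', Real.log_rpow (by positivity), Real.log_rpow hV,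
      Real.log_mul two_ne_zero (Real.exp_pos 1).ne', Real.log_exp,
      Real.log_prod fun i _ => (hterm i).ne'] at hlog
    simp only [e, Finset.sum_add_distrib, Finset.sum_const, Finset.card_univ, Fintype.card_fin,
      nsmul_eq_mul, ← Finset.mul_sum, ← hL] at hlog
    push_cast at hlog
    have hk1 : (0 : ℝ) < k + 1 := by positivity
    refine le_of_mul_le_mul_left ?_ (show (0 : ℝ) < s / 2 by positivity)
    nlinarith [mul_le_mul_of_nonneg_left hlogQ hk1.le]
  have hH : Filter.Tendsto Hs (𝓝[>] 0) (𝓝 (oddHarm (k + 1))) := by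
    have hc : ContinuousAt Hs 0 := by
      refine tendsto_finsetSum _ fun j _ => ?_
      exact ContinuousAt.div continuousAt_const (by fun_prop) (by
        simp only [sub_zero]; positivity)
    have := hc.tendsto.mono_left (nhdsWithin_le_nhds (s := Set.Ioi (0 : ℝ)))
    simpa [hHs, oddHarm] using this
  have hbound : L - 2 * Real.log V ≤ 2 * ((k : ℝ) + 1) * (oddHarm (k + 1) - 1 - Real.log 2)
      - ((k : ℝ) + 1) * Real.log (2 * (k : ℝ) + 3) := by
    refine ge_of_tendsto (((((hH.sub_const 1).sub_const (Real.log 2)).const_mul _).sub_const _)) ?_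
    filter_upwards [self_mem_nhdsWithin,
      mem_nhdsWithin_of_mem_nhds (Iio_mem_nhds zero_lt_one)] with s hs hs'
    exact key s hs hs'
  have hdet : (covMatrix K).det = ∏ i, m i := by
    rw [covMatrix_unconditional hsign, Matrix.det_diagonal]
  have hdetpos : 0 < ∏ i, m i := prod_pos fun i _ => hmpos i
  have hg := gap_pos hn
  have hbase : (covMatrix K).det / V ^ 2
      < (covMatrix (stdSimplexBody (k + 1))).det
        / (volume (stdSimplexBody (k + 1))).toReal ^ 2 := by
    rw [simplex_base, hdet, ← Real.log_lt_log_iff (by positivity) (by positivity),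
      Real.log_div hdetpos.ne' (by positivity), Real.log_prod fun i _ => (hmpos i).ne',
      Real.log_mul (by positivity) (by positivity), Real.log_div (by positivity) (by positivity),
      Real.log_pow, Real.log_pow, Real.log_pow, one_div, Real.log_inv,
      Real.log_mul (by positivity) (by positivity)]
    simp only [gap] at hg
    push_cast at hg hbound ⊢
    rw [show (2 * ((k : ℝ) + 1) + 1) = 2 * k + 3 by ring] at hg
    linarith
  rw [isoConst, isoConst]
  refine Real.rpow_lt_rpow ?_ hbase (by positivity)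
  rw [hdet]; positivity

end Vale.Agent.P254
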