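import Mathlib
import Vale.Agent.P254.UncondMoment

/-!
Berwald's comparison of the first two absolute moments of a coordinate of a downward closed
convex body.
-/

noncomputable section

open MeasureTheory Set Finset
open scoped ENNReal Nat

namespace Vale.Agent.P254

lemma prod_shift_factorial (q : ℕ) : ∀ k : ℕ,
    ∏ j ∈ range (k + 1), ((q : ℝ) + 1 + j) = ((k + 1 + q) ! : ℝ) / (q ! : ℝ) := by
  intro k
  induction k with
  | zero =>
    rw [zero_add, prod_range_one, Nat.cast_zero, add_zero, add_comm 1 q, Nat.factorial_succ]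
    push_cast
    field_simp
  | succ k ih =>
    rw [prod_range_succ, ih, show k + 1 + 1 + q = (k + 1 + q) + 1 by ring, Nat.factorial_succ]
    push_cast
    field_simp
    ring

lemma moment_linProfile {k : ℕ} (hk : k ≠ 0) {c r M : ℝ} (hr0 : 0 < r) (hrM : r ≤ M) (q : ℕ) :
    ∫ x in Set.Ioc 0 M, x ^ q * (c * max (1 - x / r) 0) ^ k
      = c ^ k * r ^ (q + 1) * ((k ! : ℝ) * (q ! : ℝ) / ((k + 1 + q) ! : ℝ)) := by
  have h := integral_rpow_linProfile hk (c := c) (q := (q : ℝ)) hr0 hrM
    (by linarith [Nat.cast_nonneg (α := ℝ) q])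
  have e : ∀ x ∈ Set.Ioc (0 : ℝ) M, x ^ (q : ℝ) * linProfile k c r (x ^ 2)
      = x ^ q * (c * max (1 - x / r) 0) ^ k := fun x hx => by
    rw [Real.rpow_natCast, linProfile, Real.sqrt_sq hx.1.le]
  rw [setIntegral_congr_fun measurableSet_Ioc e] at h
  rw [h, betaL_eq k q (by linarith [Nat.cast_nonneg (α := ℝ) q]), prod_shift_factorial q k,
    ← Nat.cast_add_one, Real.rpow_natCast, div_div_eq_mul_div]
  ring

variable {k : ℕ} {K : Set (Fin (k + 1) → ℝ)}

lemma slice_convex (hconv : Convex ℝ K) (i : Fin (k + 1)) (u : ℝ) : Convex ℝ (slice K i u) := by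
  intro z hz w hw p q hp hq hpq
  have e : p • i.insertNth u z + q • i.insertNth u w = i.insertNth u (p • z + q • w) := by
    funext j
    refine Fin.succAboveCases i ?_ (fun t => ?_) j
    · simp [← add_mul, hpq]
    · simp
  show i.insertNth u (p • z + q • w) ∈ K
  exact e ▸ hconv hz hw hp hq hpq

lemma slice_linProfile_lt (hk : k ≠ 0) (hK : IsCompact K) (hconv : Convex ℝ K) (hD : IsDownward K)
    (i : Fin (k + 1)) {c r a b v : ℝ} (hc : 0 ≤ c) (hav : a < v) (hvb : v < b)
    (hA : (c * max (1 - a / r) 0) ^ k < (volume (slice K i a)).toReal)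
    (hB : (c * max (1 - b / r) 0) ^ k < (volume (slice K i b)).toReal) :
    (c * max (1 - v / r) 0) ^ k < (volume (slice K i v)).toReal := by
  have hga : 0 < (volume (slice K i a)).toReal :=
    (pow_nonneg (mul_nonneg hc (le_max_right _ _)) k).trans_lt hA
  have hgb : 0 < (volume (slice K i b)).toReal :=
    (pow_nonneg (mul_nonneg hc (le_max_right _ _)) k).trans_lt hB
  set l := (b - v) / (b - a) with hl
  set μ := (v - a) / (b - a) with hμ
  have hl0 : 0 < l := div_pos (by linarith) (by linarith)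
  have hμ0 : 0 < μ := div_pos (by linarith) (by linarith)
  have hba : b - a ≠ 0 := by linarith
  have hlμ : l + μ = 1 := by rw [hl, hμ]; field_simp; ring
  have hlv : l * a + μ * b = v := by rw [hl, hμ]; field_simp; ring
  have hne : ∀ u, 0 < (volume (slice K i u)).toReal → (slice K i u).Nonempty := fun u hu =>
    Set.nonempty_iff_ne_empty.2 fun h => by simp [h] at hu
  have hbm := brunn_minkowski (isCompact_slice hK i a) (isCompact_slice hK i b)
    (isCompact_slice hK i v) (slice_convex hconv i a) (slice_convex hconv i b)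
    (zero_mem_slice hD (hne a hga)) (zero_mem_slice hD (hne b hgb))
    (a := (volume (slice K i a)).toReal ^ ((k : ℝ)⁻¹))
    (b := (volume (slice K i b)).toReal ^ ((k : ℝ)⁻¹)) (Real.rpow_pos_of_pos hga _)
    (Real.rpow_pos_of_pos hgb _) (Real.rpow_inv_natCast_pow hga.le hk).symm
    (Real.rpow_inv_natCast_pow hgb.le hk).symm hl0.le hμ0.le hlμ (fun z hz w hw => by
      have e : l • i.insertNth a z + μ • i.insertNth b w = i.insertNth v (l • z + μ • w) := by
        funext j
        refine Fin.succAboveCases i ?_ (fun t => ?_) j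
        · simp [hlv]
        · simp
      show i.insertNth v (l • z + μ • w) ∈ K
      exact e ▸ hconv hz hw hl0.le hμ0.le hlμ)
  refine lt_of_lt_of_le ?_ hbm
  have hroot : ∀ u, 0 < (volume (slice K i u)).toReal →
      (c * max (1 - u / r) 0) ^ k < (volume (slice K i u)).toReal →
      c * max (1 - u / r) 0 < (volume (slice K i u)).toReal ^ ((k : ℝ)⁻¹) := fun u hu hPu => by
    refine lt_of_pow_lt_pow_left₀ k (Real.rpow_nonneg hu.le _) ?_
    rw [Real.rpow_inv_natCast_pow hu.le hk]
    exact hPu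
  refine pow_lt_pow_left₀ ?_ (mul_nonneg hc (le_max_right _ _)) hk
  have hmax : max (1 - v / r) 0 ≤ l * max (1 - a / r) 0 + μ * max (1 - b / r) 0 := by
    refine max_le ?_ (add_nonneg (mul_nonneg hl0.le (le_max_right _ _))
      (mul_nonneg hμ0.le (le_max_right _ _)))
    have : 1 - v / r = l * (1 - a / r) + μ * (1 - b / r) := by
      rw [← hlv]; linear_combination -hlμ
    rw [this]
    exact add_le_add (mul_le_mul_of_nonneg_left (le_max_left _ _) hl0.le)
      (mul_le_mul_of_nonneg_left (le_max_left _ _) hμ0.le)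
  calc c * max (1 - v / r) 0 ≤ c * (l * max (1 - a / r) 0 + μ * max (1 - b / r) 0) :=
        mul_le_mul_of_nonneg_left hmax hc
    _ = l * (c * max (1 - a / r) 0) + μ * (c * max (1 - b / r) 0) := by ring
    _ < _ := add_lt_add (mul_lt_mul_of_pos_left (hroot a hga hA) hl0)
        (mul_lt_mul_of_pos_left (hroot b hgb hB) hμ0)

/-- Functions crossing twice with equal mass and first moment compare in the second moment. -/
lemma second_moment_crossing {μ : Measure ℝ} {G P : ℝ → ℝ} {U : Set ℝ} (hU : U.OrdConnected)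
    (hUb : BddAbove U) (hUb' : BddBelow U) (hS : ∀ᵐ x ∂μ, x ∈ U ∨ G x ≤ P x)
    (hin : ∀ x ∈ U, P x ≤ G x)
    (hG : ∀ q : ℕ, q ≤ 2 → Integrable (fun x => x ^ q * G x) μ)
    (hP : ∀ q : ℕ, q ≤ 2 → Integrable (fun x => x ^ q * P x) μ)
    (h0 : ∫ x, G x ∂μ = ∫ x, P x ∂μ) (h1 : ∫ x, x * G x ∂μ = ∫ x, x * P x ∂μ) :
    ∫ x, x ^ 2 * G x ∂μ ≤ ∫ x, x ^ 2 * P x ∂μ := by
  obtain ⟨p, q, hpq, hUsub, hmid⟩ : ∃ p q : ℝ, p ≤ q ∧ U ⊆ Set.Icc p q ∧ Set.Ioo p q ⊆ U := by
    rcases U.eq_empty_or_nonempty with h | h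
    · exact ⟨0, 0, le_rfl, by simp [h], by simp⟩
    · refine ⟨sInf U, sSup U, csInf_le_csSup h hUb' hUb,
        fun x hx => ⟨csInf_le hUb' hx, le_csSup hUb hx⟩, fun x hx => ?_⟩
      obtain ⟨a, ha, hax⟩ := exists_lt_of_csInf_lt h hx.1
      obtain ⟨b, hb, hxb⟩ := exists_lt_of_lt_csSup h hx.2
      exact hU.out ha hb ⟨hax.le, hxb.le⟩
  have hpt : ∀ᵐ x ∂μ, (x - p) * (x - q) * (G x - P x) ≤ 0 := by
    filter_upwards [hS] with x hx
    by_cases hxU : x ∈ U
    · obtain ⟨h1, h2⟩ := hUsub hxU
      exact mul_nonpos_iff.2 (Or.inr ⟨mul_nonpos_iff.2 (Or.inl ⟨by linarith, by linarith⟩),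
        by linarith [hin x hxU]⟩)
    · have hle := hx.resolve_left hxU
      refine mul_nonpos_iff.2 (Or.inl ⟨?_, by linarith⟩)
      rcases le_or_gt x p with h | h
      · nlinarith
      · rcases lt_or_ge x q with h' | h'
        · exact absurd (hmid ⟨h, h'⟩) hxU
        · nlinarith
  have iG1 : Integrable (fun x => x * G x) μ := by simpa using hG 1 one_le_two
  have iP1 : Integrable (fun x => x * P x) μ := by simpa using hP 1 one_le_two
  have iG0 : Integrable G μ := by simpa using hG 0 (by norm_num)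
  have iP0 : Integrable P μ := by simpa using hP 0 (by norm_num)
  have iG2 := hG 2 le_rfl
  have iP2 := hP 2 le_rfl
  have key := integral_nonpos_of_ae hpt
  have e : ∀ x, (x - p) * (x - q) * (G x - P x) = (x ^ 2 * G x - x ^ 2 * P x)
      - (p + q) * (x * G x - x * P x) + p * q * (G x - P x) := fun x => by ring
  simp only [e] at key
  rw [integral_add (f := fun x => x ^ 2 * G x - x ^ 2 * P x - (p + q) * (x * G x - x * P x))
      (g := fun x => p * q * (G x - P x))
      ((iG2.sub iP2).sub ((iG1.sub iP1).const_mul _)) ((iG0.sub iP0).const_mul _),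
    integral_sub (f := fun x => x ^ 2 * G x - x ^ 2 * P x)
      (g := fun x => (p + q) * (x * G x - x * P x)) (iG2.sub iP2)
      ((iG1.sub iP1).const_mul _), integral_sub iG2 iP2, integral_const_mul, integral_const_mul,
    integral_sub iG1 iP1, integral_sub iG0 iP0, h0, h1] at key
  linarith

/-- Berwald's inequality between the second and the first absolute moment of a coordinate. -/
lemma coord_sq_le_abs_sq (hk : k ≠ 0) (hK : IsCompact K) (hconv : Convex ℝ K) (hD : IsDownward K)
    (hV : 0 < (volume K).toReal) (i : Fin (k + 1)) :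
    (volume K).toReal * ∫ x in K, x i ^ 2
      ≤ 2 * ((k : ℝ) + 2) / ((k : ℝ) + 3) * (∫ x in K, |x i|) ^ 2 := by
  obtain ⟨R0, hR00, hR0⟩ := exists_coord_bound hK
  set V := (volume K).toReal with hVdef
  set B := (∫ x in K, |x i|) / 2 with hBdef
  set G : ℝ → ℝ := fun u => (volume (slice K i (max u 0))).toReal with hG
  have hfin : ∀ u, volume (slice K i u) ≠ ⊤ := fun u => (isCompact_slice hK i u).measure_lt_top.ne
  have hGanti : Antitone G := fun a b hab => ENNReal.toReal_mono (hfin _) (measure_mono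
    (slice_anti hD (by
      rw [abs_of_nonneg (le_max_right _ _), abs_of_nonneg (le_max_right _ _)]
      exact max_le_max hab le_rfl)))
  have hG0 : ∀ v, 0 ≤ G v := fun v => ENNReal.toReal_nonneg
  have hGu : ∀ u : ℝ, 0 ≤ u → G u = (volume (slice K i u)).toReal := fun u hu => by
    simp only [hG, max_eq_left hu]
  have hgen : ∀ (M : ℝ), R0 ≤ M → ∀ q : ℕ,
      ∫⁻ x in K, ENNReal.ofReal (|x i| ^ q)
        = ENNReal.ofReal (2 * ∫ u in Set.Ioc 0 M, u ^ q * G u) := by
    intro M hM q
    rw [lintegral_coord_even hK.measurableSet hD i (show Measurable fun u : ℝ => ENNReal.ofReal (|u| ^ q) by fun_prop) (fun u => by rw [abs_neg]), ENNReal.ofReal_mul two_pos.le, ENNReal.ofReal_ofNat]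
    congr 1
    have hint : Integrable (fun u => u ^ q * G u) (volume.restrict (Set.Ioc 0 M)) :=
      ((by fun_prop : Continuous fun u : ℝ => u ^ q).integrableOn_Ioc).mul_bdd (c := G 0)
        hGanti.measurable.aestronglyMeasurable ((ae_restrict_mem measurableSet_Ioc).mono fun u hu => by
          rw [Real.norm_eq_abs, abs_of_nonneg (hG0 _)]; exact hGanti hu.1.le)
    rw [ofReal_integral_eq_lintegral_ofReal hint ((ae_restrict_mem measurableSet_Ioc).mono
      fun u hu => mul_nonneg (pow_nonneg hu.1.le q) (hG0 _)), ← lintegral_indicator measurableSet_Ioi,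
      ← lintegral_indicator measurableSet_Ioc]
    refine lintegral_congr fun u => ?_
    by_cases hu : 0 < u
    · by_cases huM : u ≤ M
      · simp [hu, huM, ENNReal.ofReal_mul (pow_nonneg hu.le q), hGu u hu.le, abs_of_pos hu,
          ENNReal.ofReal_toReal (hfin u)]
        rw [ENNReal.ofReal_pow hu.le]
      · simp [hu, huM, slice_eq_empty (i := i) hR0 (show R0 < |u| by
          rw [abs_of_pos hu]; exact hM.trans_lt (not_le.1 huM))]
    · simp [hu]
  have hmom : ∀ (M : ℝ), R0 ≤ M → ∀ q : ℕ,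
      ∫ x in K, |x i| ^ q = 2 * ∫ u in Set.Ioc 0 M, u ^ q * G u := by
    intro M hM q
    have h := hgen M hM q
    rw [← ofReal_integral_eq_lintegral_ofReal (f := fun x : Fin (k + 1) → ℝ => |x i| ^ q)
      ((by fun_prop : Continuous fun x : Fin (k + 1) → ℝ => |x i| ^ q).continuousOn.integrableOn_compact
        hK) (Filter.Eventually.of_forall fun x => pow_nonneg (abs_nonneg _) q),
      ENNReal.ofReal_eq_ofReal_iff (integral_nonneg fun x => pow_nonneg (abs_nonneg _) q)
        (mul_nonneg two_pos.le (setIntegral_nonneg measurableSet_Ioc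
          fun u hu => mul_nonneg (pow_nonneg hu.1.le q) (hG0 _)))] at h
    exact h
  have hB : 0 < B := by
    refine div_pos ?_ two_pos
    rw [setIntegral_pos_iff_support_of_nonneg_ae (Filter.Eventually.of_forall fun x => abs_nonneg _)
      ((continuous_apply i).abs.continuousOn.integrableOn_compact hK)]
    have hnull : volume {x : Fin (k + 1) → ℝ | x i = 0} = 0 := by
      rw [volume_pi]; exact Measure.pi_hyperplane (fun _ : Fin (k + 1) => (volume : Measure ℝ)) i 0
    have hsub : K ⊆ (Function.support fun x : Fin (k + 1) → ℝ => |x i|) ∩ K ∪ {x | x i = 0} := by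
      intro x hx
      by_cases h : x i = 0
      · exact Or.inr h
      · exact Or.inl ⟨by simp [h], hx⟩
    have h := (measure_mono hsub).trans (measure_union_le (μ := volume) _ _)
    rw [hnull, add_zero] at h
    exact lt_of_lt_of_le (ENNReal.toReal_pos_iff.1 hV).1 h
  set r := ((k : ℝ) + 2) * B / (V / 2) with hr
  have hr0 : 0 < r := by positivity
  set M := max R0 r with hM
  have hMR : R0 ≤ M := le_max_left _ _
  set c := ((k : ℝ) + 1) * (V / 2) / r with hc
  have hcpos : 0 < c := by positivity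
  set c' := c ^ ((k : ℝ)⁻¹) with hc'
  have hck : c' ^ k = c := Real.rpow_inv_natCast_pow hcpos.le hk
  have hc'0 : 0 ≤ c' := Real.rpow_nonneg hcpos.le _
  set P : ℝ → ℝ := fun u => (c' * max (1 - u / r) 0) ^ k with hP
  have hPm : ∀ q : ℕ, ∫ u in Set.Ioc 0 M, u ^ q * P u
      = c * r ^ (q + 1) * ((k ! : ℝ) * (q ! : ℝ) / ((k + 1 + q) ! : ℝ)) := fun q => by
    rw [← hck]; exact moment_linProfile hk hr0 (le_max_right _ _) q
  have hm0 : ∫ u in Set.Ioc 0 M, G u = ∫ u in Set.Ioc 0 M, P u := by
    have h1 := hmom M hMR 0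
    have h2 := hPm 0
    simp only [pow_zero, one_mul, setIntegral_const, Measure.real, smul_eq_mul, mul_one,
      ← hVdef] at h1
    simp only [pow_zero, one_mul, zero_add, pow_one, Nat.factorial_zero, Nat.cast_one,
      mul_one, Nat.add_zero, Nat.factorial_succ] at h2
    rw [h2, hc]
    push_cast
    field_simp
    linarith
  have hm1 : ∫ u in Set.Ioc 0 M, u * G u = ∫ u in Set.Ioc 0 M, u * P u := by
    have h1 := hmom M hMR 1
    have h2 := hPm 1
    simp only [pow_one] at h1 h2
    have h3 : ∫ u in Set.Ioc 0 M, u * G u = B := by rw [hBdef]; linarith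
    rw [h3, h2, hc, hr, Nat.factorial_succ (k + 1), Nat.factorial_succ k, Nat.factorial_one]
    have : (k ! : ℝ) ≠ 0 := by positivity
    push_cast
    field_simp
    ring
  have hU : Set.OrdConnected {u | 0 ≤ u ∧ P u < G u} := by
    rw [Set.ordConnected_iff]
    intro a ha b hb _ v hv
    have hv0 : 0 ≤ v := ha.1.trans hv.1
    refine ⟨hv0, ?_⟩
    rcases eq_or_lt_of_le hv.1 with h | h1
    · rw [← h]; exact ha.2
    rcases eq_or_lt_of_le hv.2 with h | h2
    · rw [h]; exact hb.2
    have hA := ha.2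
    have hB' := hb.2
    rw [hGu a ha.1] at hA
    rw [hGu b hb.1] at hB'
    rw [hGu v hv0]
    exact slice_linProfile_lt hk hK hconv hD i hc'0 h1 h2 hA hB'
  have hUb : BddAbove {u | 0 ≤ u ∧ P u < G u} := ⟨R0, fun u hu => le_of_not_gt fun h => by
    have e : G u = 0 := by
      rw [hGu u hu.1, slice_eq_empty (i := i) hR0 (by rwa [abs_of_nonneg hu.1])]
      simp
    linarith [pow_nonneg (mul_nonneg hc'0 (le_max_right (1 - u / r) 0)) k, hu.2]⟩
  have hint : ∀ {H : ℝ → ℝ} {b : ℝ}, Measurable H → (∀ u, 0 < u → |H u| ≤ b) → ∀ q : ℕ,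
      Integrable (fun u => u ^ q * H u) (volume.restrict (Set.Ioc 0 M)) := fun hH hb q =>
    ((by fun_prop : Continuous fun u : ℝ => u ^ q).integrableOn_Ioc).mul_bdd
      hH.aestronglyMeasurable ((ae_restrict_mem measurableSet_Ioc).mono fun u hu => by
        rw [Real.norm_eq_abs]; exact hb u hu.1)
  have key := second_moment_crossing (μ := volume.restrict (Set.Ioc 0 M)) (G := G) (P := P) hU hUb
    ⟨0, fun u hu => hu.1⟩ ((ae_restrict_mem measurableSet_Ioc).mono fun u hu => by
      by_cases h : P u < G u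
      · exact Or.inl ⟨hu.1.le, h⟩
      · exact Or.inr (not_lt.1 h)) (fun u hu => hu.2.le)
    (fun q _ => hint hGanti.measurable (fun u hu => by
      rw [abs_of_nonneg (hG0 _)]; exact hGanti hu.le) q)
    (fun q _ => hint (by fun_prop) (fun u hu => by
      rw [abs_of_nonneg (pow_nonneg (mul_nonneg hc'0 (le_max_right _ _)) k)]
      refine pow_le_pow_left₀ (mul_nonneg hc'0 (le_max_right _ _))
        (mul_le_of_le_one_right hc'0 (max_le ?_ zero_le_one)) k
      linarith [div_nonneg hu.le hr0.le]) q) hm0 hm1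
  rw [hPm 2] at key
  have h2 := hmom M hMR 2
  simp only [sq_abs] at h2
  have e2 : c * r ^ (2 + 1) * ((k ! : ℝ) * (2 ! : ℝ) / ((k + 1 + 2) ! : ℝ))
      = 4 * B ^ 2 * ((k : ℝ) + 2) / (V * ((k : ℝ) + 3)) := by
    rw [hc, hr, Nat.factorial_succ (k + 2), Nat.factorial_succ (k + 1), Nat.factorial_succ k,
      Nat.factorial_two]
    have : (k ! : ℝ) ≠ 0 := by positivity
    push_cast
    field_simp
    ring
  rw [e2] at key
  rw [h2]
  refine (mul_le_mul_of_nonneg_left (mul_le_mul_of_nonneg_left key two_pos.le) hV.le).trans_eq ?_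
  rw [hBdef]
  field_simp
  ring

end Vale.Agent.P254
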