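import Mathlib
import Vale.Agent.P254.Defs

/-!
Partially symmetric sets and Steiner symmetrisation in one coordinate.
-/

noncomputable section

open MeasureTheory Function

namespace Vale.Agent.P254

variable {n : ℕ}

/-- Invariance under all sign changes of the coordinates outside `S`. -/
def PartialSymm (S : Finset (Fin n)) (K : Set (Fin n → ℝ)) : Prop :=
  ∀ x ∈ K, ∀ y : Fin n → ℝ, (∀ i ∈ S, y i = x i) → (∀ i, i ∉ S → y i = x i ∨ y i = -x i) → y ∈ K

/-- Steiner symmetrisation in the coordinate `a`, for convex sets. -/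
def steiner (a : Fin n) (K : Set (Fin n → ℝ)) : Set (Fin n → ℝ) :=
  {x | ∃ t : ℝ, update x a (t + x a) ∈ K ∧ update x a (t - x a) ∈ K}

/-- Pin: the properties of the symmetrisation that are used. -/
def SteinerProps : Prop :=
  ∀ (n : ℕ) (S : Finset (Fin n)) (a : Fin n) (K : Set (Fin n → ℝ)), IsCompact K → Convex ℝ K →
    PartialSymm S K →
    IsCompact (steiner a K) ∧ Convex ℝ (steiner a K) ∧ PartialSymm (S.erase a) (steiner a K) ∧
      ∀ f : (Fin n → ℝ) → ℝ, Continuous f → (∀ x u, f (update x a u) = f x) →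
        ∫ x in steiner a K, f x = ∫ x in K, f x

end Vale.Agent.P254
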