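import Mathlib
import Vale.Agent.P254.Berwald
import Vale.Agent.P254.SquareMain
import Vale.Agent.P254.Affine
import Vale.Agent.P254.CT.Defs

/-!
From the centroid-box theorem to the strong isotropic constant inequality for unconditional bodies
in every dimension at least two.
-/

noncomputable section

open MeasureTheory Set Finset Matrix
open scoped ENNReal Nat Topology

namespace Vale.Agent.P254

variable {n : ℕ} {K : Set (Fin n → ℝ)}

lemma interior_nonempty_of_volume_pos (hK : IsCompact K) (hconv : Convex ℝ K)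
    (hV : 0 < (volume K).toReal) : (interior K).Nonempty := by
  by_contra h
  rw [Set.not_nonempty_iff_eq_empty] at h
  have h0 := hconv.addHaar_frontier (volume : Measure (Fin n → ℝ))
  rw [frontier, hK.isClosed.closure_eq, h, Set.sdiff_empty] at h0
  simp [h0] at hV

lemma nhds_zero_of_unconditional (hconv : Convex ℝ K) (hint : (interior K).Nonempty)
    (hsign : ∀ x ∈ K, ∀ y, (∀ i, y i = x i ∨ y i = -x i) → y ∈ K) : K ∈ 𝓝 (0 : Fin n → ℝ) := by
  obtain ⟨p, hp⟩ := hint
  have hneg : -K ⊆ K := fun x hx => by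
    simpa using hsign _ (Set.mem_neg.1 hx) x fun i => Or.inr (by simp)
  have hq : -p ∈ interior K := by
    refine interior_maximal (s := K) (t := -interior K) ?_ isOpen_interior.neg (by simpa using hp)
    exact (Set.neg_subset_neg.2 interior_subset).trans hneg
  have h := hconv.interior hp hq (show (0 : ℝ) ≤ 1 / 2 by norm_num)
    (show (0 : ℝ) ≤ 1 / 2 by norm_num) (by norm_num)
  rw [smul_neg, add_neg_cancel] at h
  exact mem_interior_iff_mem_nhds.1 h

lemma isGauge_gauge (hK : IsCompact K) (hconv : Convex ℝ K) (h0 : K ∈ 𝓝 (0 : Fin n → ℝ))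
    (hD : IsDownward K) : CT.IsGauge (gauge K) := by
  have habs : Absorbent ℝ K := absorbent_nhds_zero h0
  have hb : Bornology.IsVonNBounded ℝ K := (NormedSpace.isVonNBounded_iff ℝ).2 hK.isBounded
  refine ⟨fun x _ r hr => gauge_smul_of_nonneg hr x, fun x _ y _ => gauge_add_le hconv habs x y,
    fun x hx y _ hxy => ?_, fun i => (gauge_pos habs hb).2 ?_⟩
  · rcases eq_or_ne y 0 with rfl | hy0
    · rw [le_antisymm hxy hx]
    set t := gauge K y with ht
    have ht0 : 0 < t := (gauge_pos habs hb).2 hy0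
    have hmem : t⁻¹ • y ∈ K := by
      rw [← hK.isClosed.closure_eq, ← gauge_le_one_iff_mem_closure hconv h0,
        gauge_smul_of_nonneg (inv_nonneg.2 ht0.le), smul_eq_mul, ← ht, inv_mul_cancel₀ ht0.ne']
    have hmem' : t⁻¹ • x ∈ K := hD _ hmem _ fun j => by
      simp only [Pi.smul_apply, smul_eq_mul, abs_mul]
      exact mul_le_mul_of_nonneg_left (by
        rw [abs_of_nonneg (hx j), abs_of_nonneg ((hx j).trans (hxy j))]; exact hxy j) (abs_nonneg _)
    have h := gauge_le_one_of_mem hmem'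
    rwa [gauge_smul_of_nonneg (inv_nonneg.2 ht0.le), smul_eq_mul, inv_mul_le_iff₀ ht0, mul_one] at h
  · intro h
    simpa [CT.unit] using congr_fun h i

lemma body_gauge (hK : IsCompact K) (hconv : Convex ℝ K) (h0 : K ∈ 𝓝 (0 : Fin n → ℝ)) :
    CT.body (gauge K) = K ∩ CT.orth n := by
  ext x
  simp only [CT.body, Set.mem_ofPred_eq, Set.mem_inter_iff,
    gauge_le_one_iff_mem_closure hconv h0, hK.isClosed.closure_eq]
  exact and_comm

lemma setIntegral_orthant (hK : IsCompact K)
    (hsign : ∀ x ∈ K, ∀ y, (∀ i, y i = x i ∨ y i = -x i) → y ∈ K) {f : (Fin n → ℝ) → ℝ}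
    (hf : Continuous f) (hflip : ∀ i x, f (flip i x) = f x) :
    ∀ T : Finset (Fin n),
      (2 : ℝ) ^ T.card * ∫ x in K ∩ {x | ∀ i ∈ T, 0 ≤ x i}, f x = ∫ x in K, f x := by
  intro T
  induction T using Finset.induction_on with
  | empty => simp
  | insert a T ha ih =>
    rw [← ih, Finset.card_insert_of_notMem ha, pow_succ, mul_assoc]
    congr 1
    set S := K ∩ {x : Fin n → ℝ | ∀ i ∈ T, 0 ≤ x i} with hS
    have hSm : MeasurableSet S := by
      refine hK.measurableSet.inter ?_
      rw [show {x : Fin n → ℝ | ∀ i ∈ T, 0 ≤ x i} = ⋂ i ∈ T, {x | 0 ≤ x i} by ext x; simp]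
      exact T.measurableSet_biInter fun i _ => measurableSet_halfspace i 0
    have hi : IntegrableOn f S volume :=
      (hf.continuousOn.integrableOn_compact hK).mono_set Set.inter_subset_left
    have hset : K ∩ {x | ∀ i ∈ insert a T, 0 ≤ x i} = S ∩ {x | 0 ≤ x a} := by
      ext x
      simp only [hS, Set.mem_inter_iff, Set.mem_ofPred_eq, Finset.forall_mem_insert]
      tauto
    rw [hset, ← integral_inter_add_sdiff (measurableSet_halfspace a 0) hi, two_mul]
    congr 1
    have hpre : flip a ⁻¹' (S ∩ {x | 0 ≤ x a}) = S ∩ {x | x a ≤ 0} := by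
      ext x
      simp only [hS, Set.mem_preimage, Set.mem_inter_iff, Set.mem_ofPred_eq, flip_mem_iff hsign]
      have e : ∀ i ∈ T, flip a x i = x i := fun i hi => by
        simp [flip, show i ≠ a from fun h => ha (h ▸ hi)]
      simp only [flip, if_true, Left.nonneg_neg_iff]
      exact and_congr_left' (and_congr_right fun _ =>
        forall₂_congr fun i hi => by simp [show i ≠ a from fun h => ha (h ▸ hi)])
    have h2 := (measurePreserving_flip a).setIntegral_preimage_emb (measurableEmbedding_flip a) f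
      (S ∩ {x | 0 ≤ x a})
    simp only [hflip, hpre] at h2
    rw [← h2]
    refine setIntegral_congr_set (ae_eq_set.2 ⟨?_, ?_⟩)
    · have hnull : volume {x : Fin n → ℝ | x a = 0} = 0 := by
        rw [volume_pi]; exact Measure.pi_hyperplane (fun _ : Fin n => (volume : Measure ℝ)) a 0
      refine measure_mono_null (fun x hx => ?_) hnull
      have h1 : x a ≤ 0 := hx.1.2
      by_contra h3
      exact hx.2 ⟨hx.1.1, fun h4 => h3 (le_antisymm h1 h4)⟩
    · refine measure_mono_null (fun x hx => ?_) measure_empty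
      exact hx.2 ⟨hx.1.1, show x a ≤ 0 from le_of_lt (lt_of_not_ge hx.1.2)⟩

lemma abs_moment_prod_le (hT : CT.CentroidBox) (hK : IsCompact K) (hconv : Convex ℝ K)
    (hV : 0 < (volume K).toReal)
    (hsign : ∀ x ∈ K, ∀ y, (∀ i, y i = x i ∨ y i = -x i) → y ∈ K) :
    (4 : ℝ) ^ n * ∏ i, ∫ x in K, |x i| ≤ (volume K).toReal ^ (n + 1) := by
  have h0 := nhds_zero_of_unconditional hconv (interior_nonempty_of_volume_pos hK hconv hV) hsign
  have h := hT n (gauge K)
    (isGauge_gauge hK hconv h0 (isDownward_of_unconditional hconv hsign))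
  have horth : K ∩ CT.orth n = K ∩ {x | ∀ i ∈ (Finset.univ : Finset (Fin n)), 0 ≤ x i} := by
    simp [CT.orth]
  have hvol : (2 : ℝ) ^ n * CT.vol (gauge K) = (volume K).toReal := by
    have := setIntegral_orthant hK hsign (f := fun _ => (1 : ℝ)) continuous_const (fun _ _ => rfl)
      Finset.univ
    rw [Finset.card_univ, Fintype.card_fin] at this
    simpa [CT.vol, body_gauge hK hconv h0, horth, Measure.real] using this
  have hmom : ∀ i, (2 : ℝ) ^ n * CT.mom (gauge K) i = ∫ x in K, |x i| := fun i => by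
    have := setIntegral_orthant hK hsign (f := fun x => |x i|) (continuous_apply i).abs
      (fun j x => by by_cases hj : i = j <;> simp [flip, hj]) Finset.univ
    rw [Finset.card_univ, Fintype.card_fin] at this
    rw [← this, CT.mom, body_gauge hK hconv h0, horth]
    congr 1
    refine setIntegral_congr_fun (hK.measurableSet.inter ?_) fun x hx => (abs_of_nonneg
      (hx.2 i (Finset.mem_univ i))).symm
    rw [show {x : Fin n → ℝ | ∀ i ∈ (Finset.univ : Finset (Fin n)), 0 ≤ x i}
      = ⋂ i, {x | 0 ≤ x i} by ext x; simp]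
    exact MeasurableSet.iInter fun i => measurableSet_halfspace i 0
  simp only [← hmom, ← hvol, Finset.prod_mul_distrib, Finset.prod_const, Finset.card_univ,
    Fintype.card_fin] at h ⊢
  calc (4 : ℝ) ^ n * (((2 : ℝ) ^ n) ^ n * ∏ i, CT.mom (gauge K) i)
      = ((2 : ℝ) ^ n) ^ (n + 1) * ((2 : ℝ) ^ n * ∏ i, CT.mom (gauge K) i) := by
        rw [show (4 : ℝ) = 2 * 2 by norm_num, mul_pow, pow_succ]; ring
    _ ≤ ((2 : ℝ) ^ n) ^ (n + 1) * CT.vol (gauge K) ^ (n + 1) :=
        mul_le_mul_of_nonneg_left h (by positivity)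
    _ = _ := by rw [mul_pow]

lemma det_div_sq_le (hT : CT.CentroidBox) (hn : 2 ≤ n) (hK : IsCompact K) (hconv : Convex ℝ K)
    (hV : 0 < (volume K).toReal)
    (hsign : ∀ x ∈ K, ∀ y, (∀ i, y i = x i ∨ y i = -x i) → y ∈ K) :
    0 ≤ (covMatrix K).det / (volume K).toReal ^ 2 ∧
      (covMatrix K).det / (volume K).toReal ^ 2
        ≤ (((n : ℝ) + 1) / (8 * ((n : ℝ) + 2))) ^ n := by
  have hmix := abs_moment_prod_le hT hK hconv hV hsign
  obtain ⟨k, rfl⟩ : ∃ k, n = k + 1 := ⟨n - 1, by omega⟩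
  have hk : k ≠ 0 := by omega
  set V := (volume K).toReal with hVdef
  obtain ⟨ρ, hρ⟩ : ∃ ρ : ℝ, ρ = 2 * ((k : ℝ) + 2) / ((k : ℝ) + 3) := ⟨_, rfl⟩
  have hρ0 : 0 ≤ ρ := by rw [hρ]; positivity
  set A : Fin (k + 1) → ℝ := fun i => ∫ x in K, |x i| with hA
  have hB : ∀ i, V⁻¹ * ∫ x in K, x i ^ 2 ≤ ρ * A i ^ 2 / V ^ 2 := fun i => by
    have h := coord_sq_le_abs_sq hk hK hconv (isDownward_of_unconditional hconv hsign) hV i
    rw [← hρ] at h
    rw [le_div_iff₀ (by positivity)]
    calc V⁻¹ * (∫ x in K, x i ^ 2) * V ^ 2 = V * ∫ x in K, x i ^ 2 := by field_simp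
      _ ≤ _ := h
  have hm0 : ∀ i, 0 ≤ V⁻¹ * ∫ x in K, x i ^ 2 := fun i =>
    mul_nonneg (inv_nonneg.2 hV.le) (integral_nonneg fun x => sq_nonneg _)
  have hA0 : ∀ i, 0 ≤ A i := fun i => integral_nonneg fun x => abs_nonneg _
  rw [covMatrix_unconditional hsign, Matrix.det_diagonal, ← hVdef]
  refine ⟨div_nonneg (prod_nonneg fun i _ => hm0 i) (sq_nonneg _), ?_⟩
  refine (div_le_div_of_nonneg_right (prod_le_prod (fun i _ => hm0 i) fun i _ => hB i)
    (sq_nonneg V)).trans ?_
  have hsq : ((4 : ℝ) ^ (k + 1)) ^ 2 * (∏ i, A i) ^ 2 ≤ (V ^ (k + 1 + 1)) ^ 2 := by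
    rw [← mul_pow]
    exact pow_le_pow_left₀ (mul_nonneg (by positivity) (prod_nonneg fun i _ => hA0 i)) hmix 2
  have e : ((((k + 1 : ℕ) : ℝ) + 1) / (8 * (((k + 1 : ℕ) : ℝ) + 2))) = ρ / 4 ^ 2 := by
    rw [hρ]; push_cast; field_simp; ring
  simp only [e, Finset.prod_div_distrib, Finset.prod_mul_distrib, Finset.prod_const,
    Finset.card_univ, Fintype.card_fin, Finset.prod_pow]
  rw [div_pow, ← pow_mul, mul_comm 2 (k + 1), pow_mul]
  rw [div_div, div_le_div_iff₀ (by positivity) (by positivity)]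
  rw [← pow_mul (4 : ℝ) 2 (k + 1), mul_comm 2 (k + 1), pow_mul (4 : ℝ) (k + 1) 2]
  calc ρ ^ (k + 1) * (∏ i, A i) ^ 2 * ((4 : ℝ) ^ (k + 1)) ^ 2
      = ρ ^ (k + 1) * (((4 : ℝ) ^ (k + 1)) ^ 2 * (∏ i, A i) ^ 2) := by ring
    _ ≤ ρ ^ (k + 1) * (V ^ (k + 1 + 1)) ^ 2 := mul_le_mul_of_nonneg_left hsq (by positivity)
    _ = _ := by ring

lemma factorial_sq_gt : ∀ n : ℕ, 2 ≤ n → ((n : ℝ) + 1) ^ (2 * n + 1) < 8 ^ n * (n ! : ℝ) ^ 2 := by
  intro n hn
  induction n, hn using Nat.le_induction with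
  | base => norm_num
  | succ m hm ih =>
    set M : ℝ := (m : ℝ) + 1 with hM
    have hM3 : (3 : ℝ) ≤ M := by
      have : (2 : ℝ) ≤ m := by exact_mod_cast hm
      linarith
    have hstep : (1 + 1 / M) ^ (2 * m + 3) ≤ 8 := by
      rw [← Real.log_le_log_iff (by positivity) (by norm_num), Real.log_pow,
        show (8 : ℝ) = 2 ^ 3 by norm_num, Real.log_pow]
      have h := log_one_add_le_pade (t := 1 / M) (by positivity)
      have e : (1 / M) * (6 + 1 / M) / (6 + 4 * (1 / M)) = (6 * M + 1) / (M * (6 * M + 4)) := by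
        field_simp
      rw [e] at h
      have hl := Real.log_two_gt_d9
      refine (mul_le_mul_of_nonneg_left h (Nat.cast_nonneg _)).trans ?_
      rw [mul_div_assoc', div_le_iff₀ (by positivity)]
      push_cast
      have : (m : ℝ) = M - 1 := by rw [hM]; ring
      rw [this]
      nlinarith [mul_le_mul_of_nonneg_right hl.le (show 0 ≤ 3 * (M * (6 * M + 4)) by positivity)]
    push_cast [Nat.factorial_succ]
    calc ((m : ℝ) + 1 + 1) ^ (2 * (m + 1) + 1) = M ^ (2 * m + 3) * (1 + 1 / M) ^ (2 * m + 3) := by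
          rw [← mul_pow, show 2 * (m + 1) + 1 = 2 * m + 3 by ring]
          congr 1
          rw [hM]; field_simp
      _ ≤ M ^ (2 * m + 3) * 8 := mul_le_mul_of_nonneg_left hstep (by positivity)
      _ = 8 * M ^ 2 * M ^ (2 * m + 1) := by ring
      _ < 8 * M ^ 2 * (8 ^ m * (m ! : ℝ) ^ 2) := mul_lt_mul_of_pos_left ih (by positivity)
      _ = _ := by rw [hM]; ring

lemma strong_unconditional_of_box (hT : CT.CentroidBox) (hn : 2 ≤ n) (hK : IsCompact K)
    (hconv : Convex ℝ K) (hV : 0 < (volume K).toReal)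
    (hsign : ∀ x ∈ K, ∀ y, (∀ i, y i = x i ∨ y i = -x i) → y ∈ K) :
    isoConst K ≤ Real.sqrt 2 / 4 ∧ isoConst K < isoConst (stdSimplexBody n) := by
  obtain ⟨h0, hle⟩ := det_div_sq_le hT hn hK hconv hV hsign
  have hn0 : (0 : ℝ) < n := by exact_mod_cast (show 0 < n by omega)
  refine ⟨?_, ?_⟩
  · have h8 : ((n : ℝ) + 1) / (8 * ((n : ℝ) + 2)) ≤ (Real.sqrt 2 / 4) ^ 2 := by
      rw [div_pow, Real.sq_sqrt two_pos.le, div_le_iff₀ (by positivity)]
      linarith
    rw [isoConst]
    calc ((covMatrix K).det / (volume K).toReal ^ 2) ^ ((1 : ℝ) / (2 * n))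
        ≤ (((Real.sqrt 2 / 4) ^ 2) ^ n) ^ ((1 : ℝ) / (2 * n)) :=
          Real.rpow_le_rpow h0 (hle.trans (pow_le_pow_left₀ (by positivity) h8 n)) (by positivity)
      _ = Real.sqrt 2 / 4 := by
          rw [← pow_mul, ← Real.rpow_natCast, ← Real.rpow_mul (by positivity)]
          push_cast
          rw [mul_one_div, div_self (by positivity), Real.rpow_one]
  · rw [isoConst, isoConst]
    refine Real.rpow_lt_rpow h0 (hle.trans_lt ?_) (by positivity)
    rw [simplex_base, _root_.one_div_pow, div_pow, mul_pow, mul_pow, div_div, one_div, inv_mul_eq_div,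
      div_lt_div_iff₀ (by positivity) (by positivity)]
    have h := mul_lt_mul_of_pos_right (factorial_sq_gt n hn)
      (show (0 : ℝ) < ((n : ℝ) + 2) ^ n by positivity)
    calc ((n : ℝ) + 1) ^ n * (((n : ℝ) + 1) ^ n * ((n : ℝ) + 2) ^ n * ((n : ℝ) + 1))
        = ((n : ℝ) + 1) ^ (2 * n + 1) * ((n : ℝ) + 2) ^ n := by ring
      _ < _ := h
      _ = _ := by ring

/-- Every affine image of an unconditional convex body satisfies the strong isotropic constant
inequality, given the centroid-box theorem. -/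
theorem unconditional_strong_of_box (hT : CT.CentroidBox) : ∀ n : ℕ, 2 ≤ n →
    ∀ K : Set (Fin n → ℝ), IsCompact K → Convex ℝ K → (interior K).Nonempty →
    ∀ A : (Fin n → ℝ) ≃ᵃ[ℝ] (Fin n → ℝ),
      (∀ x ∈ A '' K, ∀ y : Fin n → ℝ, (∀ i, y i = x i ∨ y i = -x i) → y ∈ A '' K) →
      isoConst K ≤ Real.sqrt 2 / 4 ∧
        ∀ B : (Fin n → ℝ) ≃ᵃ[ℝ] (Fin n → ℝ), isoConst K < isoConst (B '' stdSimplexBody n) := by
  intro n hn K hK hconv hint A hsign
  have hV : 0 < (volume K).toReal :=
    ENNReal.toReal_pos (lt_of_lt_of_le (isOpen_interior.measure_pos volume hint)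
      (measure_mono interior_subset)).ne' hK.measure_lt_top.ne
  have hV' : 0 < (volume (A '' K)).toReal := by
    rw [volume_affine_image A hK.measurableSet]
    exact mul_pos (abs_pos.2 (det_linear_ne_zero A)) hV
  have h := strong_unconditional_of_box hT hn
    (hK.image A.toAffineMap.continuous_of_finiteDimensional)
    (hconv.affine_image A.toAffineMap) hV' hsign
  simp only [AffineEquiv.coe_toAffineMap] at h
  rw [isoConst_affine A hK hV] at h
  refine ⟨h.1, fun B => ?_⟩
  have hS : IsCompact (stdSimplexBody n) := by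
    rw [stdSimplexBody_eq]; exact solidSimplex_compact n 1
  have hSV : 0 < (volume (stdSimplexBody n)).toReal := by
    rw [(covMatrix_stdSimplexBody n).2]; positivity
  rw [isoConst_affine B hS hSV]
  exact h.2

end Vale.Agent.P254
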