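import Mathlib
import Vale.Agent.P254.StrongUncond
import Vale.Agent.P254.PartialSymDefs

/-!
The strong isotropic constant inequality for bodies that are symmetric with respect to all but few
coordinate hyperplanes, from the centroid-box theorem and Steiner symmetrisation.
-/

noncomputable section

open MeasureTheory Set Finset Matrix Function
open scoped BigOperators Nat Topology

namespace Vale.Agent.P254

variable {n : ℕ} {S : Finset (Fin n)} {K : Set (Fin n → ℝ)}

lemma PartialSymm.mono {S' : Finset (Fin n)} (h : PartialSymm S K) (hS : S ⊆ S') :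
    PartialSymm S' K := fun x hx y h1 h2 =>
  h x hx y (fun i hi => h1 i (hS hi)) fun i _ =>
    if hi' : i ∈ S' then Or.inl (h1 i hi') else h2 i hi'

lemma PartialSymm.flip_mem (h : PartialSymm S K) {i : Fin n} (hi : i ∉ S) {x : Fin n → ℝ}
    (hx : x ∈ K) : flip i x ∈ K :=
  h x hx _ (fun j hj => by simp [flip, show j ≠ i from fun e => hi (e ▸ hj)]) fun j _ => by
    by_cases hji : j = i <;> simp [flip, hji]

lemma PartialSymm.integral_odd (h : PartialSymm S K) {i : Fin n} (hi : i ∉ S)
    {f : (Fin n → ℝ) → ℝ} (hf : ∀ x, f (flip i x) = -f x) : ∫ x in K, f x = 0 := by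
  have hpre : flip i ⁻¹' K = K := by
    ext x
    refine ⟨fun hx => ?_, fun hx => h.flip_mem hi hx⟩
    have h2 := h.flip_mem hi hx
    have e : flip i (flip i x) = x := by funext j; by_cases hj : j = i <;> simp [flip, hj]
    rwa [e] at h2
  have h1 := (measurePreserving_flip i).setIntegral_preimage_emb (measurableEmbedding_flip i) f K
  rw [hpre] at h1
  simp only [hf, integral_neg] at h1
  linarith

lemma PartialSymm.centroid_eq_zero (h : PartialSymm S K) {i : Fin n} (hi : i ∉ S) :
    centroid K i = 0 := by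
  rw [centroid, h.integral_odd hi (f := fun x => x i) (fun x => by simp [flip]), mul_zero]

lemma PartialSymm.cov_eq_zero (h : PartialSymm S K) {i j : Fin n} (hij : i ≠ j) (hj : j ∉ S) :
    covMatrix K i j = 0 := by
  simp only [covMatrix, Matrix.of_apply, h.centroid_eq_zero hj, sub_zero]
  rw [h.integral_odd hj (f := fun x => (x i - centroid K i) * x j)
    (fun x => by simp [flip, hij]), mul_zero]

lemma PartialSymm.cov_diag (h : PartialSymm S K) {i : Fin n} (hi : i ∉ S) :
    covMatrix K i i = (volume K).toReal⁻¹ * ∫ x in K, x i ^ 2 := by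
  simp only [covMatrix, Matrix.of_apply, h.centroid_eq_zero hi, sub_zero, pow_two]

lemma covMatrix_posSemidef (hK : IsCompact K) : (covMatrix K).PosSemidef := by
  refine Matrix.PosSemidef.of_dotProduct_mulVec_nonneg ?_ fun c => ?_
  · ext i j
    simp only [Matrix.conjTranspose_apply, covMatrix, Matrix.of_apply, star_trivial, mul_comm
      (_ - centroid K j)]
  · have hint : ∀ i j, IntegrableOn
        (fun x : Fin n → ℝ => c i * c j * ((x i - centroid K i) * (x j - centroid K j))) K volume :=
      fun i j => (by fun_prop : Continuous fun x : Fin n → ℝ =>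
        c i * c j * ((x i - centroid K i) * (x j - centroid K j))).continuousOn.integrableOn_compact hK
    have e : star c ⬝ᵥ (covMatrix K *ᵥ c)
        = (volume K).toReal⁻¹ * ∫ x in K, (∑ i, c i * (x i - centroid K i)) ^ 2 := by
      simp only [star_trivial, dotProduct, Matrix.mulVec, covMatrix, Matrix.of_apply, pow_two,
        Finset.sum_mul, Finset.mul_sum]
      have hint' : ∀ i j, Integrable (fun x : Fin n → ℝ =>
          c j * (x j - centroid K j) * (c i * (x i - centroid K i))) (volume.restrict K) :=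
        fun i j => (hint i j).congr (Filter.Eventually.of_forall fun x => by ring)
      rw [integral_finsetSum _ fun i _ => integrable_finsetSum _ fun j _ => hint' i j,
        Finset.mul_sum]
      refine Finset.sum_congr rfl fun i _ => ?_
      rw [integral_finsetSum _ fun j _ => hint' i j, Finset.mul_sum]
      refine Finset.sum_congr rfl fun j _ => ?_
      have e2 : ∫ x in K, c j * (x j - centroid K j) * (c i * (x i - centroid K i))
          = c i * c j * ∫ x in K, (x i - centroid K i) * (x j - centroid K j) := by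
        rw [← integral_const_mul]
        exact integral_congr_ae (Filter.Eventually.of_forall fun x => by ring)
      rw [e2]; ring
    rw [e]
    exact mul_nonneg (inv_nonneg.2 ENNReal.toReal_nonneg) (integral_nonneg fun x => sq_nonneg _)

lemma cov_entry_le (hK : IsCompact K) (hV : 0 < (volume K).toReal) {a b : Fin n}
    (ha : ∀ x ∈ K, |x a| ≤ 1) (hb : ∀ x ∈ K, |x b| ≤ 1) : |covMatrix K a b| ≤ 4 := by
  have hc : ∀ i : Fin n, (∀ x ∈ K, |x i| ≤ 1) → |centroid K i| ≤ 1 := fun i hi => by
    have h := norm_setIntegral_le_of_norm_le_const (μ := volume) (f := fun x : Fin n → ℝ => x i)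
      (C := 1) hK.measure_lt_top fun x hx => by rw [Real.norm_eq_abs]; exact hi x hx
    rw [Real.norm_eq_abs, one_mul] at h
    rw [centroid, abs_mul, abs_inv, abs_of_pos hV, inv_mul_le_iff₀ hV, mul_one]
    exact h
  have h := norm_setIntegral_le_of_norm_le_const (μ := volume)
    (f := fun x : Fin n → ℝ => (x a - centroid K a) * (x b - centroid K b)) (C := 4)
    hK.measure_lt_top fun x hx => by
      rw [Real.norm_eq_abs, abs_mul]
      calc |x a - centroid K a| * |x b - centroid K b| ≤ 2 * 2 := by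
            refine mul_le_mul ?_ ?_ (abs_nonneg _) two_pos.le
            · linarith [abs_sub (x a) (centroid K a), ha x hx, hc a ha]
            · linarith [abs_sub (x b) (centroid K b), hb x hx, hc b hb]
        _ = 4 := by norm_num
  simp only [covMatrix, Matrix.of_apply]
  rw [Real.norm_eq_abs] at h
  rw [abs_mul, abs_inv, abs_of_pos hV, inv_mul_le_iff₀ hV, mul_comm]
  exact h

/-- The determinant of the covariance matrix of a partially symmetric body. -/
lemma PartialSymm.det_cov_le (h : PartialSymm S K) (hK : IsCompact K) (hV : 0 < (volume K).toReal)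
    (hb : ∀ a ∈ S, ∀ x ∈ K, |x a| ≤ 1) :
    (covMatrix K).det ≤ ((S.card ! : ℝ) * 4 ^ S.card)
      * ∏ i ∈ Sᶜ, ((volume K).toReal⁻¹ * ∫ x in K, x i ^ 2) := by
  rw [Matrix.twoBlockTriangular_det' (covMatrix K) (fun i => i ∈ S) fun i hi j hj =>
    h.cov_eq_zero (fun e => hj (e ▸ hi)) hj]
  have hd : ((covMatrix K).toSquareBlockProp fun i => ¬ i ∈ S)
      = Matrix.diagonal fun i : {i // ¬ i ∈ S} =>
          (volume K).toReal⁻¹ * ∫ x in K, x (i : Fin n) ^ 2 := by
    ext i j
    by_cases hij : i = j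
    · subst hij
      rw [Matrix.diagonal_apply_eq]
      exact h.cov_diag i.2
    · rw [Matrix.diagonal_apply_ne _ hij]
      exact h.cov_eq_zero (fun e => hij (Subtype.ext e)) j.2
  have hm0 : ∀ i, 0 ≤ (volume K).toReal⁻¹ * ∫ x in K, x i ^ 2 := fun i =>
    mul_nonneg (inv_nonneg.2 hV.le) (integral_nonneg fun x => sq_nonneg _)
  rw [hd, Matrix.det_diagonal, Finset.prod_subtype Sᶜ (p := fun i => ¬ i ∈ S)
    (fun i => Finset.mem_compl) fun i => (volume K).toReal⁻¹ * ∫ x in K, x i ^ 2]
  refine mul_le_mul_of_nonneg_right ?_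
    (Finset.prod_nonneg fun i _ => hm0 i)
  have := Matrix.det_le (A := (covMatrix K).toSquareBlockProp fun i => i ∈ S)
    (abv := (AbsoluteValue.abs : AbsoluteValue ℝ ℝ)) (x := (4 : ℝ))
    (fun i j => cov_entry_le hK hV (hb i i.2) (hb j j.2))
  simp [nsmul_eq_mul, Fintype.card_coe] at this
  have h5 := (abs_le.1 this).2
  have e : (Finset.Subtype.fintype S) = Subtype.fintype fun i => i ∈ S := Subsingleton.elim _ _
  rw [e] at h5
  exact h5

/-- A lower bound for the second moment in a coordinate of an unconditional body. -/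
lemma second_moment_lower (hK : IsCompact K) (hconv : Convex ℝ K)
    (hsym : PartialSymm (∅ : Finset (Fin n)) K) (a : Fin n)
    (he : (1 / 2 : ℝ) • (Pi.single a 1 : Fin n → ℝ) ∈ K) :
    1 / (16 * ((n : ℝ) + 1) ^ 2) * (volume K).toReal ≤ ∫ x in K, x a ^ 2 := by
  have hn : (0 : ℝ) < n := by exact_mod_cast a.pos
  set θ : ℝ := 1 / ((n : ℝ) + 1) with hθ
  set c : ℝ := 1 - θ with hc
  have hθ0 : 0 < θ := by positivity
  have hc0 : 0 < c := by
    rw [hc, hθ, sub_pos, div_lt_one (by positivity)]; linarith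
  set v : Fin n → ℝ := θ • ((1 / 2 : ℝ) • (Pi.single a 1 : Fin n → ℝ)) with hv
  set A : (Fin n → ℝ) ≃ᵃ[ℝ] (Fin n → ℝ) :=
    (LinearEquiv.smulOfNeZero ℝ (Fin n → ℝ) c hc0.ne').toAffineEquiv.trans
      (AffineEquiv.constVAdd ℝ (Fin n → ℝ) v) with hA
  have hAx : ∀ x, A x = v + c • x := fun x => by simp [hA]
  have hsub : A '' K ⊆ K := by
    rintro _ ⟨x, hx, rfl⟩
    rw [hAx]
    exact hconv he hx hθ0.le hc0.le (by rw [hc]; ring)
  have hdet : |LinearMap.det A.linear.toLinearMap| = c ^ n := by
    have e : A.linear.toLinearMap = c • LinearMap.id := by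
      refine LinearMap.ext fun x => ?_
      show A.linear x = c • x
      rfl
    rw [e, LinearMap.det_smul, LinearMap.det_id, mul_one, Module.finrank_fin_fun,
      abs_of_nonneg (pow_nonneg hc0.le _)]
  have hint : ∀ f : (Fin n → ℝ) → ℝ, Continuous f → IntegrableOn f K volume := fun f hf =>
    hf.continuousOn.integrableOn_compact hK
  have h1 : ∫ x in A '' K, x a ^ 2 ≤ ∫ x in K, x a ^ 2 :=
    setIntegral_mono_set (hint _ (by fun_prop))
      (Filter.Eventually.of_forall fun x => sq_nonneg _) hsub.eventuallyLE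
  rw [integral_affine_image A hK.measurableSet, hdet] at h1
  have h2 : ∫ x in K, A x a ^ 2
      = c ^ 2 * (∫ x in K, x a ^ 2) + (θ / 2) ^ 2 * (volume K).toReal := by
    have e : ∀ x, A x a ^ 2 = c ^ 2 * x a ^ 2 + c * θ * x a + (θ / 2) ^ 2 := fun x => by
      rw [hAx]; simp [hv]; ring
    simp only [e]
    have i0 := hint (fun x => c ^ 2 * x a ^ 2) (by fun_prop)
    have i1 := hint (fun x => c * θ * x a) (by fun_prop)
    have i01 : IntegrableOn (fun x : Fin n → ℝ => c ^ 2 * x a ^ 2 + c * θ * x a) K volume :=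
      i0.add i1
    rw [integral_add i01 (hint (fun _ => (θ / 2) ^ 2) (by fun_prop)), integral_add i0 i1, integral_const_mul, integral_const_mul,
      hsym.integral_odd (Finset.notMem_empty a) (f := fun x => x a) (fun x => by simp [flip]),
      setIntegral_const, smul_eq_mul, Measure.real]
    ring
  rw [h2] at h1
  have hcn : 1 / 4 ≤ c ^ n := by
    have h3 : (1 + 1 / (n : ℝ)) ^ n ≤ 4 := by
      calc (1 + 1 / (n : ℝ)) ^ n ≤ Real.exp (1 / (n : ℝ)) ^ n :=
            pow_le_pow_left₀ (by positivity) (by linarith [Real.add_one_le_exp (1 / (n : ℝ))]) n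
        _ = Real.exp 1 := by rw [← Real.exp_nat_mul, mul_one_div_cancel hn.ne']
        _ ≤ 4 := by linarith [Real.exp_one_lt_d9]
    have e : c = (1 + 1 / (n : ℝ))⁻¹ := by rw [hc, hθ]; field_simp; ring
    rw [e, inv_pow, le_inv_comm₀ (by norm_num) (by positivity)]
    simpa using h3
  have hI : 0 ≤ ∫ x in K, x a ^ 2 := integral_nonneg fun x => sq_nonneg _
  have hV : 0 ≤ (volume K).toReal := ENNReal.toReal_nonneg
  have h4 : c ^ n * ((θ / 2) ^ 2 * (volume K).toReal) ≤ ∫ x in K, x a ^ 2 := by
    refine le_trans ?_ h1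
    have := mul_nonneg (pow_nonneg hc0.le n) (mul_nonneg (sq_nonneg c) hI)
    linarith
  refine le_trans ?_ ((mul_le_mul_of_nonneg_right hcn (by positivity)).trans h4)
  rw [hθ]
  field_simp
  linarith

/-- Symmetrisation in all coordinates of `T`. -/
lemma exists_symmetrised (hst : SteinerProps) (hK : IsCompact K) (hconv : Convex ℝ K)
    (hsym : PartialSymm S K) (h0 : (0 : Fin n → ℝ) ∈ K)
    (he : ∀ a ∈ S, (Pi.single a 1 : Fin n → ℝ) ∈ K) :
    ∀ T : Finset (Fin n), T ⊆ S → ∃ K' : Set (Fin n → ℝ), IsCompact K' ∧ Convex ℝ K' ∧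
      PartialSymm (S \ T) K' ∧ (0 : Fin n → ℝ) ∈ K' ∧
      (∀ a ∈ S \ T, (Pi.single a 1 : Fin n → ℝ) ∈ K') ∧
      (∀ a ∈ T, (1 / 2 : ℝ) • (Pi.single a 1 : Fin n → ℝ) ∈ K') ∧
      ∀ f : (Fin n → ℝ) → ℝ, Continuous f → (∀ a ∈ T, ∀ x u, f (update x a u) = f x) →
        ∫ x in K', f x = ∫ x in K, f x := by
  intro T
  induction T using Finset.induction_on with
  | empty => exact fun _ => ⟨K, hK, hconv, by simpa using hsym, h0, by simpa using he, by simp,
      fun _ _ _ => rfl⟩
  | insert b T hbT ih =>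
    intro hsub
    obtain ⟨K', hK', hconv', hsym', h0', he', hh', hint'⟩ :=
      ih ((Finset.subset_insert _ _).trans hsub)
    obtain ⟨h1, h2, h3, h4⟩ := hst n (S \ T) b K' hK' hconv' hsym'
    have keep : ∀ p ∈ K', p b = 0 → p ∈ steiner b K' := fun p hp hpb => by
      refine ⟨0, ?_, ?_⟩ <;>
        simpa [hpb, show update p b (0 : ℝ) = p by rw [← hpb]; exact update_eq_self b p] using hp
    refine ⟨steiner b K', h1, h2, ?_, keep 0 h0' rfl, fun a ha => ?_, fun a ha => ?_,
      fun f hf hf' => ?_⟩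
    · rwa [Finset.sdiff_insert]
    · rw [Finset.sdiff_insert, Finset.mem_erase] at ha
      exact keep _ (he' a ha.2) (Pi.single_eq_of_ne (Ne.symm ha.1) _)
    · rcases Finset.mem_insert.1 ha with rfl | ha
      · have hx : ((1 / 2 : ℝ) • (Pi.single a 1 : Fin n → ℝ)) a = 1 / 2 := by simp
        refine ⟨1 / 2, ?_, ?_⟩
        · rw [hx]
          have e : update ((1 / 2 : ℝ) • (Pi.single a 1 : Fin n → ℝ)) a (1 / 2 + 1 / 2)
              = Pi.single a 1 := by
            funext i
            by_cases hi : i = a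
            · subst hi; simp; norm_num
            · simp [hi]
          rw [e]
          exact he' a (Finset.mem_sdiff.2 ⟨hsub (Finset.mem_insert_self _ _), hbT⟩)
        · rw [hx, sub_self]
          have e : update ((1 / 2 : ℝ) • (Pi.single a 1 : Fin n → ℝ)) a (0 : ℝ) = 0 := by
            funext i
            by_cases hi : i = a
            · subst hi; simp
            · simp [hi]
          rw [e]
          exact h0'
      · exact keep _ (hh' a ha) (by simp [show b ≠ a from fun e => hbT (e ▸ ha)])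
    · rw [h4 f hf (hf' b (Finset.mem_insert_self _ _)),
        hint' f hf fun a ha => hf' a (Finset.mem_insert_of_mem ha)]

/-- The centre of a partially symmetric body on the fixed subspace is interior. -/
lemma PartialSymm.exists_interior (h : PartialSymm S K) (hconv : Convex ℝ K)
    (hint : (interior K).Nonempty) :
    ∃ q : Fin n → ℝ, (∀ i, i ∉ S → q i = 0) ∧ q ∈ interior K := by
  obtain ⟨p, hp⟩ := hint
  obtain ⟨r, hr, hball⟩ := Metric.isOpen_iff.1 isOpen_interior p hp
  refine ⟨fun i => if i ∈ S then p i else 0, fun i hi => if_neg hi, ?_⟩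
  refine interior_maximal (t := Metric.ball (fun i => if i ∈ S then p i else 0) r) ?_
    Metric.isOpen_ball (Metric.mem_ball_self hr)
  intro z hz
  rw [Metric.mem_ball, dist_eq_norm] at hz
  set d : Fin n → ℝ := z - fun i => if i ∈ S then p i else 0 with hd
  set d' : Fin n → ℝ := fun i => if i ∈ S then d i else -d i with hd'
  have hdn : ‖d'‖ < r := by
    refine lt_of_le_of_lt ((pi_norm_le_iff_of_nonneg (norm_nonneg d)).2 fun i => ?_) hz
    by_cases hi : i ∈ S <;> simp [hd', hi] <;> exact norm_le_pi_norm d i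
  have h1 : p + d ∈ K := interior_subset (hball (by simpa [Metric.mem_ball, dist_eq_norm] using hz))
  have h2 : p + d' ∈ K :=
    interior_subset (hball (by simpa [Metric.mem_ball, dist_eq_norm] using hdn))
  have h3 : (fun i => if i ∈ S then (p + d') i else -(p + d') i) ∈ K :=
    h _ h2 _ (fun i hi => if_pos hi) fun i hi => Or.inr (if_neg hi)
  have hm := hconv h1 h3 (show (0 : ℝ) ≤ 1 / 2 by norm_num) (show (0 : ℝ) ≤ 1 / 2 by norm_num)
    (by norm_num)
  convert hm using 1
  funext i
  by_cases hi : i ∈ S <;> simp [hd', hd, hi] <;> ring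

/-- Choice of coordinates in which the free coordinates are bounded by one and the free unit
vectors belong to the body. -/
lemma exists_normalised (h : PartialSymm S K) (hK : IsCompact K) (hconv : Convex ℝ K)
    (hint : (interior K).Nonempty) :
    ∃ A : (Fin n → ℝ) ≃ᵃ[ℝ] (Fin n → ℝ), PartialSymm S (A '' K) ∧ (0 : Fin n → ℝ) ∈ A '' K ∧
      (∀ a ∈ S, (Pi.single a 1 : Fin n → ℝ) ∈ A '' K) ∧ ∀ a ∈ S, ∀ x ∈ A '' K, |x a| ≤ 1 := by
  obtain ⟨q, hqz, hq⟩ := h.exists_interior hconv hint
  set C : Set (Fin n → ℝ) := {x | q + x ∈ K ∧ ∀ i, i ∉ S → x i = 0} with hC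
  have hCc : IsCompact C := by
    refine (hK.image (continuous_id.sub continuous_const : Continuous fun x => x - q)).of_isClosed_subset
      ?_ fun x hx => ⟨q + x, hx.1, add_sub_cancel_left q x⟩
    rw [hC, Set.ofPred_and]
    refine (hK.isClosed.preimage (continuous_const.add continuous_id)).inter ?_
    rw [Set.ofPred_forall]
    refine isClosed_iInter fun i => ?_
    by_cases hi : i ∈ S
    · simp [hi]
    · simpa [hi] using isClosed_eq (continuous_apply i) continuous_const
  obtain ⟨r, hr, hball⟩ := Metric.isOpen_iff.1 isOpen_interior q hq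
  set F : Fin n → Set (Fin n → ℝ) := fun j => if j ∈ S then C else {Pi.single j 1} with hF
  set M : (Fin n → Fin n → ℝ) → Matrix (Fin n) (Fin n) ℝ :=
    fun X => Matrix.of fun i j => X j i with hM
  have hFc : IsCompact (Set.univ.pi F) := isCompact_univ_pi fun j => by
    by_cases hj : j ∈ S <;> simp only [hF, hj, if_true, if_false]
    · exact hCc
    · exact isCompact_singleton
  have hX1 : (fun j => if j ∈ S then (r / 2) • (Pi.single j 1 : Fin n → ℝ) else Pi.single j 1)
      ∈ Set.univ.pi F := fun j _ => by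
    by_cases hj : j ∈ S
    · simp only [hF, hj, if_true]
      refine ⟨interior_subset (hball ?_), fun i hi => ?_⟩
      · rw [Metric.mem_ball, dist_eq_norm, add_sub_cancel_left, norm_smul, Real.norm_eq_abs,
          abs_of_pos (half_pos hr)]
        refine lt_of_le_of_lt (mul_le_of_le_one_right (half_pos hr).le ?_) (half_lt_self hr)
        refine (pi_norm_le_iff_of_nonneg zero_le_one).2 fun i => ?_
        by_cases hij : i = j
        · subst hij; simp
        · simp [hij]
      · simp [show i ≠ j from fun e => hi (e ▸ hj)]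
    · simp [hF, hj]
  have hcont : Continuous fun X : Fin n → Fin n → ℝ => |(M X).det| :=
    (Continuous.matrix_det (continuous_matrix fun i j =>
      (continuous_apply i).comp (continuous_apply j))).abs
  obtain ⟨X, hX, hmax⟩ := hFc.exists_isMaxOn ⟨_, hX1⟩ hcont.continuousOn
  have hdet : 0 < |(M X).det| := by
    refine lt_of_lt_of_le ?_ (hmax hX1)
    have e : M (fun j => if j ∈ S then (r / 2) • (Pi.single j 1 : Fin n → ℝ) else Pi.single j 1)
        = Matrix.diagonal fun j => if j ∈ S then r / 2 else 1 := by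
      ext i j
      by_cases hij : i = j
      · subst hij; by_cases hi : i ∈ S <;> simp [hM, hi]
      · by_cases hj : j ∈ S <;> simp [hM, hij, hj]
    show 0 < |Matrix.det _|
    rw [e, Matrix.det_diagonal, abs_pos, Finset.prod_ne_zero_iff]
    intro j _
    split_ifs
    · exact (half_pos hr).ne'
    · exact one_ne_zero
  have hdet0 : (M X).det ≠ 0 := abs_pos.1 hdet
  have hcol : ∀ j, j ∉ S → X j = Pi.single j 1 := fun j hj => by simpa [hF, hj] using hX j trivial
  have hcolS : ∀ j ∈ S, X j ∈ C := fun j hj => by simpa [hF, hj] using hX j trivial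
  -- the action of the matrix
  have hout : ∀ (y : Fin n → ℝ) (i : Fin n), i ∉ S → (M X *ᵥ y) i = y i := fun y i hi => by
    rw [Matrix.mulVec, dotProduct, Finset.sum_eq_single i]
    · simp [hM, hcol i hi]
    · intro j _ hji
      by_cases hj : j ∈ S
      · simp [hM, (hcolS j hj).2 i hi]
      · simp [hM, hcol j hj, Ne.symm hji]
    · simp
  have hin : ∀ (y y' : Fin n → ℝ), (∀ j ∈ S, y j = y' j) → ∀ i ∈ S,
      (M X *ᵥ y) i = (M X *ᵥ y') i := fun y y' hy i hi => by
    simp only [Matrix.mulVec, dotProduct]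
    refine Finset.sum_congr rfl fun j _ => ?_
    by_cases hj : j ∈ S
    · rw [hy j hj]
    · simp [hM, hcol j hj, show i ≠ j from fun e => hj (e ▸ hi)]
  have := Matrix.invertibleOfIsUnitDet (M X) (isUnit_iff_ne_zero.2 hdet0)
  set E := Matrix.toLinearEquiv' (M X) inferInstance with hE
  set A : (Fin n → ℝ) ≃ᵃ[ℝ] (Fin n → ℝ) :=
    (AffineEquiv.constVAdd ℝ (Fin n → ℝ) (-q)).trans E.symm.toAffineEquiv with hA
  have hmem : ∀ y, y ∈ A '' K ↔ q + M X *ᵥ y ∈ K := by
    intro y
    have hE' : ∀ y, E y = M X *ᵥ y := fun y => by simp [hE, Matrix.toLinearEquiv']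
    constructor
    · rintro ⟨x, hx, rfl⟩
      rw [← hE']
      simpa [hA] using hx
    · intro hy
      refine ⟨_, hy, ?_⟩
      simp [hA, ← hE']
  have hzero : M X *ᵥ (0 : Fin n → ℝ) = 0 := Matrix.mulVec_zero _
  refine ⟨A, fun y hy z hz1 hz2 => ?_, (hmem 0).2 (by simpa using interior_subset hq),
    fun a ha => (hmem _).2 ?_, fun a ha y hy => ?_⟩
  · rw [hmem] at hy ⊢
    refine h _ hy _ (fun i hi => ?_) fun i hi => ?_
    · simp [hin z y hz1 i hi]
    · simp only [Pi.add_apply, hqz i hi, zero_add, hout _ i hi]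
      exact hz2 i hi
  · have e : M X *ᵥ (Pi.single a 1 : Fin n → ℝ) = X a := by
      rw [Matrix.mulVec_single_one]; rfl
    rw [e]
    exact (hcolS a ha).1
  · rw [hmem] at hy
    set y' : Fin n → ℝ := fun i => if i ∈ S then y i else 0 with hy'
    set z : Fin n → ℝ := M X *ᵥ y' with hz
    have hzC : z ∈ C := by
      refine ⟨?_, fun i hi => by rw [hz, hout _ i hi]; simp [hy', hi]⟩
      have h2 : (fun i => if i ∈ S then (q + M X *ᵥ y) i else -(q + M X *ᵥ y) i) ∈ K :=
        h _ hy _ (fun i hi => if_pos hi) fun i hi => Or.inr (if_neg hi)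
      have hm := hconv hy h2 (show (0 : ℝ) ≤ 1 / 2 by norm_num)
        (show (0 : ℝ) ≤ 1 / 2 by norm_num) (by norm_num)
      convert hm using 1
      funext i
      by_cases hi : i ∈ S
      · simp [hz, hi, hin y' y (fun j hj => by simp [hy', hj]) i hi]; ring
      · simp [hz, hi, hout _ i hi, hqz i hi, hy']
    have hX' : update X a z ∈ Set.univ.pi F := fun j _ => by
      by_cases hj : j = a
      · subst hj; simpa [hF, ha] using hzC
      · simpa [hj] using hX j trivial
    have hle : |(M (update X a z)).det| ≤ |(M X).det| := hmax hX'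
    have hup : M (update X a z) = (M X).updateCol a z := by
      ext i j
      by_cases hj : j = a
      · subst hj; simp [hM]
      · simp [hM, hj]
    have hcr : Matrix.cramer (M X) z = (M X).det • y' := by
      have hinj : Function.Injective fun u => M X *ᵥ u :=
        (Matrix.mulVec_injective_iff_isUnit).2 ((Matrix.isUnit_iff_isUnit_det _).2
          (isUnit_iff_ne_zero.2 hdet0))
      refine hinj ?_
      show M X *ᵥ Matrix.cramer (M X) z = M X *ᵥ ((M X).det • y')
      rw [Matrix.mulVec_cramer, Matrix.mulVec_smul]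
    rw [hup, ← Matrix.cramer_apply, hcr, Pi.smul_apply, smul_eq_mul, abs_mul] at hle
    have := le_of_mul_le_mul_left (hle.trans_eq (mul_one _).symm) hdet
    simpa [hy', ha] using this

/-- The factor lost through the free coordinates. -/
def symLoss (n k : ℕ) : ℝ := (k ! : ℝ) * (64 * ((n : ℝ) + 1) ^ 2) ^ k

lemma det_div_sq_partial_le (hT : CT.CentroidBox) (hst : SteinerProps) (hn : 2 ≤ n)
    (h : PartialSymm S K) (hK : IsCompact K) (hconv : Convex ℝ K) (hV : 0 < (volume K).toReal)
    (h0 : (0 : Fin n → ℝ) ∈ K) (he : ∀ a ∈ S, (Pi.single a 1 : Fin n → ℝ) ∈ K)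
    (hb : ∀ a ∈ S, ∀ x ∈ K, |x a| ≤ 1) :
    0 ≤ (covMatrix K).det / (volume K).toReal ^ 2 ∧
      (covMatrix K).det / (volume K).toReal ^ 2
        ≤ symLoss n S.card * (((n : ℝ) + 1) / (8 * ((n : ℝ) + 2))) ^ n := by
  refine ⟨div_nonneg (covMatrix_posSemidef hK).det_nonneg (sq_nonneg _), ?_⟩
  obtain ⟨K', hK', hconv', hsym', -, -, hh, hint⟩ :=
    exists_symmetrised hst hK hconv h h0 he S subset_rfl
  rw [Finset.sdiff_self] at hsym'
  have hVe : (volume K').toReal = (volume K).toReal := by
    simpa [Measure.real] using hint (fun _ => (1 : ℝ)) continuous_const fun _ _ _ _ => rfl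
  have hsign : ∀ x ∈ K', ∀ y, (∀ i, y i = x i ∨ y i = -x i) → y ∈ K' := fun x hx y hy =>
    hsym' x hx y (by simp) fun i _ => hy i
  have hle := (det_div_sq_le hT hn hK' hconv' (hVe ▸ hV) hsign).2
  rw [covMatrix_unconditional hsign, Matrix.det_diagonal, hVe,
    ← Finset.prod_mul_prod_compl S] at hle
  have hco : ∀ i ∈ Sᶜ, ∫ x in K', x i ^ 2 = ∫ x in K, x i ^ 2 := fun i hi =>
    hint _ (by fun_prop) fun a ha x u => by
      rw [update_of_ne (fun e : i = a => Finset.mem_compl.1 hi (by rwa [e]))]
  rw [Finset.prod_congr (rfl : Sᶜ = Sᶜ) fun i hi =>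
    congrArg ((volume K).toReal⁻¹ * ·) (hco i hi)] at hle
  set L : ℝ := 1 / (16 * ((n : ℝ) + 1) ^ 2) with hL
  set V := (volume K).toReal with hVdef
  set P := ∏ i ∈ Sᶜ, V⁻¹ * ∫ x in K, x i ^ 2 with hP
  have hP0 : 0 ≤ P := Finset.prod_nonneg fun i _ =>
    mul_nonneg (inv_nonneg.2 hV.le) (integral_nonneg fun x => sq_nonneg _)
  have hlow : L ^ S.card ≤ ∏ a ∈ S, V⁻¹ * ∫ x in K', x a ^ 2 := by
    rw [← Finset.prod_const]
    refine Finset.prod_le_prod (fun _ _ => by positivity) fun a ha => ?_
    have h2 := second_moment_lower hK' hconv' hsym' a (hh a ha)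
    rw [hVe] at h2
    rw [le_inv_mul_iff₀ hV, mul_comm]
    exact h2
  have h3 : L ^ S.card * P / V ^ 2 ≤ (((n : ℝ) + 1) / (8 * ((n : ℝ) + 2))) ^ n :=
    (div_le_div_of_nonneg_right (mul_le_mul_of_nonneg_right hlow hP0) (sq_nonneg V)).trans hle
  have hsL : symLoss n S.card = (S.card ! : ℝ) * 4 ^ S.card / L ^ S.card := by
    rw [symLoss, hL, one_div, inv_pow, div_inv_eq_mul, mul_assoc, ← mul_pow]
    ring_nf
  calc (covMatrix K).det / V ^ 2 ≤ ((S.card ! : ℝ) * 4 ^ S.card) * P / V ^ 2 :=
        div_le_div_of_nonneg_right (h.det_cov_le hK hV hb) (sq_nonneg V)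
    _ = symLoss n S.card * (L ^ S.card * P / V ^ 2) := by
        rw [hsL]
        have : L ^ S.card ≠ 0 := by positivity
        field_simp
    _ ≤ _ := mul_le_mul_of_nonneg_left h3 (by rw [symLoss]; positivity)

lemma symLoss_numeric {k : ℕ} (hn : 2 ≤ n) (hk : 1 ≤ k)
    (hc : 150 * (k : ℝ) * (1 + Real.log n) ≤ n) :
    symLoss n k * (((n : ℝ) + 1) / (8 * ((n : ℝ) + 2))) ^ n
      < (1 / (((n : ℝ) + 1) * ((n : ℝ) + 2))) ^ n / ((n : ℝ) + 1) * (n ! : ℝ) ^ 2 := by
  have hn0 : (2 : ℝ) ≤ n := by exact_mod_cast hn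
  have hk0 : (1 : ℝ) ≤ k := by exact_mod_cast hk
  set N : ℝ := (n : ℝ) + 1 with hN
  have hN0 : 0 < N := by positivity
  have hlog : 0 ≤ Real.log n := Real.log_nonneg (by linarith)
  have hlogN : Real.log N ≤ Real.log n + 1 := by
    have h := Real.log_le_log hN0 (show N ≤ 2 * n by rw [hN]; linarith)
    rw [Real.log_mul two_ne_zero (by linarith : (n : ℝ) ≠ 0)] at h
    linarith [Real.log_two_lt_d9]
  have hlogN0 : 0 ≤ Real.log N := Real.log_nonneg (by rw [hN]; linarith)
  have hkn : k ≤ n + 1 := by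
    have : (k : ℝ) ≤ n + 1 := by nlinarith
    exact_mod_cast this
  have hfk : (k ! : ℝ) ≤ N ^ k := by
    calc (k ! : ℝ) ≤ (k : ℝ) ^ k := by exact_mod_cast k.factorial_le_pow
      _ ≤ N ^ k := pow_le_pow_left₀ (by positivity) (by rw [hN]; exact_mod_cast hkn) k
  have hfn : N ^ n ≤ Real.exp N * n ! := by
    have := Real.pow_div_factorial_le_exp (x := N) hN0.le n
    rwa [div_le_iff₀ (by positivity)] at this
  have hmain : (k : ℝ) * (Real.log 64 + 3 * Real.log N) + Real.log N + 2 * N
      < n * Real.log 8 := by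
    rw [show (64 : ℝ) = 2 ^ 6 by norm_num, show (8 : ℝ) = 2 ^ 3 by norm_num, Real.log_pow,
      Real.log_pow]
    have h1 : (k : ℝ) * (((6 : ℕ) : ℝ) * Real.log 2 + 3 * Real.log N) + Real.log N
        ≤ 10 * ((k : ℝ) * (1 + Real.log n)) := by
      push_cast
      have := Real.log_two_lt_d9
      nlinarith [mul_le_mul_of_nonneg_left hlogN (show (0 : ℝ) ≤ 3 * k by positivity),
        mul_nonneg (by linarith : (0 : ℝ) ≤ k - 1) hlog]
    have h2 := mul_lt_mul_of_pos_left Real.log_two_gt_d9 (show (0 : ℝ) < 3 * n by positivity)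
    push_cast at h1 ⊢
    rw [hN]
    rw [hN] at h1
    have hX : (1.69 : ℝ) ≤ (k : ℝ) * (1 + Real.log n) := by
      have h3 := Real.log_le_log two_pos hn0
      have h4 := mul_le_mul hk0 (show (1.69 : ℝ) ≤ 1 + Real.log n by linarith [Real.log_two_gt_d9])
        (by norm_num) (by linarith)
      linarith
    nlinarith
  have hexp : (64 ^ k * N ^ (3 * k)) * N * Real.exp (2 * N) < (8 : ℝ) ^ n := by
    rw [← Real.log_lt_log_iff (by positivity) (by positivity), Real.log_mul (by positivity)
      (Real.exp_pos _).ne', Real.log_mul (by positivity) hN0.ne', Real.log_mul (by positivity)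
      (by positivity), Real.log_pow, Real.log_pow, Real.log_pow, Real.log_exp]
    push_cast
    linarith
  have hs : symLoss n k ≤ 64 ^ k * N ^ (3 * k) := by
    rw [symLoss, mul_pow, ← hN, ← pow_mul,
      show (64 : ℝ) ^ k * N ^ (3 * k) = N ^ k * (64 ^ k * N ^ (2 * k)) by
        rw [show 3 * k = k + 2 * k by omega, pow_add]; ring]
    exact mul_le_mul_of_nonneg_right hfk (by positivity)
  have key : symLoss n k * N * N ^ n * N ^ n < 8 ^ n * (n ! : ℝ) ^ 2 := by
    calc symLoss n k * N * N ^ n * N ^ n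
        ≤ 64 ^ k * N ^ (3 * k) * N * (Real.exp N * n !) * (Real.exp N * n !) := by gcongr
      _ = 64 ^ k * N ^ (3 * k) * N * Real.exp (2 * N) * (n ! : ℝ) ^ 2 := by
          rw [show Real.exp (2 * N) = Real.exp N * Real.exp N by rw [← Real.exp_add, two_mul]]
          ring
      _ < _ := mul_lt_mul_of_pos_right hexp (by positivity)
  rw [div_pow, mul_pow, _root_.one_div_pow, mul_pow, div_div, one_div, inv_mul_eq_div,
    mul_div_assoc', div_lt_div_iff₀ (by positivity) (by positivity)]
  calc symLoss n k * N ^ n * (N ^ n * ((n : ℝ) + 2) ^ n * N)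
      = symLoss n k * N * N ^ n * N ^ n * ((n : ℝ) + 2) ^ n := by ring
    _ < 8 ^ n * (n ! : ℝ) ^ 2 * ((n : ℝ) + 2) ^ n :=
        mul_lt_mul_of_pos_right key (by positivity)
    _ = _ := by ring

/-- The strong isotropic constant inequality, with an explicit bound, for bodies having an affine
image symmetric with respect to all coordinate hyperplanes outside a small set `S`. -/
theorem partialSym_strong_of (hT : CT.CentroidBox) (hst : SteinerProps) : ∀ n : ℕ, 2 ≤ n →
    ∀ K : Set (Fin n → ℝ), IsCompact K → Convex ℝ K → (interior K).Nonempty →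
    ∀ (A : (Fin n → ℝ) ≃ᵃ[ℝ] (Fin n → ℝ)) (S : Finset (Fin n)),
      150 * (S.card : ℝ) * (1 + Real.log n) ≤ n →
      (∀ x ∈ A '' K, ∀ y : Fin n → ℝ, (∀ i ∈ S, y i = x i) →
        (∀ i, i ∉ S → y i = x i ∨ y i = -x i) → y ∈ A '' K) →
      isoConst K ≤ Real.sqrt 2 / 4 * ((S.card ! : ℝ) * (64 * ((n : ℝ) + 1) ^ 2) ^ S.card)
          ^ ((1 : ℝ) / (2 * n)) ∧
        ∀ B : (Fin n → ℝ) ≃ᵃ[ℝ] (Fin n → ℝ), isoConst K < isoConst (B '' stdSimplexBody n) := by
  intro n hn K hK hconv hint A S hc hsym
  have hn0 : (0 : ℝ) < n := by exact_mod_cast (show 0 < n by omega)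
  have hV : 0 < (volume K).toReal :=
    ENNReal.toReal_pos (lt_of_lt_of_le (isOpen_interior.measure_pos volume hint)
      (measure_mono interior_subset)).ne' hK.measure_lt_top.ne
  have hcA : Continuous A := A.toAffineMap.continuous_of_finiteDimensional
  have hK1 : IsCompact (A '' K) := hK.image hcA
  have hconv1 : Convex ℝ (A '' K) := hconv.affine_image A.toAffineMap
  have hint1 : (interior (A '' K)).Nonempty :=
    (hint.image A).mono ((A.toHomeomorphOfFiniteDimensional.image_interior K).subset)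
  have hV1 : 0 < (volume (A '' K)).toReal := by
    rw [volume_affine_image A hK.measurableSet]
    exact mul_pos (abs_pos.2 (det_linear_ne_zero A)) hV
  rw [← isoConst_affine A hK hV]
  obtain ⟨A₂, hsym2, h02, he2, hb2⟩ := exists_normalised hsym hK1 hconv1 hint1
  rw [← isoConst_affine A₂ hK1 hV1]
  have hV2 : 0 < (volume (A₂ '' (A '' K))).toReal := by
    rw [volume_affine_image A₂ hK1.measurableSet]
    exact mul_pos (abs_pos.2 (det_linear_ne_zero A₂)) hV1
  have hK2 : IsCompact (A₂ '' (A '' K)) :=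
    hK1.image A₂.toAffineMap.continuous_of_finiteDimensional
  have hconv2 : Convex ℝ (A₂ '' (A '' K)) := hconv1.affine_image A₂.toAffineMap
  obtain ⟨hd0, hle⟩ := det_div_sq_partial_le hT hst hn hsym2 hK2 hconv2 hV2 h02 he2 hb2
  refine ⟨?_, fun B => ?_⟩
  · have h8 : ((n : ℝ) + 1) / (8 * ((n : ℝ) + 2)) ≤ (Real.sqrt 2 / 4) ^ 2 := by
      rw [div_pow, Real.sq_sqrt two_pos.le, div_le_iff₀ (by positivity)]
      linarith
    have hs0 : 0 ≤ symLoss n S.card := by rw [symLoss]; positivity
    rw [isoConst]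
    calc _ ≤ (symLoss n S.card * ((Real.sqrt 2 / 4) ^ 2) ^ n) ^ ((1 : ℝ) / (2 * n)) :=
          Real.rpow_le_rpow hd0 (hle.trans (mul_le_mul_of_nonneg_left
            (pow_le_pow_left₀ (by positivity) h8 n) hs0)) (by positivity)
      _ = _ := by
          rw [Real.mul_rpow hs0 (by positivity), ← pow_mul, ← Real.rpow_natCast,
            ← Real.rpow_mul (by positivity)]
          push_cast
          rw [mul_one_div, div_self (by positivity), Real.rpow_one, mul_comm]
          rfl
  · have hS : IsCompact (stdSimplexBody n) := by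
      rw [stdSimplexBody_eq]; exact solidSimplex_compact n 1
    have hSV : 0 < (volume (stdSimplexBody n)).toReal := by
      rw [(covMatrix_stdSimplexBody n).2]; positivity
    rw [isoConst_affine B hS hSV]
    rcases Nat.eq_zero_or_pos S.card with hk | hk
    · have hS0 := Finset.card_eq_zero.1 hk
      subst hS0
      exact (strong_unconditional_of_box hT hn hK2 hconv2 hV2
        fun x hx y hy => hsym2 x hx y (by simp) fun i _ => hy i).2
    · rw [isoConst, isoConst]
      refine Real.rpow_lt_rpow hd0 (hle.trans_lt ?_) (by positivity)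
      rw [simplex_base]
      exact symLoss_numeric hn hk hc

end Vale.Agent.P254
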