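import Mathlib
import Vale.Agent.P254.PartialSymDefs

/-!
Steiner symmetrisation of a convex body in one coordinate: compactness, convexity, symmetry and
invariance of the integrals of functions of the other coordinates.
-/

noncomputable section

open MeasureTheory Set Function

namespace Vale.Agent.P254

variable {n : ℕ}

theorem steiner_compact {a : Fin n} {K : Set (Fin n → ℝ)} (hK : IsCompact K) :
    IsCompact (steiner a K) := by
  have e : steiner a K = (fun p : (Fin n → ℝ) × (Fin n → ℝ) =>
      update p.1 a ((p.1 a - p.2 a) / 2)) '' ((K ×ˢ K) ∩ {p | update p.1 a (p.2 a) = p.2}) := by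
    ext x
    constructor
    · rintro ⟨t, h1, h2⟩
      exact ⟨(update x a (t + x a), update x a (t - x a)), ⟨⟨h1, h2⟩, by simp⟩, by simp⟩
    · rintro ⟨⟨p, q⟩, ⟨⟨hp, hq⟩, he⟩, rfl⟩
      refine ⟨(p a + q a) / 2, ?_, ?_⟩
      · simpa [update_idem, show (p a + q a) / 2 + (p a - q a) / 2 = p a by ring] using hp
      · simp only [update_idem, update_self]
        rw [show (p a + q a) / 2 - (p a - q a) / 2 = q a by ring]
        exact (show update p a (q a) = q from he).symm ▸ hq
  rw [e]
  exact ((hK.prod hK).inter_right (isClosed_eq (continuous_fst.update a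
    ((continuous_apply a).comp continuous_snd)) continuous_snd)).image (by fun_prop)

theorem steiner_convex {a : Fin n} {K : Set (Fin n → ℝ)} (hconv : Convex ℝ K) :
    Convex ℝ (steiner a K) := by
  intro x hx y hy s t hs ht hst
  obtain ⟨u, hu, hu'⟩ := hx
  obtain ⟨w, hw, hw'⟩ := hy
  have e : ∀ b b' : ℝ, update (s • x + t • y) a (s * b + t * b')
      = s • update x a b + t • update y a b' := fun b b' => by
    funext i
    rcases eq_or_ne i a with rfl | hi
    · simp
    · simp [hi]
  refine ⟨s * u + t * w, ?_, ?_⟩
  · rw [show s * u + t * w + (s • x + t • y) a = s * (u + x a) + t * (w + y a) by simp; ring, e]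
    exact hconv hu hw hs ht hst
  · rw [show s * u + t * w - (s • x + t • y) a = s * (u - x a) + t * (w - y a) by simp; ring, e]
    exact hconv hu' hw' hs ht hst

theorem steiner_symm {S : Finset (Fin n)} {a : Fin n} {K : Set (Fin n → ℝ)}
    (hsym : PartialSymm S K) : PartialSymm (S.erase a) (steiner a K) := by
  intro x hx y hyS hy
  obtain ⟨t, h1, h2⟩ := hx
  have mv : ∀ b, update x a b ∈ K → update y a b ∈ K := fun b hb => by
    refine hsym _ hb _ (fun i hi => ?_) fun i hi => ?_
    · rcases eq_or_ne i a with rfl | hne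
      · simp
      · simp [hne, hyS i (Finset.mem_erase.2 ⟨hne, hi⟩)]
    · rcases eq_or_ne i a with rfl | hne
      · simp
      · simpa [hne] using hy i fun h => hi (Finset.mem_of_mem_erase h)
  rcases hy a (by simp) with ha | ha
  · exact ⟨t, ha ▸ mv _ h1, ha ▸ mv _ h2⟩
  · refine ⟨t, ?_, ?_⟩
    · rw [ha, ← sub_eq_add_neg]; exact mv _ h2
    · rw [ha, sub_neg_eq_add]; exact mv _ h1

/-- Integrals of functions of the other coordinates are unchanged. -/
theorem setIntegral_steiner {a : Fin n} {K : Set (Fin n → ℝ)} (hK : IsCompact K) (hconv : Convex ℝ K)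
    {f : (Fin n → ℝ) → ℝ} (hf : Continuous f) (hfa : ∀ x t, f (update x a t) = f x) :
    ∫ x in steiner a K, f x = ∫ x in K, f x := by
  obtain _ | m := n
  · exact a.elim0
  have hS := steiner_compact (a := a) hK
  have iK : IntegrableOn f K volume := hf.continuousOn.integrableOn_compact hK
  have iS : IntegrableOn f (steiner a K) volume := hf.continuousOn.integrableOn_compact hS
  set e := MeasurableEquiv.piFinSuccAbove (fun _ : Fin (m + 1) => ℝ) a with he
  have hep : MeasurePreserving e volume volume :=
    volume_preserving_piFinSuccAbove (fun _ : Fin (m + 1) => ℝ) a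
  have hsymm : ∀ (z : Fin m → ℝ) (u : ℝ), e.symm (u, z) = a.insertNth u z := fun z u => by
    simp [he, Fin.insertNthEquiv]
  have hfib : ∀ (T : Set (Fin (m + 1) → ℝ)), MeasurableSet T → IntegrableOn f T volume →
      ∫ x in T, f x
        = ∫ z : Fin m → ℝ, f (a.insertNth 0 z) * volume.real {u : ℝ | a.insertNth u z ∈ T} := by
    intro T hT hi
    have hi' : Integrable (T.indicator f) := (integrable_indicator_iff hT).2 hi
    rw [← integral_indicator hT, ← (hep.symm e).integral_comp' (T.indicator f),
      Measure.volume_eq_prod, integral_prod_symm]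
    · refine integral_congr_ae (ae_of_all _ fun z => ?_)
      simp only [hsymm]
      have hm : MeasurableSet {u : ℝ | a.insertNth u z ∈ T} :=
        hT.preimage (Continuous.finInsertNth a continuous_id continuous_const).measurable
      have hval : (fun u : ℝ => T.indicator f (a.insertNth u z))
          = {u : ℝ | a.insertNth u z ∈ T}.indicator fun _ => f (a.insertNth 0 z) := by
        funext u
        by_cases hu : a.insertNth u z ∈ T
        · rw [indicator_of_mem hu, indicator_of_mem (show u ∈ {u : ℝ | a.insertNth u z ∈ T} from hu),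
            ← hfa (a.insertNth 0 z) u, Fin.update_insertNth]
        · rw [indicator_of_notMem hu, indicator_of_notMem (show u ∉ {u : ℝ | a.insertNth u z ∈ T} from hu)]
      rw [hval, integral_indicator_const _ hm, smul_eq_mul, mul_comm]
    · rw [← Measure.volume_eq_prod]
      exact ((hep.symm e).integrable_comp_emb e.symm.measurableEmbedding).2 hi'
  rw [hfib _ hS.measurableSet iS, hfib _ hK.measurableSet iK]
  refine integral_congr_ae (ae_of_all _ fun z => ?_)
  beta_reduce
  congr 1
  set S := {u : ℝ | a.insertNth u z ∈ K} with hSdef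
  have hSS : {x : ℝ | a.insertNth x z ∈ steiner a K}
      = {x : ℝ | ∃ t : ℝ, t + x ∈ S ∧ t - x ∈ S} := by
    ext x
    simp only [steiner, mem_ofPred_eq, Fin.update_insertNth, Fin.insertNth_apply_same, hSdef]
  rw [hSS]
  rcases S.eq_empty_or_nonempty with hne | hne
  · simp [hne]
  obtain ⟨R, hR⟩ := hK.isBounded.subset_closedBall 0
  have hbd : ∀ u ∈ S, |u| ≤ R := fun u hu => by
    have h1 := (norm_le_pi_norm (a.insertNth u z : Fin (m + 1) → ℝ) a).trans
      (mem_closedBall_zero_iff.1 (hR hu))
    simpa using h1
  have hSc : IsCompact S :=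
    (isCompact_Icc (a := -R) (b := R)).of_isClosed_subset
      (hK.isClosed.preimage (Continuous.finInsertNth a continuous_id continuous_const))
      fun u hu => abs_le.1 (hbd u hu)
  have hmax := hSc.sSup_mem hne
  have hmin := hSc.sInf_mem hne
  have hle : ∀ u ∈ S, u ≤ sSup S := fun u hu => le_csSup hSc.bddAbove hu
  have hge : ∀ u ∈ S, sInf S ≤ u := fun u hu => csInf_le hSc.bddBelow hu
  have hSI : S = Icc (sInf S) (sSup S) := by
    refine Subset.antisymm (fun u hu => ⟨hge u hu, hle u hu⟩) fun u hu => ?_
    rcases (hge _ hmax).eq_or_lt with heq | hlt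
    · rw [le_antisymm hu.2 (heq ▸ hu.1)]
      exact hmax
    · obtain ⟨s, t, hs, ht, hst, hu'⟩ := (Convex.mem_Icc hlt.le).1 hu
      have hc := hconv (show a.insertNth (sInf S) z ∈ K from hmin)
        (show a.insertNth (sSup S) z ∈ K from hmax) hs ht hst
      show a.insertNth u z ∈ K
      convert hc using 1
      funext j
      refine Fin.succAboveCases a ?_ (fun l => ?_) j
      · simp only [Fin.insertNth_apply_same, Pi.add_apply, Pi.smul_apply, smul_eq_mul]
        exact hu'.symm
      · simp only [Fin.insertNth_apply_succAbove, Pi.add_apply, Pi.smul_apply, smul_eq_mul]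
        rw [← add_mul, hst, one_mul]
  have hT : {x : ℝ | ∃ t : ℝ, t + x ∈ S ∧ t - x ∈ S}
      = Icc (-((sSup S - sInf S) / 2)) ((sSup S - sInf S) / 2) := by
    ext x
    refine ⟨fun ⟨t, h1, h2⟩ => ⟨by linarith [hle _ h2, hge _ h1], by linarith [hle _ h1, hge _ h2]⟩,
      fun h => ⟨(sSup S + sInf S) / 2, ?_, ?_⟩⟩
    · exact hSI.symm.subset ⟨by linarith [h.1], by linarith [h.2]⟩
    · exact hSI.symm.subset ⟨by linarith [h.2], by linarith [h.1]⟩
  rw [hT, hSI, Real.volume_real_Icc, Real.volume_real_Icc, ← hSI,
    show (sSup S - sInf S) / 2 - -((sSup S - sInf S) / 2) = sSup S - sInf S by ring]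

/-- The properties of the symmetrisation. -/
theorem steinerProps : SteinerProps := fun _ _ _ _ hK hconv hsym =>
  ⟨steiner_compact hK, steiner_convex hconv, steiner_symm hsym,
    fun _ hf hfa => setIntegral_steiner hK hconv hf hfa⟩

end Vale.Agent.P254
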