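import Mathlib
import Vale.Agent.P254.CT.Main
import Vale.Agent.P254.PartialSym
import Vale.Agent.P254.PartialSymSteiner

/-!
The strong isotropic constant inequality for bodies with few non-symmetric coordinates.
-/

noncomputable section

open Set

namespace Vale.Agent.P254

/-- Affine images of bodies symmetric with respect to all but few coordinate hyperplanes. -/
theorem partialSym_strong : ∀ n : ℕ, 2 ≤ n →
    ∀ K : Set (Fin n → ℝ), IsCompact K → Convex ℝ K → (interior K).Nonempty →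
    ∀ (A : (Fin n → ℝ) ≃ᵃ[ℝ] (Fin n → ℝ)) (S : Finset (Fin n)),
      150 * (S.card : ℝ) * (1 + Real.log n) ≤ n →
      (∀ x ∈ A '' K, ∀ y : Fin n → ℝ, (∀ i ∈ S, y i = x i) →
        (∀ i, i ∉ S → y i = x i ∨ y i = -x i) → y ∈ A '' K) →
      isoConst K ≤ Real.sqrt 2 / 4 * ((S.card.factorial : ℝ) * (64 * ((n : ℝ) + 1) ^ 2) ^ S.card)
          ^ ((1 : ℝ) / (2 * n)) ∧
        ∀ B : (Fin n → ℝ) ≃ᵃ[ℝ] (Fin n → ℝ), isoConst K < isoConst (B '' stdSimplexBody n) :=
  partialSym_strong_of CT.centroidBox steinerProps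

end Vale.Agent.P254
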