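import Mathlib
import Vale.Agent.P254.Defs
import Vale.Agent.P254.Tail
import Vale.Agent.P254.Main
import Vale.Agent.P254.SquareProduct
import Vale.Agent.P254.UncondMoment

/-!
A dimension-free bound for the isotropic constant of every unconditional convex body.
-/

noncomputable section

open MeasureTheory Set Finset Matrix
open scoped BigOperators ENNReal Topology

namespace Vale.Agent.P254

lemma harmonic_sub_log_lt (n : ℕ) :
    ((harmonic n : ℚ) : ℝ) - Real.log ((n : ℝ) + 1) < 5812 / 10000 := by
  have h := Real.eulerMascheroniSeq_lt_eulerMascheroniSeq' n 128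
  have hH : (harmonic 128 : ℚ) < 543315 / 100000 := by
    norm_num [harmonic, Finset.sum_range_succ]
  have hH' : ((harmonic 128 : ℚ) : ℝ) < 543315 / 100000 := by
    have : ((harmonic 128 : ℚ) : ℝ) < ((543315 / 100000 : ℚ) : ℝ) := by exact_mod_cast hH
    push_cast at this
    exact this
  have hlog : Real.log (((128 : ℕ)) : ℝ) = 7 * Real.log 2 := by
    rw [show (((128 : ℕ)) : ℝ) = (2 : ℝ) ^ 7 by norm_num, Real.log_pow]
    norm_num
  have hl2 := Real.log_two_gt_d9
  simp only [Real.eulerMascheroniSeq, Real.eulerMascheroniSeq', if_neg (show (128 : ℕ) ≠ 0 by norm_num),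
    hlog] at h
  linarith

/-- Every unconditional convex body has isotropic constant below `0.466`. -/
lemma isoConst_unconditional_lt {n : ℕ} (hn : 2 ≤ n) {K : Set (Fin n → ℝ)} (hK : IsCompact K)
    (hconv : Convex ℝ K) (hV : 0 < (volume K).toReal)
    (hsign : ∀ x ∈ K, ∀ y, (∀ i, y i = x i ∨ y i = -x i) → y ∈ K) :
    isoConst K < 466 / 1000 := by
  obtain ⟨k, rfl⟩ : ∃ k, n = k + 1 := ⟨n - 1, by omega⟩
  have hk : k ≠ 0 := by omega
  have hD := isDownward_of_unconditional hconv hsign
  set V := (volume K).toReal with hVdef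
  set m : Fin (k + 1) → ℝ := fun i => V⁻¹ * ∫ x in K, x i ^ 2 with hm
  have hmpos : ∀ i, 0 < m i := fun i =>
    (coord_negMoment_le_general hk hK hconv hD hV i (s := 1 / 2) (by norm_num) (by norm_num)).1
  set Hs : ℝ → ℝ := fun s => ∑ j ∈ range (k + 1), 1 / ((j : ℝ) + 1 - s) with hHs
  set L := ∑ i, Real.log (m i) with hL
  set ρ : ℝ := ((k : ℝ) + 2) * ((k : ℝ) + 3) / 2 with hρ
  have hρ0 : 0 < ρ := by positivity
  have key : ∀ s : ℝ, 0 < s → s < 1 → L - 2 * Real.log V
      ≤ 2 * ((k : ℝ) + 1) * (Hs s - 1 - Real.log 2) - ((k : ℝ) + 1) * Real.log ρ := by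
    intro s hs0 hs1
    set Q := ∏ j ∈ range (k + 1), ((j : ℝ) + 1) / ((j : ℝ) + 1 - s) with hQ
    have hden : ∀ j : ℕ, 0 < (j : ℝ) + 1 - s := fun j => by
      linarith [Nat.cast_nonneg (α := ℝ) j]
    have hQ0 : 0 < Q := prod_pos fun j _ => div_pos (by positivity) (hden j)
    have hlogQ : Real.log Q ≤ s * Hs s := by
      rw [hQ, Real.log_prod fun j _ => (div_pos (by positivity) (hden j)).ne', hHs, Finset.mul_sum]
      refine sum_le_sum fun j _ => ?_
      refine (Real.log_le_sub_one_of_pos (div_pos (by positivity) (hden j))).trans (le_of_eq ?_)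
      have := (hden j).ne'
      field_simp
      ring
    have hb : ∀ i, ∫⁻ x in K, negPow s (x i)
        ≤ ENNReal.ofReal (V * (ρ * m i) ^ (-s / 2) * Q) := fun i =>
      (coord_negMoment_le_general hk hK hconv hD hV i hs0 hs1).2
    have hterm : ∀ i, 0 < V * (ρ * m i) ^ (-s / 2) * Q := fun i =>
      mul_pos (mul_pos hV (Real.rpow_pos_of_pos (mul_pos hρ0 (hmpos i)) _)) hQ0
    have h := (prod_negMoment_lower hs0 hs1 hK hD hV).trans
      (Finset.prod_le_prod' fun i _ => hb i)
    rw [← ENNReal.ofReal_prod_of_nonneg fun i _ => (hterm i).le,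
      ENNReal.ofReal_le_ofReal_iff (prod_nonneg fun i _ => (hterm i).le), ← hVdef] at h
    have hlog := Real.log_le_log (mul_pos (Real.rpow_pos_of_pos (by positivity) _)
      (Real.rpow_pos_of_pos hV _)) h
    have e : ∀ i, Real.log (V * (ρ * m i) ^ (-s / 2) * Q)
        = Real.log V + -s / 2 * (Real.log ρ + Real.log (m i)) + Real.log Q := by
      intro i
      have hp : 0 < ρ * m i := mul_pos hρ0 (hmpos i)
      rw [Real.log_mul (mul_pos hV (Real.rpow_pos_of_pos hp _)).ne' hQ0.ne',
        Real.log_mul hV.ne' (Real.rpow_pos_of_pos hp _).ne', Real.log_rpow hp,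
        Real.log_mul hρ0.ne' (hmpos i).ne']
    rw [Real.log_mul (Real.rpow_pos_of_pos (by positivity) _).ne'
        (Real.rpow_pos_of_pos hV _).ne', Real.log_rpow (by positivity), Real.log_rpow hV,
      Real.log_mul two_ne_zero (Real.exp_pos 1).ne', Real.log_exp,
      Real.log_prod fun i _ => (hterm i).ne'] at hlog
    simp only [e, Finset.sum_add_distrib, Finset.sum_const, Finset.card_univ, Fintype.card_fin,
      nsmul_eq_mul, ← Finset.mul_sum, ← hL] at hlog
    push_cast at hlog
    have hk1 : (0 : ℝ) < k + 1 := by positivity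
    refine le_of_mul_le_mul_left ?_ (show (0 : ℝ) < s / 2 by positivity)
    nlinarith [mul_le_mul_of_nonneg_left hlogQ hk1.le]
  have hH0 : Hs 0 = ((harmonic (k + 1) : ℚ) : ℝ) := by
    simp [hHs, harmonic]
  have hH : Filter.Tendsto Hs (𝓝[>] 0) (𝓝 (((harmonic (k + 1) : ℚ) : ℝ))) := by
    have hc : ContinuousAt Hs 0 := by
      refine tendsto_finsetSum _ fun j _ => ?_
      exact ContinuousAt.div continuousAt_const (by fun_prop) (by
        simp only [sub_zero]; positivity)
    have := hc.tendsto.mono_left (nhdsWithin_le_nhds (s := Set.Ioi (0 : ℝ)))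
    rwa [hH0] at this
  have hbound : L - 2 * Real.log V
      ≤ 2 * ((k : ℝ) + 1) * (((harmonic (k + 1) : ℚ) : ℝ) - 1 - Real.log 2)
        - ((k : ℝ) + 1) * Real.log ρ := by
    refine ge_of_tendsto (((((hH.sub_const 1).sub_const (Real.log 2)).const_mul _).sub_const _)) ?_
    filter_upwards [self_mem_nhdsWithin,
      mem_nhdsWithin_of_mem_nhds (Iio_mem_nhds zero_lt_one)] with s hs hs'
    exact key s hs hs'
  have hdet : (covMatrix K).det = ∏ i, m i := by
    rw [covMatrix_unconditional hsign, Matrix.det_diagonal]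
  have hdetpos : 0 < ∏ i, m i := prod_pos fun i _ => hmpos i
  set c : ℝ := 466 / 1000 with hc
  have hc0 : 0 < c := by norm_num [hc]
  have hγ := harmonic_sub_log_lt (k + 1)
  push_cast at hγ
  have hlρ : 2 * Real.log ((k : ℝ) + 1 + 1) - Real.log 2 ≤ Real.log ρ := by
    have h1 : 2 * Real.log ((k : ℝ) + 1 + 1) - Real.log 2
        = Real.log (((k : ℝ) + 1 + 1) ^ 2 / 2) := by
      rw [Real.log_div (by positivity) two_ne_zero, Real.log_pow]
      norm_num
    rw [h1, hρ]
    refine Real.log_le_log (by positivity) ?_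
    have := Nat.cast_nonneg (α := ℝ) k
    nlinarith
  have hlc : -(8376 / 10000) - Real.log 2 ≤ 2 * Real.log c := by
    have he := Real.sum_le_exp_of_nonneg (x := (8376 / 10000 : ℝ)) (by norm_num) 6
    norm_num [Finset.sum_range_succ, Nat.factorial] at he
    have h2 : (1 : ℝ) / (2 * c ^ 2) ≤ Real.exp (8376 / 10000) := by
      rw [show (8376 / 10000 : ℝ) = 1047 / 1250 by norm_num]
      refine le_trans ?_ he
      norm_num [hc]
    have h3 := Real.log_le_log (by positivity) h2
    rw [Real.log_exp, one_div, Real.log_inv, Real.log_mul two_ne_zero (by positivity),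
      Real.log_pow] at h3
    push_cast at h3
    linarith
  have hbase : (covMatrix K).det / V ^ 2 < c ^ (2 * (k + 1)) := by
    rw [hdet, ← Real.log_lt_log_iff (by positivity) (by positivity),
      Real.log_div hdetpos.ne' (by positivity), Real.log_prod fun i _ => (hmpos i).ne',
      Real.log_pow, Real.log_pow, ← hL]
    push_cast
    have hk1 : (0 : ℝ) < k + 1 := by positivity
    have h1 := mul_le_mul_of_nonneg_left hlρ hk1.le
    have h2 := mul_lt_mul_of_pos_left hγ hk1
    have h3 := mul_le_mul_of_nonneg_left hlc hk1.le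
    linear_combination (norm := (ring_nf; norm_num)) hbound + h1 + 2 * h2 + h3
  rw [isoConst]
  have hpow : c = (c ^ (2 * (k + 1))) ^ ((1 : ℝ) / (2 * ((k + 1 : ℕ) : ℝ))) := by
    rw [← Real.rpow_natCast, ← Real.rpow_mul hc0.le]
    push_cast
    rw [mul_one_div, div_self (by positivity), Real.rpow_one]
  rw [hpow]
  refine Real.rpow_lt_rpow ?_ hbase (by positivity)
  rw [hdet]; positivity

end Vale.Agent.P254
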